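import Crest.Agent.Lib.PT.Dec

/-!
# `Lib.PT`: polynomial-time computability, user guide

`import Crest.Agent.Lib.PT.All` and `open Crest.Agent.Lib.PT`.

* `Enc α` codes (instances: `Bool, Prop, ℕ, ℤ, ℚ` in binary, `List, Option, Sum, Prod, Subtype, Fin n`,
  `Unit`, `Un` = unary numbers); `sz a` is the size of the code.  For your own structure give
  `instance : Enc S := Enc.ofInj (fun s => (s.a, s.b)) (by ...)`, or just use tuples.
* `PT f` (polynomial time) and `PB g` (`g a ≤ poly (sz a)`) are `fun_prop` predicates.
  Write your algorithm as ordinary list/number functions, then `unfold foo; fun_prop`.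
  Tag your own lemmas `@[fun_prop] theorem foo_pt {x : α → _} (hx : PT x) : PT fun a => foo (x a)`.
  If `foo` returns a tuple, make it `attribute [irreducible] foo` (else `fun_prop` unfolds it).
* Numbers used as counters (`List.range n`, `replicate n`, `x ^ n`, `f^[n]`) need both `PT n` and
  `PB n`.  `fun_prop` proves `PB` for lengths, sizes, logs, `Un` values, sums and products of such.
  An index running over `range n` is bounded: use `PT.map_range`, `PT.sum_range'`, `PB.idx`,
  or clamp it (`min i n`, `PB.min_right`).
* Loops need a size bound: `PT.foldl_grow`, `foldl_of_prefix`, `foldl_inv`, `foldr_*`,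
  `iterate`, `iterate_grow`, `iterate_inv`, `nat_rec`, `linrec`, `tailrec`, `loop`, `loop_inv`.
  Size lemmas: `sz_mk, sz_cons, sz_append, sz_list_le, sz_nat_le_of_lt, sz_int_le_of_lt,
  sz_rat_le_of_lt` (with the height `ratH`), `lt_two_pow_sz`.
* Quantifiers and implications are not found by `fun_prop`: use `PT.ball, bex, ball_lt, bex_lt, imp`.
  Pattern matching: `PT.list_cases, option_cases, sum_cases, by_cases` (or rewrite with
  `headD / tail / getD / Option.elim`).
* Codes of the prelude: writers `PT.natCode, intCode, ratCode, listCode`; readers `parseNat`,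
  `parseInt, parseRat, parseBool, parseUnary, parsePair, parseN, parseList, parseTable, parseGraph`
  with `parseNat_natCode` etc. and `PT.parseN, PT.parseList` (need `Shrinks`).
* Bridge: `PT.polyTime, polyTimePred, polyTimePred₂, randPolyTime, inP, inNP, inNP',
  polyTimeReducible, polyTimeComputable, timeBoundComputable', timeBound_pad, timeBound_quasipoly`.
-/

set_option linter.dupNamespace false

namespace Crest.Agent.Lib.PT

universe u v w

/-- Codes through an injection into an encoded type. -/
@[reducible] def Enc.ofInj {α : Type u} {β : Type v} [Enc β] (f : α → β)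
    (hf : Function.Injective f) : Enc α :=
  ⟨fun a => enc (f a), fun _ _ h => hf (enc_inj.1 h)⟩

section examples

open Crest.Enc Crest.Complexity

/-- Input: `natCode p ++ 1^n`.  Output: the table of `(i + 1) ^ n mod p`, `i, j < n`. -/
private def ex1 (x : List Bool) : List Bool :=
  ((List.range (parseNat x).2.length).map fun i =>
    natCode ((i + 1) ^ (parseNat x).2.length % (parseNat x).1)).flatten

example : PolyTime ex1 := PT.polyTime (by unfold ex1; fun_prop)

/-- An exponent that is a loop index. -/
example : PT fun l : List ℚ => ∑ i ∈ Finset.range l.length, l.getD i 0 ^ i :=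
  PT.sum_range' (by fun_prop) (by fun_prop) (by fun_prop)
    (PT.rat_pow (by fun_prop) (by fun_prop) (PB.idx (n := fun l : List ℚ => l.length) (by fun_prop)))

example : InP {x | ∀ i < x.length, x.getD i false = x.getD (x.length - 1 - i) false} :=
  PT.inP (PT.ball_lt (by fun_prop) (by fun_prop) (by fun_prop))

/-- Matrix product of lists of rows. -/
example : PT fun p : List (List ℤ) × List (List ℤ) =>
    p.1.map fun r => (List.range (p.2.headD []).length).map fun j =>
      (List.zipWith (fun a s => a * s.getD j 0) r p.2).sum := by fun_prop

end examples

end Crest.Agent.Lib.PT
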