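import Crest.Agent.Lib.PT.Tree

/-!
# Polynomial-time computable functions between encoded types

* `Enc α` : an injective encoding of `α` by binary trees, `sz a` the size of the code.
* `PB g` : `g : α → ℕ` is bounded by a polynomial in `sz`.
* `PT f` : `f : α → β` is computable in polynomial time.  Both are `fun_prop` predicates.
* Predicates `p : α → Prop` are functions into the encoded type `Prop`.
* `Un` : natural numbers in unary (loop counters, exponents).
-/

set_option linter.dupNamespace false

namespace Crest.Agent.Lib.PT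

universe u v w x

/-- An injective encoding into binary trees. -/
class Enc (α : Type u) where
  /-- the code -/
  enc : α → V
  /-- codes determine values -/
  inj : Function.Injective enc

export Enc (enc)

/-- Size of the code. -/
def sz {α : Type u} [Enc α] (a : α) : ℕ := (enc a).size

theorem sz_pos {α : Type u} [Enc α] (a : α) : 0 < sz a := V.size_pos _

theorem one_le_sz {α : Type u} [Enc α] (a : α) : 1 ≤ sz a := V.size_pos _

theorem enc_inj {α : Type u} [Enc α] {a b : α} : enc a = enc b ↔ a = b := Enc.inj.eq_iff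

/-! ### Instances -/

section instances

variable {α : Type u} {β : Type v}

instance encV : Enc V := ⟨id, fun _ _ h => h⟩

instance encUnit : Enc PUnit.{u + 1} := ⟨fun _ => .nil, fun _ _ _ => rfl⟩

theorem ofBool_inj : Function.Injective V.ofBool := by
  intro a b h; cases a <;> cases b <;> simp_all [V.ofBool]

instance encBool : Enc Bool := ⟨V.ofBool, ofBool_inj⟩

open Classical in
noncomputable instance encProp : Enc Prop :=
  ⟨fun p => V.ofBool (decide p), fun p q h => by simpa using ofBool_inj h⟩

instance encProd [Enc α] [Enc β] : Enc (α × β) :=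
  ⟨fun p => .node (enc p.1) (enc p.2), fun p q h => by
    simp only [V.node.injEq, enc_inj] at h; exact Prod.ext h.1 h.2⟩

/-- Code of a list. -/
def encL [Enc α] : List α → V
  | [] => .nil
  | a :: l => .node (enc a) (encL l)

theorem encL_inj [Enc α] : Function.Injective (encL : List α → V) := by
  intro l
  induction l with
  | nil => intro l' h; cases l' <;> simp_all [encL]
  | cons a l ih =>
    intro l' h
    cases l' with
    | nil => simp [encL] at h
    | cons b l' =>
      simp only [encL, V.node.injEq, enc_inj] at h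
      rw [h.1, ih h.2]

instance encList [Enc α] : Enc (List α) := ⟨encL, encL_inj⟩

instance encOption [Enc α] : Enc (Option α) :=
  ⟨fun o => enc o.toList, fun a b h => by
    have := enc_inj.1 h
    cases a <;> cases b <;> simp_all⟩

instance encSum [Enc α] [Enc β] : Enc (α ⊕ β) :=
  ⟨fun s => enc (Sum.elim (fun a => (false, enc a)) (fun b => (true, enc b)) s : Bool × V),
    fun a b h => by
      have := enc_inj.1 h
      cases a <;> cases b <;> simp_all [enc_inj]⟩

/-- The number with the given binary digits, least significant first. -/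
def ofBits (l : List Bool) : ℕ := l.foldr Nat.bit 0

@[simp] theorem ofBits_nil : ofBits [] = 0 := rfl
@[simp] theorem ofBits_cons (b : Bool) (l : List Bool) :
    ofBits (b :: l) = Nat.bit b (ofBits l) := rfl

@[simp] theorem ofBits_bits (n : ℕ) : ofBits n.bits = n := by
  induction n using Nat.binaryRec' with
  | zero => simp
  | bit b n h ih => rw [Nat.bits_append_bit _ _ h, ofBits_cons, ih]

instance encNat : Enc ℕ :=
  ⟨fun n => enc n.bits, fun a b h => by
    have := congrArg ofBits (enc_inj.1 h)
    simpa using this⟩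

/-- Natural numbers written in unary. -/
@[ext] structure Un where
  /-- the number -/
  n : ℕ

instance encUn : Enc Un :=
  ⟨fun u => enc (List.replicate u.n ()), fun a b h => by
    have := congrArg List.length (enc_inj.1 h)
    ext; simpa using this⟩

instance encSubtype [Enc α] {p : α → Prop} : Enc (Subtype p) :=
  ⟨fun a => enc a.1, fun _ _ h => Subtype.ext (enc_inj.1 h)⟩

instance encFin {n : ℕ} : Enc (Fin n) := ⟨fun a => enc a.1, fun _ _ h => Fin.ext (enc_inj.1 h)⟩

instance encInt : Enc ℤ :=
  ⟨fun z => enc (decide (z < 0), z.natAbs), fun a b h => by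
    have := enc_inj.1 h
    simp only [Prod.mk.injEq, decide_eq_decide] at this
    omega⟩

instance encRat : Enc ℚ :=
  ⟨fun q => enc (q.num, q.den), fun a b h => by
    have := enc_inj.1 h
    simp only [Prod.mk.injEq] at this
    exact Rat.ext this.1 this.2⟩

theorem enc_V (v : V) : enc v = v := rfl
theorem enc_unit (u : PUnit.{u + 1}) : enc u = V.nil := rfl
theorem enc_false : enc false = V.nil := rfl
theorem enc_true : enc true = V.node .nil .nil := rfl
theorem enc_bool (b : Bool) : enc b = V.ofBool b := rfl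
theorem enc_prop (p : Prop) [Decidable p] : enc p = enc (decide p) := by
  show V.ofBool _ = V.ofBool _
  congr
theorem enc_prod [Enc α] [Enc β] (p : α × β) : enc p = V.node (enc p.1) (enc p.2) := rfl
theorem enc_mk [Enc α] [Enc β] (a : α) (b : β) : enc (a, b) = V.node (enc a) (enc b) := rfl
theorem enc_nil [Enc α] : enc ([] : List α) = V.nil := rfl
theorem enc_cons [Enc α] (a : α) (l : List α) : enc (a :: l) = V.node (enc a) (enc l) := rfl
theorem enc_none [Enc α] : enc (none : Option α) = V.nil := rfl
theorem enc_some [Enc α] (a : α) : enc (some a) = V.node (enc a) V.nil := rfl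
theorem enc_option [Enc α] (o : Option α) : enc o = enc o.toList := rfl
theorem enc_inl [Enc α] [Enc β] (a : α) :
    enc (Sum.inl a : α ⊕ β) = V.node (enc false) (enc a) := rfl
theorem enc_inr [Enc α] [Enc β] (b : β) :
    enc (Sum.inr b : α ⊕ β) = V.node (enc true) (enc b) := rfl
theorem enc_nat (n : ℕ) : enc n = enc n.bits := rfl
theorem enc_un (u : Un) : enc u = enc (List.replicate u.n ()) := rfl
theorem enc_subtype [Enc α] {p : α → Prop} (a : Subtype p) : enc a = enc a.1 := rfl
theorem enc_fin {n : ℕ} (a : Fin n) : enc a = enc a.1 := rfl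
theorem enc_int (z : ℤ) : enc z = enc (decide (z < 0), z.natAbs) := rfl
theorem enc_rat (q : ℚ) : enc q = enc (q.num, q.den) := rfl

@[simp] theorem sz_V (v : V) : sz v = v.size := rfl
@[simp] theorem sz_unit (u : PUnit.{u + 1}) : sz u = 1 := rfl
theorem sz_bool_le (b : Bool) : sz b ≤ 3 := V.size_ofBool_le b
theorem sz_prop_le (p : Prop) : sz p ≤ 3 := V.size_ofBool_le _
@[simp] theorem sz_mk [Enc α] [Enc β] (a : α) (b : β) : sz (a, b) = sz a + sz b + 1 := rfl
theorem sz_prod [Enc α] [Enc β] (p : α × β) : sz p = sz p.1 + sz p.2 + 1 := rfl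
@[simp] theorem sz_nil [Enc α] : sz ([] : List α) = 1 := rfl
@[simp] theorem sz_cons [Enc α] (a : α) (l : List α) : sz (a :: l) = sz a + sz l + 1 := rfl
@[simp] theorem sz_none [Enc α] : sz (none : Option α) = 1 := rfl
@[simp] theorem sz_some [Enc α] (a : α) : sz (some a) = sz a + 2 := rfl
@[simp] theorem sz_inl [Enc α] [Enc β] (a : α) : sz (Sum.inl a : α ⊕ β) = sz a + 2 := by
  show 1 + sz a + 1 = _; omega
@[simp] theorem sz_inr [Enc α] [Enc β] (b : β) : sz (Sum.inr b : α ⊕ β) = sz b + 4 := by
  show 3 + sz b + 1 = _; omega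
theorem sz_subtype [Enc α] {p : α → Prop} (a : Subtype p) : sz a = sz a.1 := rfl
theorem sz_fin {n : ℕ} (a : Fin n) : sz a = sz a.1 := rfl
theorem sz_nat (n : ℕ) : sz n = sz n.bits := rfl
theorem sz_int (z : ℤ) : sz z = sz (decide (z < 0)) + sz z.natAbs + 1 := rfl
theorem sz_rat (q : ℚ) : sz q = sz q.num + sz q.den + 1 := rfl

@[simp] theorem sz_append [Enc α] (l l' : List α) : sz (l ++ l') + 1 = sz l + sz l' := by
  induction l with
  | nil => simp; omega
  | cons a l ih => simp; omega

@[simp] theorem sz_reverse [Enc α] (l : List α) : sz l.reverse = sz l := by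
  induction l with
  | nil => rfl
  | cons a l ih =>
    have := sz_append l.reverse [a]
    simp only [List.reverse_cons, sz_cons, sz_nil] at this ⊢; omega

theorem length_le_sz [Enc α] (l : List α) : 2 * l.length + 1 ≤ sz l := by
  induction l with
  | nil => simp
  | cons a l ih => have := one_le_sz a; simp; omega

theorem sz_le_of_mem [Enc α] {l : List α} {a : α} (h : a ∈ l) : sz a ≤ sz l := by
  induction l with
  | nil => simp at h
  | cons b l ih =>
    rcases List.mem_cons.1 h with rfl | h
    · simp; omega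
    · have := ih h; simp; omega

theorem sz_list_le [Enc α] {l : List α} {B : ℕ} (h : ∀ a ∈ l, sz a ≤ B) :
    sz l ≤ l.length * (B + 1) + 1 := by
  induction l with
  | nil => simp
  | cons b l ih =>
    have h1 := h b (by simp)
    have h2 := ih fun a ha => h a (by simp [ha])
    simp only [sz_cons, List.length_cons, Nat.succ_mul]; omega

theorem sz_sublist [Enc α] {l l' : List α} (h : l.Sublist l') : sz l ≤ sz l' := by
  induction h with
  | slnil => simp
  | cons a _ ih => simp; omega
  | cons_cons a _ ih => simp; omega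

theorem sz_replicate [Enc α] (n : ℕ) (a : α) : sz (List.replicate n a) = n * (sz a + 1) + 1 := by
  induction n with
  | zero => simp
  | succ n ih => simp only [List.replicate_succ, sz_cons, ih, Nat.succ_mul]; omega

@[simp] theorem sz_un (u : Un) : sz u = 2 * u.n + 1 := by
  show sz (List.replicate u.n ()) = _
  rw [sz_replicate]; simp; omega

theorem sz_boolList_le (l : List Bool) : sz l ≤ 4 * l.length + 1 := by
  have := sz_list_le (l := l) (B := 3) fun a _ => sz_bool_le a
  omega

theorem sz_nat_le (n : ℕ) : sz n ≤ 4 * n.size + 1 := by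
  rw [← Nat.size_eq_bits_len]; exact sz_boolList_le _

theorem size_le_sz (n : ℕ) : 2 * n.size + 1 ≤ sz n := by
  rw [← Nat.size_eq_bits_len]; exact length_le_sz _

theorem lt_two_pow_sz (n : ℕ) : n < 2 ^ sz n :=
  (Nat.lt_size_self n).trans_le (Nat.pow_le_pow_right (by omega) (by have := size_le_sz n; omega))

/-- A number below `2 ^ k` has a code of size at most `4 * k + 1`. -/
theorem sz_nat_le_of_lt {n k : ℕ} (h : n < 2 ^ k) : sz n ≤ 4 * k + 1 := by
  have := sz_nat_le n
  have := Nat.size_le.2 h
  omega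

theorem sz_nat_le_of_le {n m : ℕ} (h : n ≤ m) : sz n ≤ 2 * sz m := by
  have := sz_nat_le n
  have := size_le_sz m
  have := Nat.size_le_size h
  omega

theorem sz_nat_le_self (n : ℕ) : sz n ≤ 4 * n + 1 := sz_nat_le_of_lt Nat.lt_two_pow_self

end instances

/-! ### Polynomially bounded functions -/

/-- `g` is bounded by a polynomial in the size of its argument. -/
@[fun_prop] def PB {α : Type u} [Enc α] (g : α → ℕ) : Prop :=
  ∃ c k : ℕ, ∀ a, g a ≤ c * sz a ^ k

namespace PB

variable {α : Type u} {β : Type v} [Enc α] [Enc β] {f g : α → ℕ}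

theorem mono (h : PB g) (hf : ∀ a, f a ≤ g a) : PB f := by
  obtain ⟨c, k, h⟩ := h
  exact ⟨c, k, fun a => (hf a).trans (h a)⟩

@[fun_prop] theorem const (n : ℕ) : PB (fun _ : α => n) := ⟨n, 0, fun a => by simp⟩

theorem sz_self : PB (fun a : α => sz a) := ⟨1, 1, fun a => by simp⟩

@[fun_prop] theorem add (hf : PB f) (hg : PB g) : PB (fun a => f a + g a) := by
  obtain ⟨c, k, hf⟩ := hf
  obtain ⟨c', k', hg⟩ := hg
  refine ⟨c + c', k + k', fun a => ?_⟩
  have h1 : sz a ^ k ≤ sz a ^ (k + k') := Nat.pow_le_pow_right (sz_pos a) (by omega)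
  have h2 : sz a ^ k' ≤ sz a ^ (k + k') := Nat.pow_le_pow_right (sz_pos a) (by omega)
  have := Nat.mul_le_mul_left c h1
  have := Nat.mul_le_mul_left c' h2
  have := hf a
  have := hg a
  simp only [Nat.add_mul]; omega

@[fun_prop] theorem mul (hf : PB f) (hg : PB g) : PB (fun a => f a * g a) := by
  obtain ⟨c, k, hf⟩ := hf
  obtain ⟨c', k', hg⟩ := hg
  refine ⟨c * c', k + k', fun a => ?_⟩
  calc f a * g a ≤ (c * sz a ^ k) * (c' * sz a ^ k') := Nat.mul_le_mul (hf a) (hg a)
    _ = _ := by ring

@[fun_prop] theorem pow (hf : PB f) (n : ℕ) : PB (fun a => f a ^ n) := by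
  induction n with
  | zero => simpa using const 1
  | succ n ih => simpa [pow_succ] using ih.mul hf

@[fun_prop] theorem succ (hf : PB f) : PB (fun a => (f a).succ) := hf.add (const 1)

@[fun_prop] theorem max (hf : PB f) (hg : PB g) : PB (fun a => max (f a) (g a)) :=
  (hf.add hg).mono fun a => by omega

@[fun_prop] theorem sub (hf : PB f) (g : α → ℕ) : PB (fun a => f a - g a) :=
  hf.mono fun a => by omega

@[fun_prop] theorem div (hf : PB f) (g : α → ℕ) : PB (fun a => f a / g a) :=
  hf.mono fun _ => Nat.div_le_self _ _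

theorem min_left (hf : PB f) (g : α → ℕ) : PB (fun a => min (f a) (g a)) :=
  hf.mono fun a => by omega

theorem min_right (f : α → ℕ) (hg : PB g) : PB (fun a => min (f a) (g a)) :=
  hg.mono fun a => by omega

@[fun_prop] theorem eval (hf : PB f) (P : Polynomial ℕ) : PB (fun a => P.eval (f a)) := by
  induction P using Polynomial.induction_on' with
  | add p q hp hq => simpa using hp.add hq
  | monomial n c => simpa using (const c).mul (hf.pow n)

/-- Composition with a map whose output size is polynomially bounded. -/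
theorem comp_sz {g : β → ℕ} (hg : PB g) {e : α → β} (he : PB fun a => sz (e a)) :
    PB (fun a => g (e a)) := by
  obtain ⟨c, k, hg⟩ := hg
  exact ((const c).mul (he.pow k)).mono fun a => hg (e a)

end PB

/-! ### Polynomial time -/

/-- `f` is computed within `T a` steps on input `a`. -/
def TC {α : Type u} {β : Type v} [Enc α] [Enc β] (f : α → β) (T : α → ℕ) : Prop :=
  Cmp (fun a => enc a) (fun a => enc (f a)) T

/-- `f` is computable in polynomial time. -/
@[fun_prop] def PT {α : Type u} {β : Type v} [Enc α] [Enc β] (f : α → β) : Prop :=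
  ∃ T, PB T ∧ TC f T

section core

variable {α : Type u} {β : Type v} {γ : Type w} {δ : Type x} [Enc α] [Enc β] [Enc γ] [Enc δ]

@[fun_prop] protected theorem PB.sz {f : α → β} (hf : PT f) : PB (fun a => sz (f a)) := by
  obtain ⟨T, hT, h⟩ := hf
  exact (PB.sz_self.add hT).mono h.size_le

@[fun_prop] theorem PB.comp {g : β → ℕ} {f : α → β} (hg : PB g) (hf : PT f) :
    PB (fun a => g (f a)) := hg.comp_sz (PB.sz hf)

@[fun_prop] theorem PB.length {l : α → List β} (hl : PT l) : PB (fun a => (l a).length) :=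
  (PB.sz hl).mono fun a => by have := length_le_sz (l a); omega

@[fun_prop] theorem PB.un {u : α → Un} (hu : PT u) : PB (fun a => (u a).n) :=
  (PB.sz hu).mono fun a => by simp; omega

@[fun_prop] theorem PB.size {n : α → ℕ} (hn : PT n) : PB (fun a => (n a).size) :=
  (PB.sz hn).mono fun a => by have := size_le_sz (n a); omega

namespace PT

theorem of_enc_eq {f : α → β} {g : α → γ} (hg : PT g) (h : ∀ a, enc (f a) = enc (g a)) :
    PT f := by
  obtain ⟨T, hT, hg⟩ := hg
  exact ⟨T, hT, Cmp.congr hg (fun _ => rfl) h⟩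

theorem of_eq {f g : α → β} (hg : PT g) (h : ∀ a, g a = f a) : PT f :=
  hg.of_enc_eq fun a => by rw [h]

theorem of_iff {p q : α → Prop} (hq : PT q) (h : ∀ a, q a ↔ p a) : PT p :=
  hq.of_eq fun a => propext (h a)

@[fun_prop] theorem id : PT (fun a : α => a) := ⟨_, PB.const 1, Cmp.refl _⟩

/-- A map that does not change the code. -/
theorem of_enc {f : α → β} (h : ∀ a, enc (f a) = enc a) : PT f := id.of_enc_eq h

@[fun_prop] theorem const (b : β) : PT (fun _ : α => b) :=
  ⟨_, ((PB.const 7).mul PB.sz_self).add (PB.const (sz b)) |>.add (PB.const 5), Cmp.const _ _⟩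

@[fun_prop] theorem comp {g : β → γ} {f : α → β} (hg : PT g) (hf : PT f) :
    PT (fun a => g (f a)) := by
  obtain ⟨T', hT', hg⟩ := hg
  have h2 := PB.comp hT' hf
  obtain ⟨T, hT, hf⟩ := hf
  exact ⟨_, hT.add h2, Cmp.trans hf (Cmp.reindex hg f)⟩

@[fun_prop] theorem comp' {g : β → γ} {f : α → β} (hg : PT g) (hf : PT f) : PT (g ∘ f) :=
  hg.comp hf

@[fun_prop] theorem enc {f : α → β} (hf : PT f) : PT (fun a => Enc.enc (f a)) :=
  hf.of_enc_eq fun _ => rfl

@[fun_prop] theorem pair {f : α → β} {g : α → γ} (hf : PT f) (hg : PT g) :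
    PT (fun a => (f a, g a)) := by
  obtain ⟨T, hT, hf⟩ := hf
  obtain ⟨T', hT', hg⟩ := hg
  exact ⟨_, ((hT.add ((PB.const 12).mul hT')).add ((PB.const 30).mul PB.sz_self)).add
    (PB.const 17), Cmp.pair hf hg⟩

@[fun_prop] theorem node {f g : α → V} (hf : PT f) (hg : PT g) :
    PT (fun a => V.node (f a) (g a)) := (hf.pair hg).of_enc_eq fun _ => rfl

@[fun_prop] theorem left {f : α → V} (hf : PT f) : PT (fun a => (f a).left) :=
  comp (g := V.left) ⟨_, ((PB.const 14).mul PB.sz_self).add (PB.const 15), Cmp.left _⟩ hf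

@[fun_prop] theorem right {f : α → V} (hf : PT f) : PT (fun a => (f a).right) :=
  comp (g := V.right) ⟨_, ((PB.const 7).mul PB.sz_self).add (PB.const 5), Cmp.right _⟩ hf

@[fun_prop] theorem fst {f : α → β × γ} (hf : PT f) : PT (fun a => (f a).1) :=
  hf.enc.left.of_enc_eq fun _ => rfl

@[fun_prop] theorem snd {f : α → β × γ} (hf : PT f) : PT (fun a => (f a).2) :=
  hf.enc.right.of_enc_eq fun _ => rfl

@[fun_prop] theorem val {p : β → Prop} {f : α → Subtype p} (hf : PT f) :
    PT (fun a => (f a).1) := hf.of_enc_eq fun _ => rfl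

@[fun_prop] theorem subtype_mk {p : β → Prop} {f : α → β} (hf : PT f) (h : ∀ a, p (f a)) :
    PT (fun a => (⟨f a, h a⟩ : Subtype p)) := hf.of_enc_eq fun _ => rfl

@[fun_prop] theorem fin_val {n : ℕ} {f : α → Fin n} (hf : PT f) :
    PT (fun a => (f a).1) := hf.of_enc_eq fun _ => rfl

@[fun_prop] theorem fin_mk {n : ℕ} {f : α → ℕ} (hf : PT f) (h : ∀ a, f a < n) :
    PT (fun a => (⟨f a, h a⟩ : Fin n)) := hf.of_enc_eq fun _ => rfl

/-- Case distinction on a tree; the branches need only be fast on their own part of the domain. -/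
theorem cases_nil {c : α → V} {f : α → β} (hc : PT c)
    (h₁ : PT (fun a : {a // c a = V.nil} => f a.1))
    (h₂ : PT (fun a : {a // c a ≠ V.nil} => f a.1)) : PT f := by
  obtain ⟨T₀, hT₀, hc⟩ := hc
  obtain ⟨T₁, ⟨c₁, k₁, hT₁⟩, h₁⟩ := h₁
  obtain ⟨T₂, ⟨c₂, k₂, hT₂⟩, h₂⟩ := h₂
  refine ⟨_, ?_, Cmp.cond (T₁ := fun a => c₁ * sz a ^ k₁ + c₂ * sz a ^ k₂) hc
    (Cmp.mono h₁ fun a => (hT₁ a).trans (Nat.le_add_right _ _))
    (Cmp.mono h₂ fun a => (hT₂ a).trans (Nat.le_add_left _ _))⟩
  have := PB.sz_self (α := α)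
  exact ((((PB.const 8).mul hT₀).add (((PB.const _).mul (this.pow _)).add
    ((PB.const _).mul (this.pow _)))).add ((PB.const 19).mul this)).add (PB.const 15)

@[fun_prop] theorem decide {p : α → Prop} [DecidablePred p] (hp : PT p) :
    PT (fun a => Decidable.decide (p a)) := hp.of_enc_eq fun a => (enc_prop (p a)).symm

theorem of_decide {p : α → Prop} [DecidablePred p] (hp : PT (fun a => Decidable.decide (p a))) :
    PT p := hp.of_enc_eq fun a => enc_prop (p a)

theorem eq_true {f : α → Bool} (hf : PT f) : PT (fun a => f a = true) :=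
  of_decide (hf.of_eq fun a => by simp)

/-- Case distinction on a predicate; the branches need only be fast on their own part. -/
theorem by_cases {p : α → Prop} {f : α → β} (hp : PT p)
    (h₁ : PT (fun a : {a // p a} => f a.1)) (h₂ : PT (fun a : {a // ¬ p a} => f a.1)) : PT f := by
  classical
  have e1 : ∀ a, Enc.enc (p a) = V.nil → ¬ p a := fun a h hp => by
    rw [enc_prop, decide_eq_true hp] at h; cases h
  have e2 : ∀ a, Enc.enc (p a) ≠ V.nil → p a := fun a h => by
    by_contra hp
    rw [enc_prop, decide_eq_false hp] at h; exact h rfl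
  exact cases_nil hp.enc
    (h₂.comp (f := fun a : {a // Enc.enc (p a) = V.nil} => ⟨a.1, e1 _ a.2⟩) (of_enc fun _ => rfl))
    (h₁.comp (f := fun a : {a // Enc.enc (p a) ≠ V.nil} => ⟨a.1, e2 _ a.2⟩) (of_enc fun _ => rfl))

theorem dite {p : α → Prop} [DecidablePred p] {f : ∀ a, p a → β} {g : ∀ a, ¬ p a → β}
    (hp : PT p) (h₁ : PT (fun a : {a // p a} => f a.1 a.2))
    (h₂ : PT (fun a : {a // ¬ p a} => g a.1 a.2)) : PT (fun a => dite (p a) (f a) (g a)) :=
  by_cases hp (h₁.of_eq fun a => by rw [dif_pos a.2]) (h₂.of_eq fun a => by rw [dif_neg a.2])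

@[fun_prop] theorem ite {p : α → Prop} [DecidablePred p] {f g : α → β}
    (hp : PT p) (h₁ : PT f) (h₂ : PT g) : PT (fun a => ite (p a) (f a) (g a)) :=
  by_cases hp ((h₁.comp id.val).of_eq fun a => by rw [if_pos a.2])
    ((h₂.comp id.val).of_eq fun a => by rw [if_neg a.2])

/-- `PT.ite` with the decidability instance found by unification. -/
theorem ite' {p : α → Prop} {_ : DecidablePred p} {f g : α → β}
    (hp : PT p) (h₁ : PT f) (h₂ : PT g) : PT (fun a => _root_.ite (p a) (f a) (g a)) :=
  ite hp h₁ h₂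

/-- `PT.dite` with the decidability instance found by unification. -/
theorem dite' {p : α → Prop} {_ : DecidablePred p} {f : ∀ a, p a → β} {g : ∀ a, ¬ p a → β}
    (hp : PT p) (h₁ : PT (fun a : {a // p a} => f a.1 a.2))
    (h₂ : PT (fun a : {a // ¬ p a} => g a.1 a.2)) :
    PT (fun a => _root_.dite (p a) (f a) (g a)) := dite hp h₁ h₂

/-- `PT.decide` with the decidability instance found by unification. -/
theorem decide' {p : α → Prop} {_ : DecidablePred p} (hp : PT p) :
    PT (fun a => Decidable.decide (p a)) := decide hp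

@[fun_prop] theorem cond {c : α → Bool} {f g : α → β}
    (hc : PT c) (h₁ : PT f) (h₂ : PT g) : PT (fun a => cond (c a) (f a) (g a)) :=
  (ite hc.eq_true h₁ h₂).of_eq fun a => by cases c a <;> simp

/-- The general loop: run `next` while `cont` holds. `I` is an invariant; the step needs to be
fast only on states satisfying it. -/
theorem while_inv {σ : Type w} [Enc σ] {cont : σ → Prop} {next : σ → σ} (I : σ → Prop)
    (hI : ∀ s, I s → cont s → I (next s))
    (hc : PT (fun s : {s // I s} => cont s.1))
    (hn : PT (fun s : {s // I s ∧ cont s} => next s.1))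
    {s₀ : α → σ} (hs : PT s₀) (h0 : ∀ a, I (s₀ a)) {N B : α → ℕ} (hN : PB N) (hB : PB B)
    (h1 : ∀ a i, i < N a → cont (next^[i] (s₀ a)))
    (h2 : ∀ a, ¬ cont (next^[N a] (s₀ a)))
    (h3 : ∀ a i, i ≤ N a → sz (next^[i] (s₀ a)) ≤ B a) :
    PT (fun a => next^[N a] (s₀ a)) := by
  classical
  let nx : {s // I s} → {s // I s} := fun s =>
    if h : cont s.1 then ⟨next s.1, hI _ s.2 h⟩ else s
  have it : ∀ a i, i ≤ N a → (nx^[i] ⟨s₀ a, h0 a⟩).1 = next^[i] (s₀ a) := by
    intro a i
    induction i with
    | zero => intro _; rfl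
    | succ i ih =>
      intro hi
      have e := ih (by omega)
      rw [Function.iterate_succ_apply', Function.iterate_succ_apply']
      have hc' : cont (nx^[i] ⟨s₀ a, h0 a⟩).1 := by rw [e]; exact h1 a i (by omega)
      simp only [nx] at hc' e ⊢
      rw [dif_pos hc']; exact congrArg next e
  obtain ⟨Tc, ⟨c₁, k₁, hTc⟩, hc⟩ := hc.decide
  obtain ⟨Tb, ⟨c₂, k₂, hTb⟩, hn⟩ := hn
  obtain ⟨T₀, hT₀, hs⟩ := hs
  have hb : Cmp (fun s : {s : {s // I s} // Decidable.decide (cont s.1) = true} => Enc.enc s.1)
      (fun s => Enc.enc (nx s.1)) (fun s => c₂ * sz s.1 ^ k₂) := by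
    refine Cmp.mono (Cmp.congr (Cmp.reindex hn
      (fun s : {s : {s // I s} // Decidable.decide (cont s.1) = true} =>
        ⟨s.1.1, s.1.2, of_decide_eq_true s.2⟩)) (fun _ => rfl) (fun s => ?_)) fun s => hTb _
    simp only [nx]
    rw [dif_pos (of_decide_eq_true s.2)]; rfl
  have szle : ∀ a i, i ≤ N a → sz (nx^[i] ⟨s₀ a, h0 a⟩) ≤ B a := fun a i hi => by
    rw [sz_subtype, it a i hi]; exact h3 a i hi
  have main := Cmp.while_loop (S := fun s : {s // I s} => Enc.enc s) (next := nx)
    (Tb := fun s => c₂ * sz s ^ k₂) hc hb (fun a => ⟨s₀ a, h0 a⟩) N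
    (fun a => c₁ * B a ^ k₁ + c₂ * B a ^ k₂ + B a)
    (fun a i hi => decide_eq_true (by rw [it a i hi.le]; exact h1 a i hi))
    (fun a => decide_eq_false (by rw [it a _ le_rfl]; exact h2 a))
    (fun a i hi => by
      have := (hTc _).trans (Nat.mul_le_mul_left c₁ (Nat.pow_le_pow_left (szle a i hi) k₁))
      have h5 : V.size _ ≤ _ := szle a i hi
      constructor <;> omega)
    (fun a i hi => by
      have := Nat.mul_le_mul_left c₂ (Nat.pow_le_pow_left (szle a i hi.le) k₂)
      omega)
  refine ⟨_, ?_, Cmp.trans hs (Cmp.congr main (fun _ => rfl) fun a => ?_)⟩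
  · exact hT₀.add ((hN.add (PB.const 1)).mul (((PB.const 14).mul
      ((((PB.const _).mul (hB.pow _)).add ((PB.const _).mul (hB.pow _))).add hB)).add
        (PB.const 12)))
  · rw [enc_subtype, it a _ le_rfl]

/-- The general loop: run `next` while `cont` holds. -/
theorem while_loop {σ : Type w} [Enc σ] {cont : σ → Prop} {next : σ → σ}
    (hc : PT cont) (hn : PT next)
    {s₀ : α → σ} (hs : PT s₀) {N B : α → ℕ} (hN : PB N) (hB : PB B)
    (h1 : ∀ a i, i < N a → cont (next^[i] (s₀ a)))
    (h2 : ∀ a, ¬ cont (next^[N a] (s₀ a)))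
    (h3 : ∀ a i, i ≤ N a → sz (next^[i] (s₀ a)) ≤ B a) :
    PT (fun a => next^[N a] (s₀ a)) :=
  while_inv (fun _ => True) (fun _ _ _ => trivial) (hc.comp id.val) (hn.comp id.val) hs
    (fun _ => trivial) hN hB h1 h2 h3

end PT

end core

end Crest.Agent.Lib.PT
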