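import Crest.Agent.Lib.PT.Fold

/-!
# Polynomial time: arithmetic on binary natural numbers
-/

set_option linter.dupNamespace false

namespace Crest.Agent.Lib.PT

universe u v w x y

theorem ofBits_lt (l : List Bool) : ofBits l < 2 ^ l.length := by
  induction l with
  | nil => simp
  | cons b l ih => cases b <;> simp [Nat.bit_val, pow_succ] <;> omega

theorem ofBits_append (l l' : List Bool) :
    ofBits (l ++ l') = ofBits l + 2 ^ l.length * ofBits l' := by
  induction l with
  | nil => simp
  | cons b l ih => simp [Nat.bit_val, ih, pow_succ]; ring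

theorem ofBits_suffix_le {l l' : List Bool} (h : l <:+ l') : ofBits l ≤ ofBits l' := by
  obtain ⟨t, rfl⟩ := h
  rw [ofBits_append]
  have : 1 * ofBits l ≤ 2 ^ t.length * ofBits l := Nat.mul_le_mul_right _ Nat.one_le_two_pow
  omega

theorem sz_bit_le (b : Bool) (n : ℕ) : sz (Nat.bit b n) ≤ sz n + 4 := by
  by_cases h : n = 0 → b = true
  · have := sz_bool_le b
    rw [sz_nat, Nat.bits_append_bit _ _ h, sz_cons, ← sz_nat]; omega
  · obtain ⟨rfl, h⟩ := Classical.not_imp.1 h
    cases b <;> simp_all

theorem sz_div2_le (n : ℕ) : sz n.div2 ≤ sz n := by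
  rw [sz_nat, Nat.div2_bits_eq_tail]; exact sz_sublist (List.tail_sublist _)

variable {α : Type u} {β : Type v} {γ : Type w} {δ : Type x} [Enc α] [Enc β] [Enc γ] [Enc δ]

namespace PT

@[fun_prop] theorem bits {n : α → ℕ} (hn : PT n) : PT fun a => (n a).bits :=
  hn.of_enc_eq fun _ => rfl

@[fun_prop] theorem bodd {n : α → ℕ} (hn : PT n) : PT fun a => (n a).bodd :=
  hn.bits.headI.of_eq fun _ => (Nat.bodd_eq_bits_head _).symm

@[fun_prop] theorem div2 {n : α → ℕ} (hn : PT n) : PT fun a => (n a).div2 :=
  hn.bits.tail.of_enc_eq fun a => by rw [enc_nat, Nat.div2_bits_eq_tail]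

@[fun_prop] theorem bit {b : α → Bool} {n : α → ℕ} (hb : PT b) (hn : PT n) :
    PT fun a => Nat.bit (b a) (n a) := by
  classical
  refine (ite (p := fun a => n a = 0 ∧ b a = false) (by fun_prop) (const [])
    (hb.cons hn.bits)).of_enc_eq fun a => ?_
  rw [enc_nat]
  split_ifs with h
  · rw [h.1, h.2]; rfl
  · rw [Nat.bits_append_bit _ _ (by simpa using h)]

@[fun_prop] theorem ofBits {l : α → List Bool} (hl : PT l) : PT fun a => ofBits (l a) :=
  foldr_grow (f := fun _ b n => Nat.bit b n) hl (const 0) (by fun_prop) (G := fun _ => 4)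
    (by fun_prop) fun _ b n _ => sz_bit_le b n

@[fun_prop] theorem toNat {b : α → Bool} (hb : PT b) : PT fun a => (b a).toNat :=
  (of_finite Bool.toNat).comp hb

theorem un_size {n : α → ℕ} (hn : PT n) : PT fun a => Un.mk (n a).size :=
  hn.bits.un_length.of_eq fun a => by rw [Nat.size_eq_bits_len]

/-- One round of subtraction. -/
def subStep (s : ℕ × ℕ × Bool × List Bool) : ℕ × ℕ × Bool × List Bool :=
  (s.1.div2, s.2.1.div2, (!s.1.bodd && (s.2.1.bodd || s.2.2.1)) || (s.2.1.bodd && s.2.2.1),
    xor (xor s.1.bodd s.2.1.bodd) s.2.2.1 :: s.2.2.2)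

theorem subStep_iter (x y k : ℕ) : ∃ x' y' br acc, subStep^[k] (x, y, false, []) =
    (x', y', br, acc) ∧ acc.length = k ∧ 2 ^ k * x' ≤ x ∧ 2 ^ k * y' ≤ y ∧ sz x' ≤ sz x ∧
    sz y' ≤ sz y ∧
    x + 2 ^ k * (y' + br.toNat) = y + Lib.PT.ofBits acc.reverse + 2 ^ k * x' := by
  induction k with
  | zero => exact ⟨x, y, false, [], rfl, rfl, by simp, by simp, le_rfl, le_rfl, by simp; omega⟩
  | succ k ih =>
    obtain ⟨x', y', br, acc, e, h1, h2, h3, h4, h5, h6⟩ := ih
    rw [Function.iterate_succ_apply', e]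
    refine ⟨_, _, _, _, rfl, by simp [h1], ?_, ?_, (sz_div2_le _).trans h4,
      (sz_div2_le _).trans h5, ?_⟩
    · refine le_trans ?_ h2
      rw [pow_succ, mul_assoc]
      exact Nat.mul_le_mul_left _ (by have := Nat.bodd_add_div2 x'; simp only []; omega)
    · refine le_trans ?_ h3
      rw [pow_succ, mul_assoc]
      exact Nat.mul_le_mul_left _ (by have := Nat.bodd_add_div2 y'; simp only []; omega)
    · simp only [List.reverse_cons, ofBits_append, List.length_reverse, h1]
      have e1 := Nat.bodd_add_div2 x'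
      have e2 := Nat.bodd_add_div2 y'
      generalize x'.div2 = x'' at e1 ⊢
      generalize y'.div2 = y'' at e2 ⊢
      generalize x'.bodd = bx at e1 ⊢
      generalize y'.bodd = by' at e2 ⊢
      subst e1 e2
      rw [pow_succ]
      generalize 2 ^ k = P at *
      cases bx <;> cases by' <;> cases br <;> simp [Nat.bit_val] at h6 ⊢ <;> nlinarith

@[fun_prop] theorem nat_sub {n m : α → ℕ} (hn : PT n) (hm : PT m) : PT fun a => n a - m a := by
  have h := iterate_un (n := fun a => (n a).size + (m a).size) (f := fun _ => subStep)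
    (s := fun a => (n a, m a, false, [])) (hn.un_size.un_add hm.un_size) (by fun_prop)
    (by unfold subStep; fun_prop)
    (B := fun a => sz (n a) + sz (m a) + 4 * ((n a).size + (m a).size) + 7) (by fun_prop) ?_
  · refine (cond h.snd.snd.fst (const 0) h.snd.snd.snd.reverse.ofBits).of_eq fun a => ?_
    obtain ⟨x', y', br, acc, e, h1, h2, h3, h4, h5, h6⟩ :=
      subStep_iter (n a) (m a) ((n a).size + (m a).size)
    have g1 : n a < 2 ^ ((n a).size + (m a).size) := Nat.size_le.1 (by omega)
    have g2 : m a < 2 ^ ((n a).size + (m a).size) := Nat.size_le.1 (by omega)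
    have g3 := ofBits_lt acc.reverse
    rw [List.length_reverse, h1] at g3
    simp only [e]
    generalize 2 ^ ((n a).size + (m a).size) = P at *
    obtain rfl : x' = 0 := by
      by_contra hx
      have := Nat.mul_le_mul_left P (Nat.one_le_iff_ne_zero.2 hx); omega
    obtain rfl : y' = 0 := by
      by_contra hx
      have := Nat.mul_le_mul_left P (Nat.one_le_iff_ne_zero.2 hx); omega
    cases br <;> simp at h6 ⊢ <;> omega
  · intro a k hk
    obtain ⟨x', y', br, acc, e, h1, h2, h3, h4, h5, h6⟩ := subStep_iter (n a) (m a) k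
    have := sz_bool_le br
    have := sz_boolList_le acc
    simp only [e, sz_mk]; omega

@[fun_prop] theorem nat_le {n m : α → ℕ} (hn : PT n) (hm : PT m) : PT fun a => n a ≤ m a :=
  ((hn.nat_sub hm).eq (const 0)).of_iff fun _ => Nat.sub_eq_zero_iff_le

@[fun_prop] theorem nat_lt {n m : α → ℕ} (hn : PT n) (hm : PT m) : PT fun a => n a < m a :=
  (hm.nat_le hn).not.of_iff fun _ => Nat.not_le

@[fun_prop] theorem nat_ge {n m : α → ℕ} (hn : PT n) (hm : PT m) : PT fun a => n a ≥ m a :=
  hm.nat_le hn

@[fun_prop] theorem nat_gt {n m : α → ℕ} (hn : PT n) (hm : PT m) : PT fun a => n a > m a :=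
  hm.nat_lt hn

@[fun_prop] theorem nat_max {n m : α → ℕ} (hn : PT n) (hm : PT m) :
    PT fun a => max (n a) (m a) :=
  (ite (hn.nat_le hm) hm hn).of_eq fun _ => (max_def _ _).symm

@[fun_prop] theorem nat_min {n m : α → ℕ} (hn : PT n) (hm : PT m) :
    PT fun a => min (n a) (m a) :=
  (ite (hn.nat_le hm) hn hm).of_eq fun _ => (min_def _ _).symm

theorem two_pow_un {n : α → ℕ} (hn : PT fun a => Un.mk (n a)) : PT fun a => 2 ^ n a :=
  ((hn.replicate_un (const false)).append (const [true])).ofBits.of_eq fun a => by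
    have : ∀ k, Lib.PT.ofBits (List.replicate k false) = 0 := by
      intro k
      induction k with
      | zero => rfl
      | succ k ih => simp [List.replicate_succ, ih]
    simp [ofBits_append, this, Nat.bit_val]

@[fun_prop] theorem nat_add {n m : α → ℕ} (hn : PT n) (hm : PT m) : PT fun a => n a + m a := by
  have h := two_pow_un ((hn.un_size.un_add hm.un_size).un_add (m := fun _ => 1) (const _))
  refine (h.nat_sub ((h.nat_sub hn).nat_sub hm)).of_eq fun a => ?_
  have g1 : n a < 2 ^ ((n a).size + (m a).size) := Nat.size_le.1 (by omega)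
  have g2 : m a < 2 ^ ((n a).size + (m a).size) := Nat.size_le.1 (by omega)
  rw [pow_succ]; omega

@[fun_prop] theorem nat_succ {n : α → ℕ} (hn : PT n) : PT fun a => (n a).succ :=
  hn.nat_add (const 1)

@[fun_prop] theorem nat_pred {n : α → ℕ} (hn : PT n) : PT fun a => (n a).pred :=
  hn.nat_sub (const 1)

@[fun_prop] theorem nat_mul {n m : α → ℕ} (hn : PT n) (hm : PT m) : PT fun a => n a * m a := by
  have key : ∀ (y : ℕ) (l : List Bool),
      l.foldr (fun b c => Nat.bit false c + bif b then y else 0) 0 = Lib.PT.ofBits l * y := by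
    intro y l
    induction l with
    | nil => simp
    | cons b l ih => rw [List.foldr_cons, ih]; cases b <;> simp [Nat.bit_val] <;> ring
  refine (foldr_of_suffix (f := fun a b c => Nat.bit false c + bif b then m a else 0) hn.bits
    (const 0) (by fun_prop) (B := fun a => 4 * ((n a).size + (m a).size) + 1) (by fun_prop)
    fun a s hs => ?_).of_eq fun a => by rw [key, ofBits_bits]
  rw [key]
  refine sz_nat_le_of_lt ?_
  have h1 := ofBits_suffix_le hs
  rw [ofBits_bits] at h1
  rw [pow_add]
  exact Nat.mul_lt_mul_of_le_of_lt ((h1.trans (Nat.lt_size_self _).le)) (Nat.lt_size_self _)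
    (by positivity)

/-- One round of long division. -/
def divStep (y : ℕ) (b : Bool) (c : ℕ × ℕ) : ℕ × ℕ :=
  if y ≤ Nat.bit b c.2 then (Nat.bit true c.1, Nat.bit b c.2 - y)
  else (Nat.bit false c.1, Nat.bit b c.2)

theorem divStep_foldr {y : ℕ} (hy : 0 < y) (l : List Bool) :
    l.foldr (divStep y) (0, 0) = (Lib.PT.ofBits l / y, Lib.PT.ofBits l % y) := by
  induction l with
  | nil => simp
  | cons b l ih =>
    rw [List.foldr_cons, ih, ofBits_cons]
    have h1 := Nat.div_add_mod (Lib.PT.ofBits l) y
    have h2 := Nat.mod_lt (Lib.PT.ofBits l) hy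
    have h3 := Bool.toNat_le b
    generalize Lib.PT.ofBits l / y = q at *
    generalize Lib.PT.ofBits l % y = r at *
    rw [← h1]
    unfold divStep
    simp only [Nat.bit_val, Bool.toNat_true, Bool.toNat_false]
    split_ifs with h
    · have := (Nat.div_mod_unique (a := 2 * (y * q + r) + b.toNat) (d := 2 * q + 1)
        (c := 2 * r + b.toNat - y) hy).2 ⟨by rw [mul_add, mul_one, mul_left_comm]; omega,
          by omega⟩
      rw [this.1, this.2]
    · have := (Nat.div_mod_unique (a := 2 * (y * q + r) + b.toNat) (d := 2 * q + 0)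
        (c := 2 * r + b.toNat) hy).2 ⟨by rw [add_zero, mul_left_comm]; omega, by omega⟩
      rw [this.1, this.2]

theorem nat_divmod {n m : α → ℕ} (hn : PT n) (hm : PT m) :
    PT fun a => (n a / m a, n a % m a) := by
  refine by_cases (p := fun a => m a = 0) (by fun_prop)
    (((const 0).pair (hn.restrict _)).of_eq fun a => by simp [a.2]) ?_
  have hn' := hn.restrict fun a => ¬ m a = 0
  have hm' := hm.restrict fun a => ¬ m a = 0
  refine (foldr_of_suffix (f := fun a => divStep (m a.1)) hn'.bits (const (0, 0))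
    (by unfold divStep; fun_prop) (B := fun a => 4 * sz (n a.1) + 1) (by fun_prop)
    fun a s hs => ?_).of_eq fun a => by rw [divStep_foldr (Nat.pos_of_ne_zero a.2), ofBits_bits]
  rw [divStep_foldr (Nat.pos_of_ne_zero a.2)]
  have h1 := ofBits_suffix_le hs
  rw [ofBits_bits] at h1
  have h2 := sz_nat_le_of_le ((Nat.div_le_self _ (m a.1)).trans h1)
  have h3 := sz_nat_le_of_le ((Nat.mod_le _ (m a.1)).trans h1)
  simp only [sz_mk]; omega

@[fun_prop] theorem nat_div {n m : α → ℕ} (hn : PT n) (hm : PT m) : PT fun a => n a / m a :=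
  (hn.nat_divmod hm).fst

@[fun_prop] theorem nat_mod {n m : α → ℕ} (hn : PT n) (hm : PT m) : PT fun a => n a % m a :=
  (hn.nat_divmod hm).snd

@[fun_prop] theorem nat_dvd {n m : α → ℕ} (hn : PT n) (hm : PT m) : PT fun a => n a ∣ m a :=
  ((hm.nat_mod hn).eq (const 0)).of_iff fun _ => Nat.dvd_iff_mod_eq_zero.symm

@[fun_prop] theorem nat_even {n : α → ℕ} (hn : PT n) : PT fun a => Even (n a) :=
  ((hn.nat_mod (const 2)).eq (const 0)).of_iff fun _ => Nat.even_iff.symm

@[fun_prop] theorem nat_odd {n : α → ℕ} (hn : PT n) : PT fun a => Odd (n a) :=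
  ((hn.nat_mod (const 2)).eq (const 1)).of_iff fun _ => Nat.odd_iff.symm

@[fun_prop] theorem nat_modEq {n m k : α → ℕ} (hk : PT k) (hn : PT n) (hm : PT m) :
    PT fun a => n a ≡ m a [MOD k a] := (hn.nat_mod hk).eq (hm.nat_mod hk)

/-! ### Unary and binary -/

@[fun_prop] theorem length {l : α → List β} (hl : PT l) : PT fun a => (l a).length := by
  have key : ∀ l : List β, l.foldr (fun _ c => c + 1) 0 = l.length := by
    intro l
    induction l with
    | nil => rfl
    | cons b l ih => simp [ih]
  exact (foldr_of_suffix (f := fun _ _ c => c + 1) hl (const 0) (by fun_prop)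
    (B := fun a => 4 * (l a).length + 1) (by fun_prop) fun a s hs => by
      have := hs.length_le
      have := sz_nat_le_self s.length
      rw [key]; omega).of_eq fun a => key _

@[fun_prop] theorem un_n {u : α → Un} (hu : PT u) : PT fun a => (u a).n :=
  hu.un_list.length.of_eq fun a => by simp

/-- A polynomially bounded number can be written in unary. -/
@[fun_prop] theorem un_mk {n : α → ℕ} (hn : PT n) (hb : PB n) : PT fun a => Un.mk (n a) := by
  have key : ∀ l : List Bool, l.foldr (fun b (c : List Unit) =>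
      c ++ c ++ bif b then [()] else []) [] = List.replicate (Lib.PT.ofBits l) () := by
    intro l
    induction l with
    | nil => rfl
    | cons b l ih =>
      rw [List.foldr_cons, ih, ofBits_cons, Nat.bit_val, two_mul, List.replicate_add,
        List.replicate_add]
      cases b <;> rfl
  refine (foldr_of_suffix (f := fun _ b (c : List Unit) => c ++ c ++ bif b then [()] else [])
    hn.bits (const []) (by fun_prop) (B := fun a => n a * 2 + 1) (by fun_prop)
    fun a s hs => ?_).of_enc_eq fun a => by rw [key, ofBits_bits]; rfl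
  have h1 := ofBits_suffix_le hs
  rw [ofBits_bits] at h1
  rw [key, sz_replicate]; simp; omega

@[fun_prop] theorem nat_size {n : α → ℕ} (hn : PT n) : PT fun a => (n a).size := hn.un_size.un_n

theorem _root_.Crest.Agent.Lib.PT.PB.of_un {n : α → ℕ} (hn : PT fun a => Un.mk (n a)) : PB n :=
  PB.un hn

theorem of_un {n : α → ℕ} (hn : PT fun a => Un.mk (n a)) : PT n := hn.un_n

/-- Iteration with an invariant `I a k c` (`c` is a possible state after `k` rounds). -/
theorem iterate_inv {n : α → ℕ} {s : α → γ} {f : α → γ → γ} (I : α → ℕ → γ → Prop)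
    (hn : PT n) (hb : PB n) (hs : PT s) (h0 : ∀ a, I a 0 (s a))
    (hI : ∀ a k c, k < n a → I a k c → I a (k + 1) (f a c))
    (hf : PT fun p : {p : α × γ // ∃ k, k < n p.1 ∧ I p.1 k p.2} => f p.1.1 p.1.2)
    {B : α → ℕ} (hB : PB B) (hsz : ∀ a k c, k ≤ n a → I a k c → sz c ≤ B a) :
    PT fun a => (f a)^[n a] (s a) :=
  iterate_inv_un I (hn.un_mk hb) hs h0 hI hf hB hsz

/-- Iteration, given a bound on the size of all intermediate states. -/
theorem iterate {n : α → ℕ} {s : α → γ} {f : α → γ → γ}
    (hn : PT n) (hb : PB n) (hs : PT s) (hf : PT fun p : α × γ => f p.1 p.2)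
    {B : α → ℕ} (hB : PB B) (hsz : ∀ a k, k ≤ n a → sz ((f a)^[k] (s a)) ≤ B a) :
    PT fun a => (f a)^[n a] (s a) :=
  iterate_un (hn.un_mk hb) hs hf hB hsz

/-- Iteration of a map that increases sizes by a polynomial amount. -/
theorem iterate_grow {n : α → ℕ} {s : α → γ} {f : α → γ → γ}
    (hn : PT n) (hb : PB n) (hs : PT s) (hf : PT fun p : α × γ => f p.1 p.2)
    {G : α → ℕ} (hG : PB G) (hsz : ∀ a c, sz (f a c) ≤ sz c + G a) :
    PT fun a => (f a)^[n a] (s a) :=
  iterate_inv (fun a k c => sz c ≤ sz (s a) + k * G a) hn hb hs (fun a => by simp)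
    (fun a k c _ h => by have := hsz a c; rw [Nat.succ_mul]; omega) (hf.restrict _)
    (B := fun a => sz (s a) + n a * G a) (by fun_prop)
    fun a k c hk h => h.trans (by have := Nat.mul_le_mul_right (G a) hk; omega)

@[fun_prop] theorem nat_pow {n m : α → ℕ} (hn : PT n) (hm : PT m) (hb : PB m) :
    PT fun a => n a ^ m a := by
  have key : ∀ x k : ℕ, (fun c => c * x)^[k] 1 = x ^ k := fun x k => by simp
  refine (iterate (f := fun a c => c * n a) hm hb (const 1) (by fun_prop)
    (B := fun a => 4 * ((n a).size * m a + 1) + 1) (by fun_prop) fun a k hk => ?_).of_eq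
    fun a => key _ _
  rw [key]
  refine sz_nat_le_of_lt ?_
  calc n a ^ k ≤ (2 ^ (n a).size) ^ k := Nat.pow_le_pow_left (Nat.lt_size_self _).le _
    _ ≤ (2 ^ (n a).size) ^ m a := Nat.pow_le_pow_right (by positivity) hk
    _ < _ := by rw [← pow_mul]; exact Nat.pow_lt_pow_right (by omega) (by omega)

@[fun_prop] theorem nat_shiftLeft {n m : α → ℕ} (hn : PT n) (hm : PT m) (hb : PB m) :
    PT fun a => n a <<< m a :=
  (hn.nat_mul ((const 2).nat_pow hm hb)).of_eq fun _ => (Nat.shiftLeft_eq _ _).symm

@[fun_prop] theorem nat_log2 {n : α → ℕ} (hn : PT n) : PT fun a => (n a).log2 :=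
  (hn.nat_size.nat_sub (const 1)).of_eq fun a => by
    rcases Nat.eq_zero_or_pos (n a) with h | h
    · simp [h]
    · have h1 : (n a).size ≤ (n a).log2 + 1 := Nat.size_le.2 Nat.lt_log2_self
      have h2 : (n a).log2 < (n a).size := Nat.lt_size.2 (Nat.log2_self_le h.ne')
      omega

/-- Modular exponentiation with a binary exponent. -/
theorem nat_powMod {n e m : α → ℕ} (hn : PT n) (he : PT e) (hm : PT fun a => m a)
    (h0 : ∀ a, 0 < m a) : PT fun a => n a ^ e a % m a := by
  have key : ∀ (x y : ℕ) (l : List Bool), l.foldr (fun b c =>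
      c * c * (bif b then x else 1) % y) (1 % y) = x ^ Lib.PT.ofBits l % y := by
    intro x y l
    induction l with
    | nil => simp
    | cons b l ih =>
      rw [List.foldr_cons, ih, ofBits_cons, Nat.bit_val, two_mul, pow_add, pow_add]
      cases b <;> simp [Nat.mul_mod]
  refine (foldr_of_suffix (f := fun a b c => c * c * (bif b then n a else 1) % m a)
    (init := fun a => 1 % m a) he.bits (by fun_prop) (by fun_prop)
    (B := fun a => 2 * sz (m a)) (by fun_prop)
    fun a s _ => ?_).of_eq fun a => by rw [key, ofBits_bits]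
  rw [key]
  exact sz_nat_le_of_le (Nat.mod_lt _ (h0 a)).le

theorem gcd_loop (B k : ℕ) : ∀ x y : ℕ, x ≤ y → x * y < 2 ^ k → 4 * y.size + 1 ≤ B →
    Loop (fun s : ℕ × ℕ => ¬ s.1 = 0) (fun s => (s.2 % s.1, s.1)) (2 * B + 1) (x, y)
      (0, Nat.gcd x y) k := by
  have hsz : ∀ x y : ℕ, x ≤ y → 4 * y.size + 1 ≤ B → sz (x, y) ≤ 2 * B + 1 := by
    intro x y h hB
    have := sz_nat_le x
    have := sz_nat_le y
    have := Nat.size_le_size h
    simp; omega
  induction k with
  | zero =>
    intro x y h1 h2 h3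
    obtain rfl : x = 0 := by
      by_contra hx
      have : 1 * 1 ≤ x * y := Nat.mul_le_mul (by omega) (by omega)
      omega
    rw [Nat.gcd_zero_left]
    exact Loop.stop (by simp) (hsz _ _ h1 h3)
  | succ k ih =>
    intro x y h1 h2 h3
    rcases Nat.eq_zero_or_pos x with rfl | hx
    · rw [Nat.gcd_zero_left]
      exact Loop.stop (by simp) (hsz _ _ h1 h3)
    · refine Loop.step (by simp; omega) (hsz _ _ h1 h3) ?_
      rw [Nat.gcd_rec]
      have g1 := Nat.mod_lt y hx
      have g2 : y % x + x ≤ y := by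
        have := Nat.div_add_mod y x
        have : x * 1 ≤ x * (y / x) := Nat.mul_le_mul_left _ (Nat.div_pos h1 hx)
        omega
      refine ih _ _ g1.le ?_ (by have := Nat.size_le_size h1; simp only []; omega)
      rw [pow_succ] at h2
      simp only []
      nlinarith

@[fun_prop] theorem nat_gcd {n m : α → ℕ} (hn : PT n) (hm : PT m) :
    PT fun a => Nat.gcd (n a) (m a) := by
  have h := loop (cont := fun s : ℕ × ℕ => ¬ s.1 = 0) (next := fun s => (s.2 % s.1, s.1))
    (by fun_prop) (by fun_prop) (s₀ := fun a => (min (n a) (m a), max (n a) (m a)))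
    (out := fun a => (0, Nat.gcd (min (n a) (m a)) (max (n a) (m a)))) (by fun_prop)
    (N := fun a => (n a).size + (m a).size)
    (B := fun a => 2 * (4 * (max (n a) (m a)).size + 1) + 1) (by fun_prop) (by fun_prop)
    fun a => gcd_loop _ _ _ _ min_le_max (by
      rw [min_mul_max, pow_add]
      exact Nat.mul_lt_mul_of_le_of_lt (Nat.lt_size_self _).le (Nat.lt_size_self _)
        (by positivity)) le_rfl
  refine h.snd.of_eq fun a => ?_
  rcases le_total (n a) (m a) with h | h <;> simp [h, Nat.gcd_comm]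

@[fun_prop] theorem nat_lcm {n m : α → ℕ} (hn : PT n) (hm : PT m) :
    PT fun a => Nat.lcm (n a) (m a) := (hn.nat_mul hm).nat_div (hn.nat_gcd hm)

@[fun_prop] theorem nat_coprime {n m : α → ℕ} (hn : PT n) (hm : PT m) :
    PT fun a => Nat.Coprime (n a) (m a) := (hn.nat_gcd hm).eq (const 1)

@[fun_prop] theorem polynomial_eval {n : α → ℕ} (hn : PT n) (P : Polynomial ℕ) :
    PT fun a => P.eval (n a) := by
  induction P using Polynomial.induction_on' with
  | add p q hp hq => simpa using hp.nat_add hq
  | monomial k c => simpa using (const c).nat_mul (hn.nat_pow (const k) (PB.const k))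

end PT

end Crest.Agent.Lib.PT
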