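import Crest.Agent.Lib.PT.Compile
import Crest.Agent.Lib.PT.Nat
import Crest.Prelude.Def_TimeBound
import Crest.Prelude.Def_Randomized

/-!
# From `PT` to the complexity notions of the prelude
-/

set_option linter.dupNamespace false

namespace Crest.Agent.Lib.PT

open Turing Crest.Complexity Crest.DTime

theorem exists_sz_list_le (G : Type) [Fintype G] [Enc G] :
    ∃ M, ∀ l : List G, sz l ≤ l.length * M + 1 :=
  ⟨Finset.univ.sup (fun g : G => sz g) + 1, fun _ =>
    sz_list_le fun g _ => Finset.le_sup (f := fun g : G => sz g) (Finset.mem_univ g)⟩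

/-- A timed computation on codes gives a time-bounded machine. -/
theorem timeBoundComputable_of_cmp {α β G : Type} [Fintype G] [Enc G] (ea : α → List G)
    (eb : β → List Bool) (f : α → β) {T : α → ℕ}
    (h : Cmp (fun a => enc (ea a).reverse) (fun a => enc (eb (f a))) T) (t : ℕ → ℕ)
    (ht : ∀ a, (ea a).length + T a + 9 * (eb (f a)).length + 4 ≤ t (ea a).length) :
    TimeBoundComputable ea eb f t := by
  obtain ⟨tm, h⟩ := exists_tm ea (fun a => eb (f a)) h
  refine ⟨⟨tm, t, fun a => ?_⟩, fun _ => le_rfl⟩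
  have := (h a).some
  exact ⟨this.toEvalsTo, this.steps_le_m.trans (ht a)⟩

theorem polyTimeComputable_of_timeBound {α β Γ Γ' : Type} {ea : α → List Γ}
    {eb : β → List Γ'} {f : α → β} (P : Polynomial ℕ)
    (h : TimeBoundComputable ea eb f fun n => P.eval n) : PolyTimeComputable ea eb f := by
  obtain ⟨M, hM⟩ := h
  refine ⟨⟨M.toTM2ComputableAux, P, fun a => ?_⟩⟩
  have := M.outputsFun a
  exact ⟨this.toEvalsTo, this.steps_le_m.trans (hM _)⟩

theorem timeBoundComputable_mono {α β Γ Γ' : Type} {ea : α → List Γ}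
    {eb : β → List Γ'} {f : α → β} {t t' : ℕ → ℕ} (h : TimeBoundComputable ea eb f t)
    (ht : ∀ n, t n ≤ t' n) : TimeBoundComputable ea eb f t' := by
  obtain ⟨M, hM⟩ := h
  exact ⟨M, fun n => (hM n).trans (ht n)⟩

/-- A `PT` map of presentations, fast on a set containing all presented inputs, runs in time
`c * (n + 1) ^ k`. -/
theorem PT.timeBoundComputable' {α β G : Type} [Fintype G] [Enc G] (ea : α → List G)
    (eb : β → List Bool) (f : α → β) {P : List G → Prop} {F : Subtype P → List Bool}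
    (hF : PT F) (hP : ∀ a, P (ea a)) (h : ∀ a, F ⟨ea a, hP a⟩ = eb (f a)) :
    ∃ c k, TimeBoundComputable ea eb f fun n => c * (n + 1) ^ k := by
  have h1 : PT fun l : {l : List G // P l.reverse} => F ⟨l.1.reverse, l.2⟩ :=
    hF.comp_sub (fun l => l.1.reverse) (by fun_prop) fun l => l.2
  have h2 := PB.length h1
  obtain ⟨T, hT, h1⟩ := h1
  have h3 : PB fun l : {l : List G // P l.reverse} =>
      l.1.length + T l + 9 * (F ⟨l.1.reverse, l.2⟩).length + 4 := by fun_prop
  obtain ⟨c, k, h3⟩ := h3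
  obtain ⟨M, hM⟩ := exists_sz_list_le G
  let g : α → {l : List G // P l.reverse} := fun a => ⟨(ea a).reverse, by simpa using hP a⟩
  have e : ∀ a, F ⟨(g a).1.reverse, (g a).2⟩ = eb (f a) := fun a => by
    rw [← h a]; congr 2; simp [g]
  refine ⟨c * (M + 1) ^ k, k, timeBoundComputable_of_cmp ea eb f
    (Cmp.congr (Cmp.reindex h1 g) (fun _ => rfl) fun a => congrArg Enc.enc (e a).symm) _ fun a => ?_⟩
  have h4 := h3 (g a)
  have h5 : sz (g a) ≤ (M + 1) * ((ea a).length + 1) := by
    have := hM (ea a)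
    rw [sz_subtype]
    simp only [g, sz_reverse]
    nlinarith
  have h6 := Nat.mul_le_mul_left c (Nat.pow_le_pow_left h5 k)
  simp only [e] at h4
  simp only [g, List.length_reverse] at h4
  rw [mul_pow, ← mul_assoc] at h6
  exact h4.trans h6

/-- A `PT` map of presentations, fast on a set containing all presented inputs, gives a
polynomial-time machine. -/
theorem PT.polyTimeComputable' {α β G : Type} [Fintype G] [Enc G] (ea : α → List G)
    (eb : β → List Bool) (f : α → β) {P : List G → Prop} {F : Subtype P → List Bool}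
    (hF : PT F) (hP : ∀ a, P (ea a)) (h : ∀ a, F ⟨ea a, hP a⟩ = eb (f a)) :
    PolyTimeComputable ea eb f := by
  obtain ⟨c, k, h⟩ := hF.timeBoundComputable' ea eb f hP h
  exact polyTimeComputable_of_timeBound (Polynomial.C c * (Polynomial.X + 1) ^ k) (by simpa using h)

/-- A `PT` map of presentations gives a polynomial-time machine. -/
theorem PT.polyTimeComputable {α β G : Type} [Fintype G] [Enc G] (ea : α → List G)
    (eb : β → List Bool) (f : α → β) {F : List G → List Bool}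
    (hF : PT F) (h : ∀ a, F (ea a) = eb (f a)) : PolyTimeComputable ea eb f :=
  (hF.restrict fun _ => True).polyTimeComputable' ea eb f (fun _ => trivial) h

/-- `PT` maps of bit strings are `PolyTime`. -/
theorem PT.polyTime {f : List Bool → List Bool} (hf : PT f) : PolyTime f :=
  hf.polyTimeComputable _ _ f fun _ => rfl

/-- `PT` tests on bit strings are `PolyTimePred`. -/
theorem PT.polyTimePred {f : List Bool → Bool} (hf : PT f) : PolyTimePred f :=
  (hf.cons (PT.const [])).polyTimeComputable _ _ f fun _ => rfl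

/-- Read a pair off its presentation. -/
def unpairEnc (l : List (Bool ⊕ Bool)) : List Bool × List Bool :=
  (l.filterMap Sum.getLeft?, l.filterMap Sum.getRight?)

theorem pairEnc_eq (p : List Bool × List Bool) :
    pairEnc p = p.1.map Sum.inl ++ p.2.map Sum.inr := rfl

theorem unpairEnc_pairEnc (p : List Bool × List Bool) : unpairEnc (pairEnc p) = p := by
  rw [pairEnc_eq]
  simp [unpairEnc, List.filterMap_map]

theorem length_pairEnc (p : List Bool × List Bool) :
    (pairEnc p).length = p.1.length + p.2.length := by simp [pairEnc_eq]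

theorem unpairEnc_pt : PT unpairEnc := by unfold unpairEnc; fun_prop

/-- `PT` tests on pairs of bit strings are `PolyTimePred₂`. -/
theorem PT.polyTimePred₂ {f : List Bool × List Bool → Bool} (hf : PT f) : PolyTimePred₂ f :=
  ((hf.comp unpairEnc_pt).cons (PT.const [])).polyTimeComputable _ _ f fun a => by
    rw [unpairEnc_pairEnc]; rfl

/-- `PT` maps on pairs of bit strings are `RandPolyTime`. -/
theorem PT.randPolyTime {f : List Bool × List Bool → List Bool} (hf : PT f) :
    Crest.Randomized.RandPolyTime f :=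
  (hf.comp unpairEnc_pt).polyTimeComputable _ _ f fun a => by rw [unpairEnc_pairEnc]; rfl

/-- A language with a `PT` membership test is in P. -/
theorem PT.inP {L : Set (List Bool)} (h : PT fun x => x ∈ L) : InP L := by
  classical
  exact ⟨fun x => Decidable.decide (x ∈ L), h.decide'.polyTimePred, fun x => by simp⟩

/-- A language with a `PT` verifier is in NP. -/
theorem PT.inNP {L : Set (List Bool)} {V : List Bool × List Bool → Prop} (h : PT V)
    (p : Polynomial ℕ)
    (hL : ∀ x, x ∈ L ↔ ∃ w : List Bool, w.length ≤ p.eval x.length ∧ V (x, w)) : InNP L := by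
  classical
  exact ⟨fun x => Decidable.decide (V x), p, h.decide'.polyTimePred₂, fun x => by simpa using hL x⟩

/-- A `PT` reduction. -/
theorem PT.polyTimeReducible {A B : Set (List Bool)} {f : List Bool → List Bool} (hf : PT f)
    (h : ∀ x, x ∈ A ↔ f x ∈ B) : PolyTimeReducible A B := ⟨f, hf.polyTime, h⟩

/-! ### Padding: time bounds above polynomial -/

/-- Writing a binary number in unary takes time polynomial in the number. -/
theorem cmp_pad {α : Type} [Enc α] :
    ∃ c k, Cmp (fun p : α × ℕ => enc p) (fun p => enc (p.1, Un.mk p.2))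
      (fun p => c * (sz p.1 + p.2 + 1) ^ k) := by
  let cont : α × ℕ × List Unit → Bool := fun s => decide (s.2.1 ≠ 0)
  let next : α × ℕ × List Unit → α × ℕ × List Unit := fun s => (s.1, s.2.1 - 1, () :: s.2.2)
  obtain ⟨T₀, ⟨c₀, k₀, b₀⟩, h₀⟩ : PT fun p : α × ℕ => (p.1, p.2, ([] : List Unit)) := by fun_prop
  obtain ⟨T₁, ⟨c₁, k₁, b₁⟩, h₁⟩ : PT cont := by fun_prop
  obtain ⟨T₂, ⟨c₂, k₂, b₂⟩, h₂⟩ : PT next := by fun_prop
  obtain ⟨T₃, ⟨c₃, k₃, b₃⟩, h₃⟩ : PT fun s : α × ℕ × List Unit => (s.1, s.2.2) := by fun_prop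
  have it : ∀ (a : α) (n i : ℕ), i ≤ n →
      next^[i] (a, n, []) = (a, n - i, List.replicate i ()) := by
    intro a n i
    induction i with
    | zero => intro _; rfl
    | succ i ih =>
      intro hi
      rw [Function.iterate_succ_apply', ih (by omega)]; rfl
  have hs : ∀ (a : α) (n i : ℕ), i ≤ n → sz (next^[i] (a, n, [])) ≤ sz a + 6 * n + 4 := by
    intro a n i hi
    have := sz_nat_le_self (n - i)
    rw [it a n i hi]
    simp only [sz_mk, sz_replicate, sz_unit]; omega
  let B : α × ℕ → ℕ := fun p => c₁ * (sz p.1 + 6 * p.2 + 4) ^ k₁ +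
    c₂ * (sz p.1 + 6 * p.2 + 4) ^ k₂ + (sz p.1 + 6 * p.2 + 4)
  have main := Cmp.while_loop (S := fun s : α × ℕ × List Unit => enc s) (next := next)
    (Tb := T₂) h₁ (Cmp.reindex h₂ Subtype.val) (fun p : α × ℕ => (p.1, p.2, [])) (fun p => p.2) B
    (fun p i hi => by rw [it _ _ _ hi.le]; simp [cont]; omega)
    (fun p => by rw [it _ _ _ le_rfl]; simp [cont])
    (fun p i hi => by
      have h5 : V.size _ ≤ _ := hs p.1 p.2 i hi
      have := (b₁ _).trans (Nat.mul_le_mul_left c₁ (Nat.pow_le_pow_left (hs p.1 p.2 i hi) k₁))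
      simp only [B]
      constructor <;> omega)
    (fun p i hi => by
      have := (b₂ _).trans (Nat.mul_le_mul_left c₂ (Nat.pow_le_pow_left (hs p.1 p.2 i hi.le) k₂))
      simp only [B]
      omega)
  have all := Cmp.trans h₀ (Cmp.trans main
    (Cmp.reindex h₃ fun p : α × ℕ => next^[p.2] (p.1, p.2, [])))
  have hb : PB fun q : α × Un => c₀ * (sz q.1 + 6 * q.2.n + 4) ^ k₀ +
      ((q.2.n + 1) * (14 * (c₁ * (sz q.1 + 6 * q.2.n + 4) ^ k₁ +
        c₂ * (sz q.1 + 6 * q.2.n + 4) ^ k₂ + (sz q.1 + 6 * q.2.n + 4)) + 12) +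
        c₃ * (sz q.1 + 6 * q.2.n + 4) ^ k₃) := by fun_prop
  obtain ⟨c, k, hb⟩ := hb
  refine ⟨c * 2 ^ k, k, Cmp.mono (Cmp.congr all (fun _ => rfl) fun p => ?_) fun p => ?_⟩
  · rw [it _ _ _ le_rfl]; rfl
  · have g0 := hb (p.1, ⟨p.2⟩)
    have g1 : sz p ≤ sz p.1 + 6 * p.2 + 4 := by
      have := sz_nat_le_self p.2
      rw [sz_prod]; omega
    have g2 := (b₀ p).trans (Nat.mul_le_mul_left c₀ (Nat.pow_le_pow_left g1 k₀))
    have g3 := (b₃ _).trans (Nat.mul_le_mul_left c₃ (Nat.pow_le_pow_left (hs p.1 p.2 _ le_rfl) k₃))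
    have g4 : sz (p.1, Un.mk p.2) ≤ 2 * (sz p.1 + p.2 + 1) := by simp; omega
    have g5 := Nat.mul_le_mul_left c (Nat.pow_le_pow_left g4 k)
    rw [mul_pow, ← mul_assoc] at g5
    simp only [B] at g0 ⊢
    omega

/-- Padding: if `g` is `PT` in the input and a unary clock, and the clock value `τ` is `PT` in
binary, then `x ↦ g (x, τ x)` runs in time polynomial in `|x| + τ x`. -/
theorem PT.timeBoundComputable_pad {α β G : Type} [Fintype G] [Enc G] (ea : α → List G)
    (eb : β → List Bool) (f : α → β) {τ : List G → ℕ} (hτ : PT τ)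
    {g : List G × Un → List Bool} (hg : PT g) (h : ∀ a, g (ea a, ⟨τ (ea a)⟩) = eb (f a)) :
    ∃ c k, ∀ t : ℕ → ℕ, (∀ a, c * ((ea a).length + τ (ea a) + 1) ^ k ≤ t (ea a).length) →
      TimeBoundComputable ea eb f t := by
  obtain ⟨c₁, k₁, h₁⟩ := cmp_pad (α := List G)
  have hl := PB.length hg
  obtain ⟨T₀, ⟨c₀, k₀, b₀⟩, h₀⟩ : PT fun l : List G => (l.reverse, τ l.reverse) := by fun_prop
  obtain ⟨T₂, b₂, h₂⟩ := hg
  have all := Cmp.trans (Cmp.reindex h₀ fun a => (ea a).reverse)
    (Cmp.trans (Cmp.congr (Cmp.reindex h₁ fun a => (ea a, τ (ea a))) (fun a => by simp)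
      fun _ => rfl) (Cmp.reindex h₂ fun a => (ea a, ⟨τ (ea a)⟩)))
  have hb : PB fun q : List G × Un => q.1.length + (c₀ * sz q.1 ^ k₀ +
      (c₁ * (sz q.1 + q.2.n + 1) ^ k₁ + T₂ q)) + 9 * (g q).length + 4 := by fun_prop
  obtain ⟨c, k, hb⟩ := hb
  obtain ⟨M, hM⟩ := exists_sz_list_le G
  refine ⟨c * (M + 3) ^ k, k, fun t ht => timeBoundComputable_of_cmp ea eb f
    (Cmp.congr all (fun _ => rfl) fun a => by rw [h]) _ fun a => le_trans ?_ (ht a)⟩
  have g0 := hb (ea a, ⟨τ (ea a)⟩)
  have g1 := b₀ (ea a).reverse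
  have g4 : sz (ea a, Un.mk (τ (ea a))) ≤ (M + 3) * ((ea a).length + τ (ea a) + 1) := by
    have := hM (ea a)
    simp only [sz_mk, sz_un]
    nlinarith
  have g5 := Nat.mul_le_mul_left c (Nat.pow_le_pow_left g4 k)
  rw [mul_pow, ← mul_assoc] at g5
  rw [sz_reverse] at g1
  simp only [h] at g0 ⊢
  omega

/-- Padding for maps of bit strings. -/
theorem PT.timeBound_pad {τ : List Bool → ℕ} (hτ : PT τ) {g : List Bool × Un → List Bool}
    (hg : PT g) : ∃ c k, ∀ t : ℕ → ℕ, (∀ x : List Bool, c * (x.length + τ x + 1) ^ k ≤ t x.length) →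
      TimeBound (fun x => g (x, ⟨τ x⟩)) t :=
  PT.timeBoundComputable_pad _ _ _ hτ hg fun _ => rfl

/-- Padding for tests on bit strings. -/
theorem PT.timeBoundPred_pad {τ : List Bool → ℕ} (hτ : PT τ) {g : List Bool × Un → Bool}
    (hg : PT g) : ∃ c k, ∀ t : ℕ → ℕ, (∀ x : List Bool, c * (x.length + τ x + 1) ^ k ≤ t x.length) →
      TimeBoundPred (fun x => g (x, ⟨τ x⟩)) t :=
  PT.timeBoundComputable_pad _ _ _ hτ (hg.cons (PT.const [])) fun _ => rfl

/-- Quasi-polynomial time: the clock is `2 ^ (d * log₂ (L + 2) ^ 2)`. -/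
theorem PT.timeBound_quasipoly {g : List Bool × Un → List Bool} (hg : PT g) (d : ℕ) :
    ∃ c, TimeBound (fun x => g (x, ⟨2 ^ (d * Nat.log 2 (x.length + 2) ^ 2)⟩))
      (fun L => 2 ^ (c * Nat.log 2 (L + 2) ^ 2)) := by
  have hlog : PT fun x : List Bool => Nat.log 2 (x.length + 2) :=
    PT.of_eq (g := fun x => (x.length + 2).log2) (by fun_prop) fun _ => Nat.log2_eq_log_two
  have hlb : PB fun x : List Bool => Nat.log 2 (x.length + 2) :=
    PB.mono (g := fun x => x.length + 2) (by fun_prop) fun _ => Nat.log_le_self _ _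
  obtain ⟨c, k, h⟩ := PT.timeBound_pad
    (τ := fun x => 2 ^ (d * Nat.log 2 (x.length + 2) ^ 2)) (by fun_prop) hg
  refine ⟨c + (d + 3) * k, h _ fun x => ?_⟩
  have h1 : 1 ≤ Nat.log 2 (x.length + 2) := Nat.le_log_of_pow_le (by omega) (by omega)
  have h2 : x.length + 2 < 2 ^ (Nat.log 2 (x.length + 2) + 1) := Nat.lt_pow_succ_log_self (by omega) _
  generalize Nat.log 2 (x.length + 2) = m at *
  have h3 : 1 ≤ m ^ 2 := Nat.one_le_pow _ _ h1
  have h4 : 2 ^ (m + 1) ≤ 2 ^ ((d + 2) * m ^ 2) :=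
    Nat.pow_le_pow_right (by omega) (by nlinarith)
  have h5 : 2 ^ (d * m ^ 2) ≤ 2 ^ ((d + 2) * m ^ 2) :=
    Nat.pow_le_pow_right (by omega) (by nlinarith)
  have h6 : 2 ^ ((d + 2) * m ^ 2 + 1) ≤ 2 ^ ((d + 3) * m ^ 2) :=
    Nat.pow_le_pow_right (by omega) (by nlinarith)
  have h7 : x.length + 2 ^ (d * m ^ 2) + 1 ≤ 2 ^ ((d + 3) * m ^ 2) := by
    rw [pow_succ] at h6; omega
  have h8 : c ≤ 2 ^ (c * m ^ 2) :=
    Nat.lt_two_pow_self.le.trans (Nat.pow_le_pow_right (by omega) (by nlinarith))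
  calc c * (x.length + 2 ^ (d * m ^ 2) + 1) ^ k
      ≤ 2 ^ (c * m ^ 2) * (2 ^ ((d + 3) * m ^ 2)) ^ k :=
        Nat.mul_le_mul h8 (Nat.pow_le_pow_left h7 k)
    _ = _ := by rw [← pow_mul, ← pow_add]; congr 1; ring

end Crest.Agent.Lib.PT
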