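import Crest.Agent.Lib.PT.Rec
import Crest.Agent.Lib.PT.Bridge
import Crest.Prelude.Def_BitEnc

/-!
# Polynomial time: writing and reading the bit-string codes of the prelude

A parser is a map `List Bool → β × List Bool` returning the value read and the rest.
-/

set_option linter.dupNamespace false

namespace Crest.Agent.Lib.PT

open Crest.Enc

universe u v w x y

variable {α : Type u} {β : Type v} {γ : Type w} [Enc α] [Enc β] [Enc γ]

/-! ### Writers -/

@[fun_prop] theorem PT.natCode {n : α → ℕ} (hn : PT n) : PT fun a => natCode (n a) := by
  unfold Crest.Enc.natCode; fun_prop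

@[fun_prop] theorem PT.intCode {z : α → ℤ} (hz : PT z) : PT fun a => intCode (z a) := by
  unfold Crest.Enc.intCode; fun_prop

@[fun_prop] theorem PT.ratCode {q : α → ℚ} (hq : PT q) : PT fun a => ratCode (q a) := by
  unfold Crest.Enc.ratCode; fun_prop

@[fun_prop] theorem PT.listCode {l : α → List ℕ} (hl : PT l) : PT fun a => listCode (l a) := by
  unfold Crest.Enc.listCode; fun_prop

theorem length_natCode (n : ℕ) : (natCode n).length = 2 * n.size + 2 := by
  unfold natCode
  rw [← Nat.size_eq_bits_len]
  induction n.bits with
  | nil => rfl
  | cons b l ih => simp at ih ⊢; omega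

theorem natCode_ne_nil (n : ℕ) : natCode n ≠ [] := by simp [natCode]
theorem intCode_ne_nil (z : ℤ) : intCode z ≠ [] := by simp [intCode]
theorem ratCode_ne_nil (q : ℚ) : ratCode q ≠ [] := by simp [ratCode]
theorem listCode_ne_nil (l : List ℕ) : listCode l ≠ [] := by simp [listCode, natCode]

/-! ### Readers -/

/-- The digits at the start of a string. -/
def natBits : List Bool → List Bool
  | true :: b :: r => b :: natBits r
  | _ => []

theorem length_natBits_le (l : List Bool) : (natBits l).length ≤ l.length := by
  fun_induction natBits l with
  | case1 b r ih => simp; omega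
  | case2 => simp

theorem natBits_pt : PT natBits := by
  refine PT.linrec' (cont := fun l : List Bool => l.headD false = true ∧ ¬ l.tail = [])
    (next := fun l => l.tail.tail) (base := fun _ => [])
    (step := fun l c => l.tail.headD false :: c) (by fun_prop) (by fun_prop) (by fun_prop)
    (by fun_prop) ?_ ?_ (μ := fun l => l.length) (by fun_prop) ?_
    (fun l _ => sz_sublist ((List.tail_sublist _).trans (List.tail_sublist _)))
    (PB.mono (g := fun l => 4 * l.length + 1) (by fun_prop) fun l => ?_)
  · rintro (_ | ⟨_ | _, _ | ⟨b, r⟩⟩) h <;> simp_all [natBits]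
  · rintro (_ | ⟨_ | _, _ | ⟨b, r⟩⟩) h <;> simp_all [natBits]
  · rintro (_ | ⟨_ | _, _ | ⟨b, r⟩⟩) h <;> simp_all
  · have := sz_boolList_le (natBits l)
    have := length_natBits_le l
    omega

/-- Read one bit. -/
def parseBool (l : List Bool) : Bool × List Bool := (l.headD false, l.tail)

/-- Read a number written by `natCode`. -/
def parseNat (l : List Bool) : ℕ × List Bool :=
  (ofBits (natBits l), l.drop (2 * (natBits l).length + 2))

/-- Read an integer written by `intCode`. -/
def parseInt (l : List Bool) : ℤ × List Bool :=
  (bif l.headD false then - ((parseNat l.tail).1 : ℤ) else ((parseNat l.tail).1 : ℤ),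
    (parseNat l.tail).2)

/-- Read a rational written by `ratCode`. -/
def parseRat (l : List Bool) : ℚ × List Bool :=
  (mkRat (parseInt l).1 (parseNat (parseInt l).2).1, (parseNat (parseInt l).2).2)

/-- Read two values. -/
def parsePair (p : List Bool → β × List Bool) (q : List Bool → γ × List Bool) (l : List Bool) :
    (β × γ) × List Bool := (((p l).1, (q (p l).2).1), (q (p l).2).2)

/-- Read `k` values. -/
def parseMany (p : List Bool → β × List Bool) : ℕ → List Bool → List β × List Bool
  | 0, l => ([], l)
  | k + 1, l => ((p l).1 :: (parseMany p k (p l).2).1, (parseMany p k (p l).2).2)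

/-- Read `k` values with non-empty codes (`k` may be given in binary). -/
def parseN (p : List Bool → β × List Bool) (k : ℕ) (l : List Bool) : List β × List Bool :=
  parseMany p (min k l.length) l

/-- Read a length, then that many values with non-empty codes. -/
def parseList (p : List Bool → β × List Bool) (l : List Bool) : List β × List Bool :=
  parseN p (parseNat l).1 (parseNat l).2

/-- Read a block of `true`s and the `false` after it. -/
def parseUnary (l : List Bool) : ℕ × List Bool :=
  ((l.takeWhile fun b => b).length, (l.dropWhile fun b => b).tail)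

@[simp] theorem parseBool_cons (b : Bool) (r : List Bool) : parseBool (b :: r) = (b, r) := rfl

theorem natBits_natCode (n : ℕ) (r : List Bool) : natBits (natCode n ++ r) = n.bits := by
  unfold natCode
  induction n.bits with
  | nil => rfl
  | cons b l ih => simpa [natBits] using ih

@[simp] theorem parseNat_natCode (n : ℕ) (r : List Bool) : parseNat (natCode n ++ r) = (n, r) := by
  rw [parseNat, natBits_natCode, ofBits_bits, Nat.size_eq_bits_len, ← length_natCode,
    List.drop_left]

@[simp] theorem parseNat_natCode' (n : ℕ) : parseNat (natCode n) = (n, []) := by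
  simpa using parseNat_natCode n []

@[simp] theorem parseInt_intCode (z : ℤ) (r : List Bool) : parseInt (intCode z ++ r) = (z, r) := by
  simp only [parseInt, intCode, List.cons_append, List.headD_cons, List.tail_cons,
    parseNat_natCode, Prod.mk.injEq, and_true]
  by_cases h : z < 0 <;> simp only [h, decide_true, decide_false, cond_true, cond_false] <;> omega

@[simp] theorem parseInt_intCode' (z : ℤ) : parseInt (intCode z) = (z, []) := by
  simpa using parseInt_intCode z []

@[simp] theorem parseRat_ratCode (q : ℚ) (r : List Bool) : parseRat (ratCode q ++ r) = (q, r) := by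
  have : ratCode q ++ r = intCode q.num ++ (natCode q.den ++ r) := by simp [ratCode, intCode]
  rw [this, parseRat, parseInt_intCode, parseNat_natCode, Rat.mkRat_self]

@[simp] theorem parseRat_ratCode' (q : ℚ) : parseRat (ratCode q) = (q, []) := by
  simpa using parseRat_ratCode q []

@[simp] theorem parseUnary_replicate (n : ℕ) (r : List Bool) :
    parseUnary (List.replicate n true ++ false :: r) = (n, r) := by
  induction n with
  | zero => rfl
  | succ n ih => simp [parseUnary, List.replicate_succ]

omit [Enc β] [Enc γ] in
theorem parsePair_append {p : List Bool → β × List Bool} {q : List Bool → γ × List Bool}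
    {x : β} {y : γ} {u v r : List Bool} (hp : p (u ++ (v ++ r)) = (x, v ++ r))
    (hq : q (v ++ r) = (y, r)) : parsePair p q (u ++ v ++ r) = ((x, y), r) := by
  rw [parsePair, List.append_assoc, hp, hq]

omit [Enc β] in
theorem parseMany_flatten {δ : Type w} {p : List Bool → β × List Bool} {code : δ → List Bool}
    {val : δ → β} (xs : List δ) (h : ∀ x ∈ xs, ∀ r, p (code x ++ r) = (val x, r))
    (r : List Bool) :
    parseMany p xs.length ((xs.map code).flatten ++ r) = (xs.map val, r) := by
  induction xs with
  | nil => rfl
  | cons x xs ih =>
    simp only [List.length_cons, List.map_cons, List.flatten_cons, List.append_assoc, parseMany,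
      h x (by simp), ih fun y hy => h y (by simp [hy])]

omit [Enc β] in
theorem length_le_length_flatten {code : β → List Bool} (xs : List β)
    (h : ∀ x ∈ xs, code x ≠ []) : xs.length ≤ (xs.map code).flatten.length := by
  induction xs with
  | nil => simp
  | cons x xs ih =>
    have := List.length_pos_iff.2 (h x (by simp))
    have := ih fun y hy => h y (by simp [hy])
    simp only [List.length_cons, List.map_cons, List.flatten_cons, List.length_append]; omega

omit [Enc β] in
theorem parseN_flatten {δ : Type w} {p : List Bool → β × List Bool} {code : δ → List Bool}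
    {val : δ → β} (xs : List δ) (h : ∀ x ∈ xs, ∀ r, p (code x ++ r) = (val x, r))
    (h' : ∀ x ∈ xs, code x ≠ []) (r : List Bool) :
    parseN p xs.length ((xs.map code).flatten ++ r) = (xs.map val, r) := by
  have := length_le_length_flatten xs h'
  rw [parseN, min_eq_left (by rw [List.length_append]; omega), parseMany_flatten xs h]

omit [Enc β] in
theorem parseN_ofFn {n : ℕ} {p : List Bool → β × List Bool} {code : Fin n → List Bool}
    {val : Fin n → β} (h : ∀ i r, p (code i ++ r) = (val i, r)) (h' : ∀ i, code i ≠ [])
    (r : List Bool) : parseN p n ((List.ofFn code).flatten ++ r) = (List.ofFn val, r) := by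
  have := parseN_flatten (List.finRange n) (fun i _ => h i) (fun i _ => h' i) r
  rwa [List.length_finRange, ← List.ofFn_eq_map, ← List.ofFn_eq_map] at this

omit [Enc β] in
theorem parseList_flatten {δ : Type w} {p : List Bool → β × List Bool} {code : δ → List Bool}
    {val : δ → β} (xs : List δ) (h : ∀ x ∈ xs, ∀ r, p (code x ++ r) = (val x, r))
    (h' : ∀ x ∈ xs, code x ≠ []) (r : List Bool) :
    parseList p (natCode xs.length ++ (xs.map code).flatten ++ r) = (xs.map val, r) := by
  rw [parseList, List.append_assoc, parseNat_natCode, parseN_flatten xs h h']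

@[simp] theorem parseList_listCode (l : List ℕ) (r : List Bool) :
    parseList parseNat (listCode l ++ r) = (l, r) := by
  simpa [listCode] using parseList_flatten (val := id) l (fun x _ => parseNat_natCode x)
    (fun x _ => natCode_ne_nil x) r

@[simp] theorem parseList_listCode' (l : List ℕ) : parseList parseNat (listCode l) = (l, []) := by
  simpa using parseList_listCode l []

theorem parseN_parseBool (l r : List Bool) : parseN parseBool l.length (l ++ r) = (l, r) := by
  have := parseN_flatten (p := parseBool) (code := fun b => [b]) (val := id) l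
    (fun _ _ _ => rfl) (by simp) r
  rwa [← List.flatMap_def, List.flatMap_singleton', List.map_id] at this

/-- The rest returned by the parser is not longer than the input. -/
def Shrinks (p : List Bool → β × List Bool) : Prop := ∀ l, (p l).2.length ≤ l.length

theorem shrinks_parseBool : Shrinks parseBool := fun l => by simp [parseBool]
theorem shrinks_parseNat : Shrinks parseNat := fun l => by simp [parseNat]
theorem shrinks_parseUnary : Shrinks parseUnary := fun _ =>
  ((List.tail_sublist _).trans (List.dropWhile_sublist _)).length_le
theorem shrinks_parseInt : Shrinks parseInt := fun l =>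
  (shrinks_parseNat l.tail).trans (by simp)
theorem shrinks_parseRat : Shrinks parseRat := fun l =>
  (shrinks_parseNat _).trans (shrinks_parseInt l)

omit [Enc β] [Enc γ] in
theorem Shrinks.parsePair {p : List Bool → β × List Bool} {q : List Bool → γ × List Bool}
    (hp : Shrinks p) (hq : Shrinks q) : Shrinks (parsePair p q) := fun l => (hq _).trans (hp l)

omit [Enc β] in
theorem Shrinks.parseMany {p : List Bool → β × List Bool} (hp : Shrinks p) (k : ℕ) :
    Shrinks (parseMany p k) := by
  induction k with
  | zero => exact fun _ => le_rfl
  | succ k ih => exact fun l => (ih _).trans (hp l)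

omit [Enc β] in
theorem Shrinks.parseN {p : List Bool → β × List Bool} (hp : Shrinks p) (k : ℕ) :
    Shrinks (parseN p k) := fun l => hp.parseMany _ l

omit [Enc β] in
theorem Shrinks.parseList {p : List Bool → β × List Bool} (hp : Shrinks p) :
    Shrinks (parseList p) := fun l => (hp.parseN _ _).trans (shrinks_parseNat l)

omit [Enc β] in
theorem length_parseMany (p : List Bool → β × List Bool) (k : ℕ) :
    ∀ l, (parseMany p k l).1.length = k := by
  induction k with
  | zero => intro l; rfl
  | succ k ih => intro l; simp [parseMany, ih]

omit [Enc β] in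
theorem parseMany_succ' (p : List Bool → β × List Bool) (k : ℕ) : ∀ l, parseMany p (k + 1) l =
    ((parseMany p k l).1 ++ [(p (parseMany p k l).2).1], (p (parseMany p k l).2).2) := by
  induction k with
  | zero => intro l; rfl
  | succ k ih => intro l; rw [parseMany, ih]; rfl

omit [Enc β] in
theorem mem_parseMany {p : List Bool → β × List Bool} (hp : Shrinks p) (k : ℕ) :
    ∀ l, ∀ x ∈ (parseMany p k l).1, ∃ l' : List Bool, l'.length ≤ l.length ∧ x = (p l').1 := by
  induction k with
  | zero => intro l x h; simp [parseMany] at h
  | succ k ih =>
    intro l x h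
    rcases List.mem_cons.1 h with rfl | h
    · exact ⟨l, le_rfl, rfl⟩
    · obtain ⟨l', h1, h2⟩ := ih _ x h
      exact ⟨l', h1.trans (hp l), h2⟩

attribute [irreducible] parseBool parseNat parseInt parseRat parsePair parseMany parseN parseList
  parseUnary

namespace PT

@[fun_prop] theorem parseBool {l : α → List Bool} (hl : PT l) : PT fun a => parseBool (l a) := by
  unfold Lib.PT.parseBool; fun_prop

@[fun_prop] theorem parseNat {l : α → List Bool} (hl : PT l) : PT fun a => parseNat (l a) := by
  have := natBits_pt.comp hl
  unfold Lib.PT.parseNat; fun_prop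

@[fun_prop] theorem parseInt {l : α → List Bool} (hl : PT l) : PT fun a => parseInt (l a) := by
  unfold Lib.PT.parseInt; fun_prop

@[fun_prop] theorem parseRat {l : α → List Bool} (hl : PT l) : PT fun a => parseRat (l a) := by
  unfold Lib.PT.parseRat; fun_prop

@[fun_prop] theorem parseUnary {l : α → List Bool} (hl : PT l) :
    PT fun a => parseUnary (l a) := by
  unfold Lib.PT.parseUnary; fun_prop

@[fun_prop] theorem parsePair {p : α → List Bool → β × List Bool}
    {q : α → List Bool → γ × List Bool} {l : α → List Bool}
    (hp : PT fun x : α × List Bool => p x.1 x.2) (hq : PT fun x : α × List Bool => q x.1 x.2)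
    (hl : PT l) : PT fun a => parsePair (p a) (q a) (l a) := by
  have h1 : PT fun a => p a (l a) := hp.comp_eq (fun a => (a, l a)) (by fun_prop)
  have h2 : PT fun a => q a (p a (l a)).2 := hq.comp_eq (fun a => (a, (p a (l a)).2)) (by fun_prop)
  unfold Lib.PT.parsePair
  exact (h1.fst.pair h2.fst).pair h2.snd

theorem parseMany {p : α → List Bool → β × List Bool} {k : α → ℕ} {l : α → List Bool}
    (hp : PT fun x : α × List Bool => p x.1 x.2) (hs : ∀ a, Shrinks (p a)) (hk : PT k)
    (hb : PB k) (hl : PT l) : PT fun a => parseMany (p a) (k a) (l a) := by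
  obtain ⟨c, e, hc⟩ := PB.sz hp.fst
  have h1 : PT fun x : α × ℕ × List β × List Bool => p x.1 x.2.2.2 :=
    hp.comp_eq (fun x => (x.1, x.2.2.2)) (by fun_prop)
  refine nat_rec (F := fun a i => Lib.PT.parseMany (p a) i (l a)) (z := fun a => ([], l a))
    (f := fun a _ c => (c.1 ++ [(p a c.2).1], (p a c.2).2)) hk hb (by fun_prop) (by fun_prop)
    (fun _ => by rw [Lib.PT.parseMany]) (fun a i _ => parseMany_succ' _ _ _)
    (B := fun a => k a * (c * (sz a + 4 * (l a).length + 2) ^ e + 1) + 4 * (l a).length + 3)
    (by fun_prop) fun a i hi => ?_
  have g1 := sz_list_le (B := c * (sz a + 4 * (l a).length + 2) ^ e)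
    (l := (Lib.PT.parseMany (p a) i (l a)).1) fun x hx => by
      obtain ⟨l', h1, rfl⟩ := mem_parseMany (hs a) _ _ x hx
      refine (hc (a, l')).trans (Nat.mul_le_mul_left _ (Nat.pow_le_pow_left ?_ _))
      have := sz_boolList_le l'
      rw [sz_mk]; omega
  have g2 := sz_boolList_le (Lib.PT.parseMany (p a) i (l a)).2
  have g3 := (hs a).parseMany i (l a)
  rw [length_parseMany] at g1
  have g4 := Nat.mul_le_mul_right (c * (sz a + 4 * (l a).length + 2) ^ e + 1) hi
  rw [sz_prod]; omega

theorem parseN {p : α → List Bool → β × List Bool} {k : α → ℕ} {l : α → List Bool}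
    (hp : PT fun x : α × List Bool => p x.1 x.2) (hs : ∀ a, Shrinks (p a)) (hk : PT k)
    (hl : PT l) : PT fun a => parseN (p a) (k a) (l a) := by
  unfold Lib.PT.parseN
  exact parseMany hp hs (hk.nat_min hl.length) (PB.min_right _ (PB.length hl)) hl

theorem parseList {p : α → List Bool → β × List Bool} {l : α → List Bool}
    (hp : PT fun x : α × List Bool => p x.1 x.2) (hs : ∀ a, Shrinks (p a))
    (hl : PT l) : PT fun a => parseList (p a) (l a) := by
  unfold Lib.PT.parseList
  exact parseN hp hs hl.parseNat.fst hl.parseNat.snd

end PT

/-! ### Masks, tables and graphs -/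

/-- Cut a list into `k` consecutive blocks of length `n`. -/
def chunks (n k : ℕ) (l : List β) : List (List β) :=
  (List.range k).map fun i => (l.drop (i * n)).take n

@[fun_prop] theorem PT.chunks {n k : α → ℕ} {l : α → List β} (hn : PT n) (hk : PT k) (hb : PB k)
    (hl : PT l) : PT fun a => chunks (n a) (k a) (l a) := by
  unfold Lib.PT.chunks; fun_prop

omit [Enc β] in
theorem chunks_flatten (n : ℕ) (L : List (List β)) (h : ∀ x ∈ L, x.length = n) (r : List β) :
    chunks n L.length (L.flatten ++ r) = L := by
  induction L with
  | nil => rfl
  | cons x L ih =>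
    have h1 := h x (by simp)
    have h2 := ih fun y hy => h y (by simp [hy])
    unfold chunks at h2 ⊢
    rw [List.length_cons, List.range_succ_eq_map, List.map_cons, List.map_map]
    congr 1
    · simp [← h1]
    · refine Eq.trans ?_ h2
      refine List.map_congr_left fun i _ => ?_
      simp only [Function.comp, List.flatten_cons, List.append_assoc, Nat.succ_mul]
      rw [Nat.add_comm, ← List.drop_drop, ← h1, List.drop_left]

theorem maskCode_eq (n : ℕ) (s : Finset (Fin n)) :
    maskCode n s = List.ofFn fun i => decide (i ∈ s) := List.ofFn_eq_map.symm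

theorem length_maskCode (n : ℕ) (s : Finset (Fin n)) : (maskCode n s).length = n := by
  simp [maskCode]

theorem getD_maskCode (n : ℕ) (s : Finset (Fin n)) (i : Fin n) :
    (maskCode n s).getD i false = decide (i ∈ s) := by simp [maskCode]

theorem decodeMask_maskCode (n : ℕ) (s : Finset (Fin n)) : decodeMask n (maskCode n s) = s := by
  ext i; simp [decodeMask, maskCode]

/-- Read a table written by `tableCode`, as the list of its rows. -/
def parseTable (l : List Bool) : List (List ℚ) × List Bool :=
  parseN (parseN parseRat (parseNat l).1) (parseNat l).1 (parseNat l).2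

theorem parseTable_tableCode (n : ℕ) (t : Fin n → Fin n → ℚ) (r : List Bool) :
    parseTable (tableCode n t ++ r) = (List.ofFn fun i => List.ofFn (t i), r) := by
  simp only [parseTable, tableCode, List.append_assoc, parseNat_natCode, ← List.ofFn_eq_map]
  refine parseN_ofFn (fun i r => parseN_ofFn (fun j r => parseRat_ratCode _ _)
    (fun j => ratCode_ne_nil _) r) (fun i => ?_) r
  simp only [ne_eq, List.flatten_eq_nil_iff, List.mem_ofFn, forall_exists_index,
    forall_apply_eq_imp_iff, not_forall]
  exact ⟨i, ratCode_ne_nil _⟩

theorem shrinks_parseTable : Shrinks parseTable := fun l =>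
  ((shrinks_parseRat.parseN _).parseN _ _).trans (shrinks_parseNat l)

@[fun_prop] theorem PT.parseTable {l : α → List Bool} (hl : PT l) :
    PT fun a => parseTable (l a) :=
  PT.parseN (p := fun a => Lib.PT.parseN Lib.PT.parseRat (Lib.PT.parseNat (l a)).1)
    (PT.parseN (p := fun _ => Lib.PT.parseRat) (by fun_prop) (fun _ => shrinks_parseRat)
      (by fun_prop) (by fun_prop)) (fun _ => shrinks_parseRat.parseN _) (by fun_prop)
    (by fun_prop)

/-- Read a graph written by `graphCode`, as the list of the rows of its adjacency table. -/
def parseGraph (l : List Bool) : List (List Bool) × List Bool :=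
  parseN (parseN parseBool (parseNat l).1) (parseNat l).1 (parseNat l).2

theorem parseGraph_graphCode (n : ℕ) (G : SimpleGraph (Fin n)) [DecidableRel G.Adj]
    (r : List Bool) : parseGraph (graphCode n G ++ r) =
      (List.ofFn fun i => List.ofFn fun j => decide (G.Adj i j), r) := by
  simp only [parseGraph, graphCode, List.append_assoc, parseNat_natCode, ← List.ofFn_eq_map]
  refine parseN_ofFn (fun i r => ?_) (fun i => ?_) r
  · simpa using parseN_parseBool (List.ofFn fun j => decide (G.Adj i j)) r
  · rw [← List.length_pos_iff, List.length_ofFn]; exact i.pos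

theorem shrinks_parseGraph : Shrinks parseGraph := fun l =>
  ((shrinks_parseBool.parseN _).parseN _ _).trans (shrinks_parseNat l)

@[fun_prop] theorem PT.parseGraph {l : α → List Bool} (hl : PT l) :
    PT fun a => parseGraph (l a) :=
  PT.parseN (p := fun a => Lib.PT.parseN Lib.PT.parseBool (Lib.PT.parseNat (l a)).1)
    (PT.parseN (p := fun _ => Lib.PT.parseBool) (by fun_prop) (fun _ => shrinks_parseBool)
      (by fun_prop) (by fun_prop)) (fun _ => shrinks_parseBool.parseN _) (by fun_prop)
    (by fun_prop)

attribute [irreducible] parseTable parseGraph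

end Crest.Agent.Lib.PT
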