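import Crest.Agent.Lib.PT.Basic

/-!
# From timed computations on trees to `Turing.FinTM2`
-/

set_option linter.dupNamespace false

namespace Crest.Agent.Lib.PT

open Turing

section

variable {G Λ : Type}

/-- Push a list of bits on the main stack, head on top. -/
def pushAll : List Bool → TStmt G Λ → TStmt G Λ
  | [], q => q
  | x :: l, q => pushAll l (pushS .m x q)

theorem stepAux_pushAll (l : List Bool) : ∀ (q : TStmt G Λ) (v : Sig G) (i : List G)
    (m a b c : List Bool),
    TM2.stepAux (pushAll l q) v (toStk i ⟨m, a, b, c⟩) =
      TM2.stepAux q v (toStk i ⟨l ++ m, a, b, c⟩) := by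
  induction l with
  | nil => intros; rfl
  | cons x l ih =>
    intro q v i m a b c
    rw [pushAll, ih, stepAux_pushS]; rfl

/-- Push the code of the symbol held in the state. -/
def dispatch [DecidableEq G] (cd : G → List Bool) (nxt : Λ) : List G → TStmt G Λ
  | [] => .halt
  | g :: gs => .branch (fun v => decide (v.2 = some g))
      (pushAll (cd g) (.load (fun _ => (none, none)) (jmp (some nxt)))) (dispatch cd nxt gs)

theorem stepAux_dispatch [DecidableEq G] (cd : G → List Bool) (nxt : Λ) (g : G) (o : Option Bool)
    (i : List G) (m a b c : List Bool) : ∀ gs : List G, g ∈ gs →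
    TM2.stepAux (dispatch cd nxt gs) (o, some g) (toStk i ⟨m, a, b, c⟩) =
      ⟨some nxt, (none, none), toStk i ⟨cd g ++ m, a, b, c⟩⟩ := by
  intro gs
  induction gs with
  | nil => intro h; simp at h
  | cons g' gs ih =>
    intro h
    by_cases e : g = g'
    · subst e
      simp only [dispatch, TM2.stepAux, decide_true, cond_true]
      rw [stepAux_pushAll]
      simp only [TM2.stepAux, stepAux_jmp]
    · have h' : g ∈ gs := by simpa [e] using h
      simp only [dispatch, TM2.stepAux, Option.some.injEq, e, decide_false, cond_false]
      exact ih h'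

/-- The whole machine: read the input, then run `p`. -/
def mach [DecidableEq G] (cd : G → List Bool) (gs : List G) (p : Prog) :
    Bool ⊕ Lbl p → TStmt G (Bool ⊕ Lbl p)
  | Sum.inl false => pushS .m false (jmp (some (Sum.inl true)))
  | Sum.inl true => .pop none (fun _ o => (none, (o : Option G)))
      (.branch (fun v => v.2.isNone)
        (.load (fun _ => (none, none)) (jmp (some (Sum.inr (entry p)))))
        (dispatch cd (Sum.inl true) gs))
  | Sum.inr l => code p Sum.inr none l

theorem reach_read [DecidableEq G] [Enc G] (gs : List G) (hgs : ∀ g, g ∈ gs) (p : Prog)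
    (i : List G) : ∀ acc : List G,
    Reach (mach (fun g => true :: (enc g).bits) gs p) (i.length + 1)
      ⟨some (Sum.inl true), (none, none), toStk i ⟨(enc acc).bits, [], [], []⟩⟩
      ⟨some (Sum.inr (entry p)), (none, none),
        toStk [] ⟨(enc (i.reverse ++ acc)).bits, [], [], []⟩⟩ := by
  induction i with
  | nil =>
    intro acc
    refine Reach.one ?_
    simp only [mach, TM2.stepAux]
    erw [List.head?_nil, List.tail_nil, update_toStk_none]
    simp only [Option.isNone_none, cond_true, stepAux_jmp]
    rfl
  | cons g i ih =>
    intro acc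
    rw [List.length_cons, Nat.add_comm _ 1, List.reverse_cons, List.append_assoc]
    refine Reach.trans (Reach.one ?_) (ih (g :: acc))
    simp only [mach, TM2.stepAux]
    erw [List.head?_cons, List.tail_cons, update_toStk_none]
    simp only [Option.isNone_some, cond_false]
    erw [stepAux_dispatch _ _ g _ _ _ _ _ _ gs (hgs g)]
    rfl

end

/-- Decode the code of a list of bits onto stack `a`. -/
def outW : Prog :=
  .wh .m (.case .m .skip (.push .a false) (.seq popP (.seq popP (.push .a true))))

theorem exec_outW (l : List Bool) : ∀ a : List Bool,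
    Exec outW ⟨(enc l).bits, a, [], []⟩ ⟨[], l.reverse ++ a, [], []⟩ (7 * l.length + 1) := by
  induction l with
  | nil => intro a; exact Exec.whF rfl
  | cons x l ih =>
    intro a
    rw [List.reverse_cons, List.append_assoc]
    cases x
    · refine Exec.mono (Exec.whT rfl (Exec.caseF rfl (Exec.push _ _ _)) (ih (false :: a))) ?_
      simp; omega
    · refine Exec.mono (Exec.whT rfl (Exec.caseT rfl
        (Exec.seq (Exec.caseF rfl (Exec.skip _)) (Exec.seq (Exec.caseF rfl (Exec.skip _))
          (Exec.push _ _ _)))) (ih (true :: a))) ?_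
      simp; omega

/-- Decode the code of a list of bits in place. -/
def outP : Prog := .seq outW (pour .a .m)

theorem exec_outP (l : List Bool) :
    Exec outP ⟨(enc l).bits, [], [], []⟩ ⟨l, [], [], []⟩ (9 * l.length + 2) := by
  have h1 := exec_outW l []
  have h2 := exec_pour .a .m (by decide) _ ⟨[], l.reverse ++ [], [], []⟩ rfl
  have h := Exec.seq h1 h2
  simp at h
  exact h.mono (by omega)

/-- The bundled machine. -/
noncomputable def finTM (G : Type) [Fintype G] [DecidableEq G] [Enc G] (p : Prog) : FinTM2 :=
  @FinTM2.mk (Option R) inferInstance inferInstance none (some .m) (Gam G) (Bool ⊕ Lbl p)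
    (Sum.inl false) (@instFintypeSum _ _ _ (lblFintype p)) (Sig G) (none, none) inferInstance
    (inferInstanceAs (Fintype G))
    (mach (fun g => true :: (enc g).bits) (Finset.univ : Finset G).toList p)

theorem initList_finTM (G : Type) [Fintype G] [DecidableEq G] [Enc G] (p : Prog) (i : List G) :
    initList (finTM G p) i =
      (⟨some (Sum.inl false), (none, none), toStk i ⟨[], [], [], []⟩⟩ : TCfg G (Bool ⊕ Lbl p)) := by
  unfold initList
  congr 1
  funext k
  rcases k with _ | r
  · rfl
  · cases r <;> rfl

theorem haltList_finTM (G : Type) [Fintype G] [DecidableEq G] [Enc G] (p : Prog)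
    (o : List Bool) :
    haltList (finTM G p) o =
      (⟨none, (none, none), toStk [] ⟨o, [], [], []⟩⟩ : TCfg G (Bool ⊕ Lbl p)) := by
  unfold haltList
  congr 1
  funext k
  rcases k with _ | r
  · rfl
  · cases r <;> rfl

/-- A timed computation from the code of the reversed input to the code of the output gives a
machine of the library. -/
theorem exists_tm {α G : Type} [Fintype G] [Enc G] (ea : α → List G) (out : α → List Bool)
    {T : α → ℕ} (h : Cmp (fun a => enc (ea a).reverse) (fun a => enc (out a)) T) :
    ∃ tm : TM2ComputableAux G Bool, ∀ a, Nonempty (TM2OutputsInTime tm.tm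
      (List.map tm.inputAlphabet.invFun (ea a))
      (some (List.map tm.outputAlphabet.invFun (out a)))
      ((ea a).length + T a + 9 * (out a).length + 4)) := by
  classical
  obtain ⟨p, hp⟩ := h
  refine ⟨⟨finTM G (.seq p outP), Equiv.refl G, Equiv.refl Bool⟩, fun a => ?_⟩
  have e1 : List.map (Equiv.refl G).invFun (ea a) = ea a := List.map_id _
  have e2 : List.map (Equiv.refl Bool).invFun (out a) = out a := List.map_id _
  let M := mach (fun g : G => true :: (enc g).bits) (Finset.univ : Finset G).toList (.seq p outP)
  have r0 : Reach M 1 ⟨some (Sum.inl false), (none, none), toStk (ea a) ⟨[], [], [], []⟩⟩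
      ⟨some (Sum.inl true), (none, none),
        toStk (ea a) ⟨(enc ([] : List G)).bits, [], [], []⟩⟩ := by
    refine Reach.one ?_
    simp only [M, mach]
    rw [stepAux_pushS, stepAux_jmp]; rfl
  have r1 := reach_read (Finset.univ : Finset G).toList (fun g => by simp) (.seq p outP) (ea a) []
  have x1 := hp a []
  simp only [List.append_nil] at x1 r1
  have r2 := reach_of_exec M [] (Exec.seq x1 (exec_outP (out a))) Sum.inr none fun _ => rfl
  obtain ⟨k, hk, e⟩ := r0.trans (r1.trans r2)
  refine ⟨⟨⟨k, ?_⟩, by show k ≤ _; omega⟩⟩
  erw [e1, e2, initList_finTM, Option.map_some, haltList_finTM]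
  exact e

end Crest.Agent.Lib.PT
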