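import Crest.Agent.Lib.PT.Codes

/-!
# Polynomial time: generic bit codes of encoded types, certificates for NP
-/

set_option linter.dupNamespace false

namespace Crest.Agent.Lib.PT

universe u v w

variable {α : Type u} {β : Type v} {γ : Type w}

/-- One round of writing trees as bits. -/
def bitsStep (s : List V × List Bool) : List V × List Bool :=
  if s.1.headD .nil = .nil then (s.1.tail, false :: s.2)
  else ((s.1.headD .nil).left :: (s.1.headD .nil).right :: s.1.tail, true :: s.2)

theorem bitsStep_loop (B : ℕ) (v : V) : ∀ (l : List V) (acc : List Bool) (t : List V × List Bool)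
    (n : ℕ), 5 * v.size + sz l + sz acc + 5 ≤ B →
    Loop (fun s => ¬ s.1 = []) bitsStep B (l, v.bits.reverse ++ acc) t n →
    Loop (fun s => ¬ s.1 = []) bitsStep B (v :: l, acc) t (n + v.size) := by
  have hb : sz true = 3 := rfl
  induction v with
  | nil =>
    intro l acc t n hB h
    exact Loop.step (by simp) (by simp at hB ⊢; omega) (by simpa [bitsStep] using h)
  | node x y ihx ihy =>
    intro l acc t n hB h
    refine Loop.step (by simp) (by simp at hB ⊢; omega) ?_
    simp only [bitsStep, List.headD_cons, reduceCtorEq, if_false, V.left_node, V.right_node,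
      List.tail_cons]
    simp only [V.size_node] at hB
    have p1 := y.size_pos
    have p2 := sz_boolList_le x.bits.reverse
    have p3 := sz_append x.bits.reverse (true :: acc)
    simp only [List.length_reverse, V.length_bits, sz_cons] at p2 p3
    have h2 := ihy l (x.bits.reverse ++ true :: acc) t n (by omega) (by simpa using h)
    have h1 := ihx (y :: l) (true :: acc) t _ (by simp; omega) h2
    exact h1.mono (by show _ ≤ n + (x.size + y.size); omega)

@[fun_prop] theorem PT.bitsV [Enc α] {f : α → V} (hf : PT f) : PT fun a => (f a).bits := by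
  have h := PT.loop (cont := fun s : List V × List Bool => ¬ s.1 = []) (next := bitsStep)
    (by fun_prop) (PT.restrict (by unfold bitsStep; fun_prop) _) (s₀ := fun a => ([f a], []))
    (out := fun a => ([], (f a).bits.reverse ++ [])) (by fun_prop)
    (N := fun a => 0 + sz (f a)) (B := fun a => 5 * sz (f a) + 7) (by fun_prop) (by fun_prop)
    fun a => bitsStep_loop _ _ _ _ _ _ (by simp) (Loop.stop (by simp) (by
      have := sz_boolList_le (f a).bits
      simp at this ⊢; omega))
  exact h.snd.reverse.of_eq fun a => by simp

/-- One round of reading trees from bits (right to left). -/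
def unbitsStep (b : Bool) (st : List V) : List V :=
  bif b then V.node (st.headD .nil) (st.tail.headD .nil) :: st.tail.tail else V.nil :: st

/-- Read a tree from its prefix code. -/
def unbits (l : List Bool) : V := (l.foldr unbitsStep []).headD .nil

theorem foldr_unbitsStep (v : V) : ∀ r : List Bool,
    (v.bits ++ r).foldr unbitsStep [] = v :: r.foldr unbitsStep [] := by
  induction v with
  | nil => intro r; rfl
  | node x y ihx ihy =>
    intro r
    rw [V.bits_node, List.cons_append, List.append_assoc, List.foldr_cons, ihx, ihy]; rfl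

@[simp] theorem unbits_bits (v : V) : unbits v.bits = v := by
  have := foldr_unbitsStep v []
  rw [List.append_nil] at this
  rw [unbits, this]; rfl

@[fun_prop] theorem PT.unbits [Enc α] {l : α → List Bool} (hl : PT l) :
    PT fun a => unbits (l a) := by
  refine PT.headD (PT.foldr_grow (f := fun _ => unbitsStep) hl (PT.const [])
    (by unfold unbitsStep; fun_prop) (G := fun _ => 4) (by fun_prop) ?_) (PT.const _)
  rintro a (_ | _) (_ | ⟨x, _ | ⟨y, st⟩⟩) _ <;> simp [unbitsStep] <;> omega

/-- Encoded types with a total polynomial-time decoder. -/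
class Dec (α : Type u) [Enc α] where
  /-- the decoder -/
  dec : V → α
  /-- it inverts the code -/
  dec_enc : ∀ a : α, dec (enc a) = a
  /-- it is fast -/
  pt : PT dec

export Dec (dec dec_enc)

attribute [simp] dec_enc

@[fun_prop] theorem PT.dec [Enc α] [Enc β] [Dec β] {f : α → V} (hf : PT f) :
    PT fun a => (dec (f a) : β) := Dec.pt.comp hf

instance decV : Dec V := ⟨id, fun _ => rfl, PT.id⟩

instance decUnit : Dec PUnit.{u + 1} := ⟨fun _ => ⟨⟩, fun _ => rfl, PT.const _⟩

instance decBool : Dec Bool :=
  ⟨fun v => decide (v ≠ .nil), fun b => by cases b <;> rfl, by fun_prop⟩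

instance decProd [Enc α] [Enc β] [Dec α] [Dec β] : Dec (α × β) :=
  ⟨fun v => (dec v.left, dec v.right), fun p => by simp [enc_prod], by fun_prop⟩

instance decList [Enc α] [Dec α] : Dec (List α) :=
  ⟨fun v => v.toList.map dec, fun l => by
    induction l with
    | nil => rfl
    | cons a l ih => rw [enc_cons, V.toList, List.map_cons, ih, dec_enc], by fun_prop⟩

instance decOption [Enc α] [Dec α] : Dec (Option α) :=
  ⟨fun v => (dec v : List α).head?, fun o => by rw [enc_option, dec_enc]; cases o <;> rfl,
    by fun_prop⟩

instance decSum [Enc α] [Enc β] [Dec α] [Dec β] : Dec (α ⊕ β) :=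
  ⟨fun v => if v.left = .nil then Sum.inl (dec v.right) else Sum.inr (dec v.right),
    fun s => by cases s <;> simp [enc_inl, enc_inr, enc_false, enc_true], by fun_prop⟩

instance decNat : Dec ℕ :=
  ⟨fun v => ofBits (dec v), fun n => by rw [enc_nat, dec_enc, ofBits_bits], by fun_prop⟩

instance decUn : Dec Un :=
  ⟨fun v => ⟨(dec v : List Unit).length⟩, fun u => by rw [enc_un, dec_enc]; simp, by fun_prop⟩

instance decInt : Dec ℤ :=
  ⟨fun v => bif (dec v.left : Bool) then - ((dec v.right : ℕ) : ℤ) else ((dec v.right : ℕ) : ℤ),
    fun z => by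
      simp only [enc_int, enc_mk, V.left_node, V.right_node, dec_enc]
      by_cases h : z < 0 <;> simp only [h, decide_true, decide_false, cond_true, cond_false] <;>
        omega, by fun_prop⟩

instance decRat : Dec ℚ :=
  ⟨fun v => mkRat (dec v.left) (dec v.right), fun q => by
    simp only [enc_rat, enc_mk, V.left_node, V.right_node, dec_enc, Rat.mkRat_self], by fun_prop⟩

/-- The generic bit code; its length is `sz a`. -/
def toBits [Enc α] (a : α) : List Bool := (enc a).bits

/-- The generic total decoder of bit strings. -/
def fromBits [Enc α] [Dec α] (w : List Bool) : α := dec (unbits w)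

@[simp] theorem fromBits_toBits [Enc α] [Dec α] (a : α) : fromBits (toBits a) = a := by
  simp [fromBits, toBits]

@[simp] theorem length_toBits [Enc α] (a : α) : (toBits a).length = sz a := V.length_bits _

@[fun_prop] theorem PT.toBits [Enc α] [Enc β] {f : α → β} (hf : PT f) :
    PT fun a => toBits (f a) := hf.enc.bitsV

@[fun_prop] theorem PT.fromBits [Enc α] [Enc β] [Dec β] {f : α → List Bool} (hf : PT f) :
    PT fun a => (fromBits (f a) : β) := hf.unbits.dec

/-- A language with a `PT` verifier of structured certificates is in NP. -/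
theorem PT.inNP' {τ : Type} [Enc τ] [Dec τ] {L : Set (List Bool)} {V : List Bool × τ → Prop}
    (h : PT V) (p : Polynomial ℕ) (h₁ : ∀ x w, V (x, w) → x ∈ L)
    (h₂ : ∀ x ∈ L, ∃ w, sz w ≤ p.eval x.length ∧ V (x, w)) : Crest.Complexity.InNP L :=
  PT.inNP (V := fun q => V (q.1, Lib.PT.fromBits q.2)) (h.comp (by fun_prop)) p fun x =>
    ⟨fun hx => by
      obtain ⟨w, a1, a2⟩ := h₂ x hx
      exact ⟨Lib.PT.toBits w, by simpa using a1, by simpa using a2⟩,
    fun ⟨_, _, hw⟩ => h₁ _ _ hw⟩

end Crest.Agent.Lib.PT
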