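import Crest.Agent.Lib.PT.All

/-!
# Polynomial time with an explicit exponent

A *context* type carries a scale `S` (bit lists count with their length, loop counters with their
value).  `FT k f` : `f` is computed in time `O(S ^ (k + 1))`; `ST k f` : moreover the output has
polylogarithmic size (so that every `PT` map may be applied to it for free); `SR k f` : moreover the
output is a context of scale `O(S)`; `VB e n` : `n = O(S ^ e)`.  All four are `fun_prop`
predicates; use `fun_prop (disch := omega)` and turn hypotheses `h : ST k f` into `h.up`.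
Bounded quantifiers are the constants `Cnt, Bex, Ball, Fnd`.
-/

set_option linter.dupNamespace false
set_option autoImplicit false

namespace Crest.Agent.Lib.PT

/-- Contexts. -/
class Scale (α : Type) [Enc α] where
  /-- the scale -/
  S : α → ℕ
  le : ∃ c, ∀ a, sz a ≤ c * S a

/-- Components that may be added to a context. -/
class Wt (γ : Type) [Enc γ] where
  /-- the weight -/
  w : γ → ℕ
  le : ∀ c, sz c ≤ 4 * w c + 1

open Scale Wt

variable {α β γ δ : Type} [Enc α] [Enc β] [Enc γ] [Enc δ]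

theorem S_pos [Scale α] (a : α) : 1 ≤ S a := by
  obtain ⟨c, h⟩ := Scale.le (α := α)
  have := (one_le_sz a).trans (h a)
  by_contra h'
  simp [show S a = 0 by omega] at this

instance : Wt ℕ := ⟨id, sz_nat_le_self⟩
instance : Wt (List Bool) := ⟨List.length, sz_boolList_le⟩
instance : Scale (List Bool) :=
  ⟨fun l => l.length + 1, 4, fun l => by have := sz_boolList_le l; omega⟩
instance [Scale α] [Wt γ] : Scale (α × γ) :=
  ⟨fun p => S p.1 + w p.2, by
    obtain ⟨c, h⟩ := Scale.le (α := α)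
    refine ⟨c + 6, fun p => ?_⟩
    have := h p.1; have := Wt.le p.2; have := S_pos p.1
    rw [sz_prod]; nlinarith⟩

variable [Scale α]

/-- `n = O(S ^ e)` -/
@[fun_prop] def VB (e : ℕ) (n : α → ℕ) : Prop := ∃ c, ∀ a, n a ≤ c * S a ^ e

/-- time `O(S ^ (k + 1))` -/
@[fun_prop] def FT (k : ℕ) (f : α → β) : Prop := ∃ T, VB (k + 1) T ∧ TC f T

/-- output of polylogarithmic size -/
def SM (f : α → β) : Prop := ∃ c d, ∀ a, sz (f a) ≤ c * (S a).size ^ d

/-- time `O(S ^ (k + 1))` and small output -/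
@[fun_prop] def ST (k : ℕ) (f : α → β) : Prop := FT k f ∧ SM f

/-- time `O(S ^ (k + 1))`, and the output has scale `O(S)` -/
@[fun_prop] def SR [Scale β] (k : ℕ) (f : α → β) : Prop := FT k f ∧ VB 1 fun a => S (f a)

variable {e e' k j : ℕ}

namespace VB

variable {n m : α → ℕ}

theorem mono (h : VB e m) (h' : ∀ a, n a ≤ m a) : VB e n :=
  let ⟨c, h⟩ := h; ⟨c, fun a => (h' a).trans (h a)⟩

theorem up (h : VB e n) (he : e ≤ e') : VB e' n :=
  let ⟨c, h⟩ := h
  ⟨c, fun a => (h a).trans (Nat.mul_le_mul_left _ (Nat.pow_le_pow_right (S_pos a) he))⟩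

@[fun_prop] theorem const (c : ℕ) : VB e fun _ : α => c :=
  up (e := 0) ⟨c, by simp⟩ (Nat.zero_le _)

@[fun_prop] theorem add (h : VB e n) (h' : VB e m) : VB e fun a => n a + m a :=
  let ⟨c, h⟩ := h; let ⟨c', h'⟩ := h'
  ⟨c + c', fun a => by rw [add_mul]; exact Nat.add_le_add (h a) (h' a)⟩

@[fun_prop] theorem sub (h : VB e n) (m : α → ℕ) : VB e fun a => n a - m a :=
  h.mono fun _ => Nat.sub_le _ _

theorem mul (h : VB e n) (h' : VB e' m) : VB (e + e') fun a => n a * m a :=
  let ⟨c, h⟩ := h; let ⟨c', h'⟩ := h'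
  ⟨c * c', fun a => (Nat.mul_le_mul (h a) (h' a)).trans_eq (by ring)⟩

@[fun_prop] theorem cmul (c : ℕ) (h : VB e n) : VB e fun a => c * n a := by
  simpa using (const (e := 0) c).mul h

theorem pow (h : VB e n) (d : ℕ) : VB (e * d) fun a => n a ^ d :=
  let ⟨c, h⟩ := h
  ⟨c ^ d, fun a => (Nat.pow_le_pow_left (h a) d).trans_eq (by rw [mul_pow, pow_mul])⟩

theorem scale : VB (e + 1) fun a : α => S a := up (e := 1) ⟨1, by simp⟩ (by omega)

theorem sz_self : VB (e + 1) fun a : α => sz a :=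
  let ⟨c, h⟩ := Scale.le (α := α); (scale.cmul c).mono h

theorem comp' [Scale β] {g : β → ℕ} {f : α → β} (hg : VB k g) (hf : VB e fun a => S (f a)) :
    VB (e * k) fun a => g (f a) :=
  let ⟨c, h⟩ := hg; ((hf.pow k).cmul c).mono fun a => h (f a)

@[fun_prop] theorem comp [Scale β] {g : β → ℕ} {f : α → β} (hg : VB e g) (hf : SR 0 f) :
    VB e fun a => g (f a) := by simpa using hg.comp' hf.2

@[fun_prop] theorem snd [Scale β] {f : α → β × ℕ} (hf : SR 0 f) : VB 1 fun a => (f a).2 :=
  hf.2.mono fun _ => Nat.le_add_left _ _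

theorem sm (h : VB e n) : SM n := by
  obtain ⟨c, h⟩ := h
  refine ⟨4 * (c + e) + 1, 1, fun a => ?_⟩
  have h1 : 0 < (S a).size := Nat.size_pos.2 (S_pos a)
  have h2 : n a < 2 ^ (c + (S a).size * e) := by
    rw [pow_add, pow_mul]
    exact (h a).trans_lt (Nat.mul_lt_mul_of_lt_of_le Nat.lt_two_pow_self
      (Nat.pow_le_pow_left (Nat.lt_size_self _).le _) (by positivity))
  have := sz_nat_le_of_lt h2
  nlinarith

end VB

theorem size_pow_le (d n : ℕ) (hn : 1 ≤ n) : n.size ^ d ≤ 2 * d ^ d * n := by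
  rcases d.eq_zero_or_pos with rfl | hd
  · simp; omega
  have h1 : 2 ^ (n.size - 1) ≤ n := Nat.lt_size.1 (by have := Nat.size_pos.2 hn; omega)
  have h2 : 2 ^ n.size ≤ 2 * n := by
    rw [show n.size = n.size - 1 + 1 by have := Nat.size_pos.2 hn; omega, pow_succ]; omega
  generalize n.size = x at *
  have h3 : x ≤ d * 2 ^ (x / d) := by
    exact (Nat.lt_mul_div_succ x hd).le.trans (Nat.mul_le_mul_left d Nat.lt_two_pow_self)
  calc x ^ d ≤ (d * 2 ^ (x / d)) ^ d := Nat.pow_le_pow_left h3 d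
    _ ≤ d ^ d * 2 ^ x := by
      rw [mul_pow, ← pow_mul]
      exact Nat.mul_le_mul_left _ (Nat.pow_le_pow_right (by omega) (Nat.div_mul_le_self _ _))
    _ ≤ _ := (Nat.mul_le_mul_left _ h2).trans_eq (by ring)

theorem SM.pb {f : α → β} (hf : SM f) {g : β → ℕ} (hg : PB g) :
    (∃ c d, ∀ a, g (f a) ≤ c * (S a).size ^ d) ∧ VB 1 fun a => g (f a) := by
  obtain ⟨c, d, hf⟩ := hf
  obtain ⟨c', d', hg⟩ := hg
  have h : ∀ a, g (f a) ≤ c' * c ^ d' * (S a).size ^ (d * d') := fun a =>
    (hg _).trans ((Nat.mul_le_mul_left _ (Nat.pow_le_pow_left (hf a) d')).trans_eq (by ring))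
  exact ⟨⟨_, _, h⟩, ((VB.scale.cmul _).cmul _).mono fun a =>
    (h a).trans (Nat.mul_le_mul_left _ (size_pow_le _ _ (S_pos a)))⟩

namespace FT

variable {f : α → β}

theorem mono (h : FT k f) (hk : k ≤ j) : FT j f :=
  let ⟨T, h1, h2⟩ := h; ⟨T, h1.up (by omega), h2⟩

theorem up (h : FT k f) (j : ℕ) (hk : k ≤ j) : FT j f := h.mono hk

theorem of_enc_eq {g : α → γ} (hg : FT k g) (h : ∀ a, enc (f a) = enc (g a)) : FT k f :=
  let ⟨T, h1, h2⟩ := hg; ⟨T, h1, Cmp.congr h2 (fun _ => rfl) h⟩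

theorem of_eq {g : α → β} (hg : FT k g) (h : ∀ a, g a = f a) : FT k f :=
  hg.of_enc_eq fun a => by rw [h]

theorem sz (h : FT k f) : VB (k + 1) fun a => sz (f a) :=
  let ⟨_, h1, h2⟩ := h; (VB.sz_self.add h1).mono h2.size_le

@[fun_prop] theorem id : FT k fun a : α => a := ⟨_, VB.const 1, Cmp.refl _⟩

@[fun_prop] theorem const (b : β) : FT k fun _ : α => b :=
  ⟨_, ((VB.sz_self.cmul 7).add (VB.const _)).add (VB.const 5), Cmp.const _ _⟩

theorem comp' [Scale β] {g : β → γ} (hg : FT k g) (hf : FT j f) (hs : VB e fun a => S (f a))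
    (he : e * (k + 1) ≤ j + 1) : FT j fun a => g (f a) :=
  let ⟨_, h1, h2⟩ := hg; let ⟨_, h3, h4⟩ := hf
  ⟨_, h3.add ((h1.comp' hs).up he), Cmp.trans h4 (Cmp.reindex h2 f)⟩

@[fun_prop] theorem comp [Scale β] {g : β → γ} (hg : FT k g) (hf : SR k f) :
    FT k fun a => g (f a) := hg.comp' hf.1 hf.2 (by omega)

@[fun_prop] theorem pair {g : α → γ} (hf : FT k f) (hg : FT k g) : FT k fun a => (f a, g a) :=
  let ⟨_, h1, h2⟩ := hf; let ⟨_, h3, h4⟩ := hg
  ⟨_, ((h1.add (h3.cmul 12)).add (VB.sz_self.cmul 30)).add (VB.const 17), Cmp.pair h2 h4⟩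

theorem left (hf : FT k f) : FT k fun a => (enc (f a)).left :=
  let ⟨_, h1, h2⟩ := hf
  ⟨_, h1.add ((hf.sz.cmul 14).add (VB.const 15)), Cmp.trans h2 (Cmp.left _)⟩

theorem right (hf : FT k f) : FT k fun a => (enc (f a)).right :=
  let ⟨_, h1, h2⟩ := hf
  ⟨_, h1.add ((hf.sz.cmul 7).add (VB.const 5)), Cmp.trans h2 (Cmp.right _)⟩

@[fun_prop] theorem fst {f : α → β × γ} (hf : FT k f) : FT k fun a => (f a).1 :=
  hf.left.of_enc_eq fun _ => rfl

@[fun_prop] theorem snd {f : α → β × γ} (hf : FT k f) : FT k fun a => (f a).2 :=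
  hf.right.of_enc_eq fun _ => rfl

theorem cons {l : α → List β} (hf : FT k f) (hl : FT k l) : FT k fun a => f a :: l a :=
  (hf.pair hl).of_enc_eq fun _ => rfl

theorem tail {l : α → List β} (hl : FT k l) : FT k fun a => (l a).tail :=
  hl.right.of_enc_eq fun a => by cases l a <;> rfl

theorem cases_nil {c : α → γ} {f g F : α → β} (hc : FT k c) (hf : FT k f) (hg : FT k g)
    (e₁ : ∀ a, enc (c a) = V.nil → F a = f a) (e₂ : ∀ a, enc (c a) ≠ V.nil → F a = g a) :
    FT k F :=
  let ⟨_, h1, h2⟩ := hc; let ⟨T₁, h3, h4⟩ := hf; let ⟨T₂, h5, h6⟩ := hg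
  ⟨_, (((h1.cmul 8).add (h3.add h5)).add (VB.sz_self.cmul 19)).add (VB.const 15),
    Cmp.cond (T₁ := fun a => T₁ a + T₂ a) h2
      (((h4.reindex Subtype.val).mono fun _ => Nat.le_add_right _ _).congr (fun _ => rfl)
        fun a => by rw [e₁ _ a.2])
      (((h6.reindex Subtype.val).mono fun _ => Nat.le_add_left _ _).congr (fun _ => rfl)
        fun a => by rw [e₂ _ a.2])⟩

theorem ite {p : α → Prop} [DecidablePred p] {f g : α → β} (hp : FT k p) (hf : FT k f)
    (hg : FT k g) : FT k fun a => if p a then f a else g a :=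
  hp.cases_nil hg hf (fun a h => if_neg fun hp => by rw [enc_prop, decide_eq_true hp] at h; cases h)
    fun a h => if_pos (by by_contra hp; rw [enc_prop, decide_eq_false hp] at h; exact h rfl)

theorem loop {σ : Type} [Enc σ] [Scale σ] {cont : σ → Bool} {next : σ → σ} (hc : FT k cont)
    (hn : FT k next) {s₀ : α → σ} (hs : FT j s₀) {N B : α → ℕ} (hN : VB e N) (hB : VB e B)
    (h1 : ∀ a i, i < N a → cont (next^[i] (s₀ a)) = true)
    (h2 : ∀ a, cont (next^[N a] (s₀ a)) = false)
    (h3 : ∀ a i, i ≤ N a → S (next^[i] (s₀ a)) ≤ B a) (hj : e * (k + 2) ≤ j + 1) :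
    FT j fun a => next^[N a] (s₀ a) := by
  obtain ⟨Tc, g1, hc⟩ := hc
  obtain ⟨Tb, g2, hn⟩ := hn
  obtain ⟨T₀, g3, hs⟩ := hs
  obtain ⟨c, g⟩ := (g1.add g2).add VB.sz_self
  have g' := fun a i hi =>
    (g _).trans (Nat.mul_le_mul_left c (Nat.pow_le_pow_left (h3 a i hi) (k + 1)))
  refine ⟨_, g3.add (((hN.add (VB.const 1)).mul
    ((((hB.pow (k + 1)).cmul c).cmul 14).add (VB.const 12))).up (by linarith)),
    Cmp.trans hs (Cmp.while_loop (S := fun s : σ => enc s) (Tb := Tb) hc (hn.reindex Subtype.val)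
      s₀ N _ h1 h2 (fun a i hi => ?_) fun a i hi => ?_)⟩
  · have := g' a i hi
    simp only [Lib.PT.sz] at this
    constructor <;> omega
  · have := g' a i hi.le
    simp only [] at this
    omega

@[fun_prop] theorem length {l : α → List β} (hl : FT 0 l) : VB 1 fun a => (l a).length :=
  hl.sz.mono fun a => by have := length_le_sz (l a); omega

end FT

namespace SR

variable [Scale β]

@[fun_prop] theorem id : SR k fun a : α => a := ⟨FT.id, VB.scale⟩

@[fun_prop] theorem fst [Wt γ] {f : α → β × γ} (hf : SR k f) : SR k fun a => (f a).1 :=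
  ⟨hf.1.fst, hf.2.mono fun _ => Nat.le_add_right _ _⟩

theorem pair [Wt γ] {f : α → β} {g : α → γ} (hf : SR k f) (hg : FT k g)
    (hw : VB 1 fun a => w (g a)) : SR k fun a => (f a, g a) := ⟨hf.1.pair hg, hf.2.add hw⟩

end SR

namespace ST

variable {f : α → β} {n m : α → ℕ} {p q : α → Prop}

theorem up (h : ST k f) (j : ℕ) (hk : k ≤ j) : ST j f := ⟨h.1.mono hk, h.2⟩

theorem of_eq {g : α → β} (hg : ST k g) (h : ∀ a, g a = f a) : ST k f := funext h ▸ hg

theorem of_le (h : FT k f) (c : ℕ) (hc : ∀ a, sz (f a) ≤ c) : ST k f := ⟨h, c, 0, by simpa⟩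

theorem pt {g : β → γ} (hg : PT g) (hf : ST k f) : ST k fun a => g (f a) := by
  refine ⟨?_, (hf.2.pb (PB.sz hg)).1⟩
  obtain ⟨_, h1, h2⟩ := hg
  obtain ⟨⟨_, h3, h4⟩, h5⟩ := hf
  exact ⟨_, h3.add ((h5.pb h1).2.up (by omega)), Cmp.trans h4 (Cmp.reindex h2 f)⟩

@[fun_prop] theorem const (b : β) : ST k fun _ : α => b := of_le (FT.const b) _ fun _ => le_rfl

@[fun_prop] theorem comp [Scale β] {g : β → γ} (hg : ST k g) (hf : SR k f) :
    ST k fun a => g (f a) := by
  refine ⟨hg.1.comp hf, ?_⟩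
  obtain ⟨c, d, h⟩ := hg.2
  obtain ⟨c', d', h'⟩ := (hf.2.sm.pb (g := fun n => c * n.size ^ d) (by fun_prop)).1
  exact ⟨c', d', fun a => (h _).trans (h' a)⟩

@[fun_prop] theorem pair {g : α → γ} (hf : ST k f) (hg : ST k g) : ST k fun a => (f a, g a) := by
  refine ⟨hf.1.pair hg.1, ?_⟩
  obtain ⟨c, d, h⟩ := hf.2
  obtain ⟨c', d', h'⟩ := hg.2
  refine ⟨c + c' + 1, d + d', fun a => ?_⟩
  have h1 : 0 < (S a).size := Nat.size_pos.2 (S_pos a)
  have := (h a).trans (Nat.mul_le_mul_left c (Nat.pow_le_pow_right h1 (Nat.le_add_right d d')))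
  have := (h' a).trans (Nat.mul_le_mul_left c' (Nat.pow_le_pow_right h1 (Nat.le_add_left d' d)))
  have := Nat.pow_pos (n := d + d') h1
  rw [sz_mk, add_mul, add_mul]; omega

@[fun_prop] theorem snd [Scale β] {f : α → β × ℕ} (hf : SR k f) : ST k fun a => (f a).2 :=
  ⟨hf.1.snd, (hf.2.mono fun _ => Nat.le_add_left _ _).sm⟩

theorem pt₂ {g : α → γ} (F : β → γ → δ) (hf : ST k f) (hg : ST k g)
    (hF : PT fun p : β × γ => F p.1 p.2 := by fun_prop) : ST k fun a => F (f a) (g a) :=
  pt hF (hf.pair hg)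

@[fun_prop] theorem add (hn : ST k n) (hm : ST k m) : ST k fun a => n a + m a := pt₂ (· + ·) hn hm
@[fun_prop] theorem mul (hn : ST k n) (hm : ST k m) : ST k fun a => n a * m a := pt₂ (· * ·) hn hm
@[fun_prop] theorem sub (hn : ST k n) (hm : ST k m) : ST k fun a => n a - m a := pt₂ (· - ·) hn hm
@[fun_prop] theorem div (hn : ST k n) (hm : ST k m) : ST k fun a => n a / m a := pt₂ (· / ·) hn hm
@[fun_prop] theorem mod (hn : ST k n) (hm : ST k m) : ST k fun a => n a % m a := pt₂ (· % ·) hn hm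
@[fun_prop] theorem min (hn : ST k n) (hm : ST k m) : ST k fun a => min (n a) (m a) :=
  pt₂ Min.min hn hm
@[fun_prop] theorem le (hn : ST k n) (hm : ST k m) : ST k fun a => n a ≤ m a := pt₂ (· ≤ ·) hn hm
@[fun_prop] theorem lt (hn : ST k n) (hm : ST k m) : ST k fun a => n a < m a := pt₂ (· < ·) hn hm
@[fun_prop] theorem eq {g : α → β} (hf : ST k f) (hg : ST k g) : ST k fun a => f a = g a :=
  pt₂ (· = ·) hf hg
@[fun_prop] theorem and (hp : ST k p) (hq : ST k q) : ST k fun a => p a ∧ q a := pt₂ And hp hq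
@[fun_prop] theorem or (hp : ST k p) (hq : ST k q) : ST k fun a => p a ∨ q a := pt₂ Or hp hq
@[fun_prop] theorem not (hp : ST k p) : ST k fun a => ¬ p a := pt (g := Not) (by fun_prop) hp
@[fun_prop] theorem pow (hn : ST k n) (d : ℕ) : ST k fun a => n a ^ d :=
  pt (g := (· ^ d)) (by fun_prop) hn
@[fun_prop] theorem size (hn : ST k n) : ST k fun a => (n a).size :=
  pt (g := Nat.size) (by fun_prop) hn
@[fun_prop] theorem natCode (hn : ST k n) : ST k fun a => Crest.Enc.natCode (n a) :=
  pt (g := Crest.Enc.natCode) (by fun_prop) hn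
@[fun_prop] theorem decide [DecidablePred p] (hp : ST k p) : ST k fun a => decide (p a) :=
  of_le (hp.1.of_enc_eq fun a => (enc_prop (p a)).symm) 3 fun _ => sz_bool_le _
@[fun_prop] theorem ite [DecidablePred p] {g : α → β} (hp : ST k p) (hf : ST k f) (hg : ST k g) :
    ST k fun a => if p a then f a else g a :=
  ⟨hp.1.ite hf.1 hg.1, let ⟨c, d, h⟩ := (hf.pair hg).2
    ⟨c, d, fun a => le_trans (by simp only [sz_mk]; split_ifs <;> omega) (h a)⟩⟩

end ST

theorem FT.rec [Wt γ] {n B : α → ℕ} {z : α → γ} {f : α → ℕ → γ → γ} (F : α → ℕ → γ)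
    (hn : ST k n) (hN : VB e n) (hz : FT j z)
    (hf : FT k fun s : (α × ℕ) × γ => f s.1.1 s.1.2 s.2) (h0 : ∀ a, F a 0 = z a)
    (hs : ∀ a i, i < n a → F a (i + 1) = f a i (F a i)) (hB : VB e B)
    (hw : ∀ a i, i ≤ n a → w (F a i) ≤ B a) (he : 1 ≤ e) (hj : e * (k + 2) ≤ j + 1) :
    FT j fun a => F a (n a) := by
  let next : (α × ℕ) × γ → (α × ℕ) × γ := fun s => ((s.1.1, s.1.2 + 1), f s.1.1 s.1.2 s.2)
  have it : ∀ a i, i ≤ n a → next^[i] ((a, 0), z a) = ((a, i), F a i) := fun a i => by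
    induction i with
    | zero => intro _; rw [h0]; rfl
    | succ i ih => intro hi; rw [Function.iterate_succ_apply', ih (by omega), hs a i hi]
  have h1 : ST k fun s : (α × ℕ) × γ => decide (s.1.2 < n s.1.1) := by fun_prop
  have h2 : ST k fun s : (α × ℕ) × γ => s.1.2 + 1 := by fun_prop
  refine (FT.loop (next := next) h1.1 ((FT.id.fst.fst.pair h2.1).pair hf)
    (s₀ := fun a => ((a, 0), z a)) (by fun_prop) hN (((VB.scale.up he).add hN).add hB)
    (fun a i hi => by rw [it a i hi.le]; simpa) (fun a => by rw [it a _ le_rfl]; simp)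
    (fun a i hi => ?_) hj).snd.of_eq fun a => by rw [it a _ le_rfl]
  rw [it a i hi]
  exact Nat.add_le_add (Nat.add_le_add_left hi _) (hw a i hi)

@[fun_prop] theorem ST.length {l : α → List Bool} (hl : FT 0 l) (hk : 1 ≤ k) :
    ST k fun a => (l a).length := by
  refine ⟨?_, hl.length.sm⟩
  let next : List Bool × ℕ → List Bool × ℕ := fun s => (s.1.tail, s.2 + 1)
  have it : ∀ l i, next^[i] (l, 0) = (l.drop i, i) := fun l i => by
    induction i with
    | zero => rfl
    | succ i ih => rw [Function.iterate_succ_apply', ih]; simp [next]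
  have h1 : FT 0 fun s : List Bool × ℕ => !s.1.isEmpty :=
    FT.id.fst.cases_nil (FT.const false) (FT.const true)
      (by rintro ⟨_ | _, _⟩ h <;> simp_all [enc_cons]) (by rintro ⟨_ | _, _⟩ h <;> simp_all [enc_nil])
  have h2 : ST 0 fun s : List Bool × ℕ => s.2 + 1 := by fun_prop
  refine (FT.loop (next := next) h1 (FT.id.fst.tail.pair h2.1) (s₀ := fun a => (l a, 0))
    ((hl.mono (Nat.zero_le k)).pair (FT.const _)) hl.length (hl.length.add (VB.const 1))
    (fun a i hi => by simpa [it]) (fun a => by simp [it]) (fun a i hi => ?_)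
    (by omega)).snd.of_eq fun a => by rw [it]
  rw [it]
  show (List.drop _ _).length + 1 + i ≤ _
  simp; omega

@[fun_prop] theorem ST.getD {l : α → List Bool} {n : α → ℕ} (hl : FT 0 l) (hn : ST k n)
    (hk : 1 ≤ k) : ST (k + 1) fun a => (l a).getD (n a) false := by
  have h : FT (k + 1) fun a => (l a).drop (Min.min (n a) (l a).length) :=
    FT.rec (fun a i => (l a).drop i) (f := fun _ _ c => c.tail) (hn.min (ST.length hl hk))
      (hl.length.mono fun _ => min_le_right _ _) (hl.mono (by omega)) FT.id.snd.tail (fun _ => rfl)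
      (fun _ _ _ => by simp) hl.length (fun a i _ => by show (List.drop _ _).length ≤ _; simp)
      le_rfl (by omega)
  refine ST.of_le (h.left.of_enc_eq fun a => ?_) 3 fun _ => sz_bool_le _
  rcases lt_or_ge (n a) (l a).length with h | h
  · rw [min_eq_left h.le, List.drop_eq_getElem_cons h, List.getD_eq_getElem _ _ h]; rfl
  · rw [min_eq_right h, List.drop_length, List.getD_eq_default _ _ h]; rfl

open Classical in
/-- number of `i < n` with `q i` -/
noncomputable def Cnt (n : ℕ) (q : ℕ → Prop) : ℕ := ((Finset.range n).filter q).card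

/-- bounded existential quantifier -/
def Bex (n : ℕ) (q : ℕ → Prop) : Prop := ∃ i < n, q i

/-- bounded universal quantifier -/
def Ball (n : ℕ) (q : ℕ → Prop) : Prop := ∀ i < n, q i

/-- the least `i < n` with `q i`, or `n` -/
noncomputable def Fnd (n : ℕ) (q : ℕ → Prop) : ℕ := Cnt n fun i => ¬ Bex (i + 1) q

theorem Cnt_le (n : ℕ) (q : ℕ → Prop) : Cnt n q ≤ n := by
  classical
  simpa [Cnt] using Finset.card_filter_le (Finset.range n) q

theorem Cnt_lt (n m : ℕ) {q : ℕ → Prop} (h : ∀ i < n, q i ↔ i < m) : Cnt n q = min n m := by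
  classical
  rw [Cnt, ← Finset.card_range (min n m)]
  congr 1; ext i
  simpa using h i

theorem Fnd_spec {n i : ℕ} {q : ℕ → Prop} (hi : i < n) (hq : q i) : Fnd n q ≤ i ∧ q (Fnd n q) := by
  classical
  have h : ∃ i, q i := ⟨i, hq⟩
  have := Nat.find_min' h hq
  rw [Fnd, Cnt_lt n (Nat.find h) fun i _ => by simp [Bex], min_eq_right (by omega)]
  exact ⟨this, Nat.find_spec h⟩

section
variable {n : α → ℕ} {q : α → ℕ → Prop}

@[fun_prop] theorem ST.cnt (hn : ST k n) (hb : VB 1 n) (hq : ST k fun p : α × ℕ => q p.1 p.2) :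
    ST (k + 1) fun a => Cnt (n a) (q a) := by
  classical
  have h : ST k fun s : (α × ℕ) × ℕ => if q s.1.1 s.1.2 then s.2 + 1 else s.2 :=
    ST.ite (hq.comp SR.id.fst) (by fun_prop) (by fun_prop)
  refine ⟨FT.rec (fun a i => Cnt i (q a)) (f := fun a i c => if q a i then c + 1 else c) hn hb
    (FT.const 0) h.1 (fun _ => rfl) (fun a i _ => ?_)
    hb (fun a i hi => (Cnt_le _ _).trans hi) le_rfl (by omega), (hb.mono fun _ => Cnt_le _ _).sm⟩
  simp only [Cnt, Finset.range_add_one, Finset.filter_insert]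
  split_ifs <;> simp

@[fun_prop] theorem ST.bex (hn : ST k n) (hb : VB 1 n) (hq : ST k fun p : α × ℕ => q p.1 p.2) :
    ST (k + 1) fun a => Bex (n a) (q a) :=
  ((ST.const 0).lt (ST.cnt hn hb hq)).of_eq fun a => by simp [Cnt, Bex, Finset.Nonempty]

@[fun_prop] theorem ST.ball (hn : ST k n) (hb : VB 1 n) (hq : ST k fun p : α × ℕ => q p.1 p.2) :
    ST (k + 1) fun a => Ball (n a) (q a) :=
  (ST.bex (q := fun a i => ¬ q a i) hn hb hq.not).not.of_eq fun a => by simp [Ball, Bex]

@[fun_prop] theorem ST.fnd (hn : ST k n) (hb : VB 1 n) (hq : ST k fun p : α × ℕ => q p.1 p.2) :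
    ST (k + 2) fun a => Fnd (n a) (q a) :=
  ST.cnt (hn.up _ (by omega)) hb (ST.bex (q := fun p : α × ℕ => q p.1) (by fun_prop) (by fun_prop)
    (hq.comp (SR.id.fst.fst.pair FT.id.snd (VB.snd SR.id)))).not

end

theorem FT.append {s l : α → List Bool} (hs : ST k s) (hl : FT 0 l) :
    FT (k + 1) fun a => s a ++ l a := by
  have h1 : ST k fun a => (s a).length := ST.pt (g := List.length) (by fun_prop) hs
  have h2 : VB 1 fun a => (s a).length := (hs.2.pb (g := List.length) (by fun_prop)).2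
  have h3 : ST k fun p : (α × ℕ) × List Bool =>
      (s p.1.1).getD ((s p.1.1).length - 1 - p.1.2) false :=
    ST.pt₂ (fun (l : List Bool) i => l.getD i false) (hs.comp SR.id.fst.fst)
      (((h1.comp SR.id.fst.fst).sub (ST.const 1)).sub (by fun_prop))
  refine (FT.rec (fun a i => (s a).drop ((s a).length - i) ++ l a)
    (f := fun a i c => (s a).getD ((s a).length - 1 - i) false :: c) h1 h2 (hl.mono (by omega))
    (h3.1.cons FT.id.snd) (by simp) (fun a i hi => ?_) (h2.add hl.length)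
    (fun a i _ => by show (_ ++ _ : List Bool).length ≤ _; simp) le_rfl (by omega)).of_eq (by simp)
  rw [show (s a).length - 1 - i = (s a).length - (i + 1) by omega,
    show (s a).length - i = (s a).length - (i + 1) + 1 by omega,
    List.drop_eq_getElem_cons (by omega), List.getD_eq_getElem _ _ (by omega), List.cons_append]

theorem FT.build {n : α → ℕ} {f : α → ℕ → List Bool} (hn : ST k n) (hb : VB 1 n)
    (hf : ST k fun p : α × ℕ => f p.1 p.2) :
    FT (2 * k + 5) fun a => ((List.range (n a)).map (f a)).flatten := by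
  obtain ⟨c, hc⟩ := (hf.2.pb (g := List.length) (by fun_prop)).2
  have h : ST k fun s : (α × ℕ) × List Bool => f s.1.1 (n s.1.1 - 1 - s.1.2) :=
    hf.comp (SR.id.fst.fst.pair (ST.sub (by fun_prop) (by fun_prop)).1
      (show VB 1 fun s : (α × ℕ) × List Bool => n s.1.1 - 1 - s.1.2 by fun_prop))
  refine (FT.rec (fun a i => ((List.range' (n a - i) i).map (f a)).flatten)
    (f := fun a i c => f a (n a - 1 - i) ++ c) (hn.up _ k.le_succ)
    (hb.up one_le_two) (FT.const []) (FT.append h FT.id.snd) (by simp) (fun a i hi => ?_)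
    (hb.mul ((VB.scale.add hb).cmul c)) (fun a i hi => ?_) one_le_two (by omega)).of_eq
    fun a => by simp [List.range_eq_range']
  · rw [List.range'_succ, List.map_cons, List.flatten_cons,
      show n a - 1 - i = n a - (i + 1) by omega, show n a - i = n a - (i + 1) + 1 by omega]
  · show List.length _ ≤ _
    rw [List.length_flatten]
    refine (List.sum_le_card_nsmul _ (c * (S a + n a)) ?_).trans (by simpa using Nat.mul_le_mul_right _ hi)
    simp only [List.mem_map, List.mem_range'_1]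
    rintro _ ⟨_, ⟨x, hx, rfl⟩, rfl⟩
    refine (hc (a, x)).trans (Nat.mul_le_mul_left _ ?_)
    rw [pow_one]
    exact Nat.add_le_add_left (show x ≤ n a by omega) _

open Classical in
/-- one round of a table computation -/
noncomputable def tabStep (F : List Bool → ℕ → Prop) (A : List Bool) : List Bool :=
  (List.range A.length).map fun i => decide (F A i)

/-- `i` rounds on a table of length `m` -/
noncomputable def tab (F : List Bool → ℕ → Prop) (m i : ℕ) : List Bool :=
  (tabStep F)^[i] (List.replicate m false)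

theorem tab_succ (F : List Bool → ℕ → Prop) (m i : ℕ) : tab F m (i + 1) = tabStep F (tab F m i) :=
  Function.iterate_succ_apply' _ _ _

@[simp] theorem length_tab (F : List Bool → ℕ → Prop) (m i : ℕ) : (tab F m i).length = m := by
  induction i with
  | zero => simp [tab]
  | succ i ih => simp [tab_succ, tabStep, ih]

theorem tab_zero (F : List Bool → ℕ → Prop) (m x : ℕ) : (tab F m 0).getD x false = false := by
  simp [tab, List.getD_eq_getElem?_getD, List.getElem?_replicate]
  split_ifs <;> rfl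

theorem getD_tab (F : List Bool → ℕ → Prop) {m x : ℕ} (i : ℕ) (hx : x < m) :
    (tab F m (i + 1)).getD x false = true ↔ F (tab F m i) x := by
  simp [tab_succ, tabStep, List.getD_eq_getElem?_getD, hx]

theorem FT.tab {m : α → ℕ} {F : α → List Bool → ℕ → Prop} (hm : ST k m) (hb : VB e m)
    (hF : ST k fun p : (α × List Bool) × ℕ => F p.1.1 p.1.2 p.2) (hk : 1 ≤ k) (he : 1 ≤ e)
    (hj : e * (2 * k + 7) ≤ j + 1) : FT j fun a => tab (F a) (m a) (m a) := by
  classical
  have h0 : FT j fun a => List.replicate (m a) false :=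
    FT.rec (fun _ i => List.replicate i false) hm hb (FT.const []) ((FT.const false).cons FT.id.snd)
      (fun _ => rfl) (fun _ _ _ => rfl) hb (fun a i hi => by show List.length _ ≤ _; simpa) he
      (le_trans (Nat.mul_le_mul_left _ (by omega)) hj)
  have h1 : FT (2 * k + 5) fun p : α × List Bool => tabStep (F p.1) p.2 :=
    (FT.build (f := fun p i => [decide (F p.1 p.2 i)]) (ST.length FT.id.snd hk) FT.id.snd.length
      (ST.pt (g := fun b => [b]) (by fun_prop) hF.decide)).of_eq fun p => by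
        rw [← List.flatMap_def, tabStep, List.map_eq_flatMap]
  exact FT.rec (fun a i => Lib.PT.tab (F a) (m a) i) (hm.up _ (by omega)) hb h0
    (h1.comp (SR.id.fst.fst.pair FT.id.snd FT.id.snd.length)) (fun _ => rfl)
    (fun _ _ _ => tab_succ _ _ _) hb (fun _ _ _ => (length_tab _ _ _).le) he hj

theorem FT.lets [Wt β] {f : α → β} {g : α × β → γ} (hg : FT k g) (hf : FT j f)
    (hw : VB e fun a => w (f a)) (he : 1 ≤ e) (hj : e * (k + 1) ≤ j + 1) :
    FT j fun a => g (a, f a) := hg.comp' (FT.id.pair hf) ((VB.scale.up he).add hw) hj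

/-- The bridge to the machines of the prelude. -/
theorem FT.timeBound {G : List Bool → List Bool} (h : FT k G) (hk : k + 1 ≤ j) :
    ∃ C, Crest.DTime.TimeBound (fun x => G x.reverse) fun L => C * (L + 2) ^ j + C := by
  have h1 : VB (k + 1) fun r => (G r).length := h.sz.mono fun r => by
    have := length_le_sz (G r); omega
  obtain ⟨T, h2, h⟩ := h
  obtain ⟨c, hc⟩ := (((VB.scale.add h2).add (h1.cmul 9)).add (VB.const 4)).up hk
  refine ⟨c, timeBoundComputable_of_cmp (fun x => x) (fun x => x) (fun x => G x.reverse)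
    (Cmp.reindex h List.reverse) _ fun x => ?_⟩
  have h3 := hc x.reverse
  have h4 : S x.reverse = x.length + 1 := by show List.length _ + 1 = _; simp
  have h5 := Nat.mul_le_mul_left c (Nat.pow_le_pow_left (show x.length + 1 ≤ x.length + 2 by omega) j)
  simp only [h4] at h3
  show x.length + T x.reverse + 9 * (G x.reverse).length + 4 ≤ c * (x.length + 2) ^ j + c
  omega

end Crest.Agent.Lib.PT
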