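import Crest.Agent.Lib.PT.Logic

/-!
# Polynomial time: folds and the basic list library
-/

set_option linter.dupNamespace false

namespace Crest.Agent.Lib.PT

universe u v w x y

variable {α : Type u} {β : Type v} {γ : Type w} {δ : Type x} [Enc α] [Enc β] [Enc γ] [Enc δ]

/-- A bound in terms of a list element is a bound in terms of the list. -/
theorem PB.mem_bound' {l : α → List β} (hl : PT l) {G : {p : α × β // p.2 ∈ l p.1} → ℕ}
    (hG : PB G) : ∃ G' : α → ℕ, PB G' ∧ ∀ a b (h : b ∈ l a), G ⟨(a, b), h⟩ ≤ G' a := by
  obtain ⟨c, k, hG⟩ := hG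
  refine ⟨fun a => c * (sz a + sz (l a) + 1) ^ k, by fun_prop, fun a b h => (hG _).trans ?_⟩
  have := sz_le_of_mem h
  refine Nat.mul_le_mul_left _ (Nat.pow_le_pow_left ?_ _)
  rw [sz_subtype]; simp; omega

/-- A bound in terms of a list element is a bound in terms of the list. -/
theorem PB.mem_bound {l : α → List β} (hl : PT l) {G : α × β → ℕ}
    (hG : PB G) : ∃ G' : α → ℕ, PB G' ∧ ∀ a b, b ∈ l a → G (a, b) ≤ G' a :=
  PB.mem_bound' hl (G := fun p => G p.1) (hG.comp PT.id.val)

namespace PT

/-- One round of a left fold. -/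
def foldlStep (f : α → γ → β → γ) (s : α × γ × List β) : α × γ × List β :=
  List.casesOn (motive := fun _ => α × γ × List β) s.2.2 s fun b t => (s.1, f s.1 s.2.1 b, t)

/-- The most general left fold: the step need only be fast on the states that occur. -/
theorem foldl_gen {l : α → List β} {init : α → γ} {f : α → γ → β → γ} (hl : PT l) (hi : PT init)
    (hf : PT fun p : {p : α × γ × β // ∃ pre rest, l p.1 = pre ++ p.2.2 :: rest ∧
      p.2.1 = pre.foldl (f p.1) (init p.1)} => f p.1.1 p.1.2.1 p.1.2.2)
    {B : α → ℕ} (hB : PB B)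
    (hsz : ∀ a pre, pre <+: l a → sz (pre.foldl (f a) (init a)) ≤ B a) :
    PT fun a => (l a).foldl (f a) (init a) := by
  let J : α × γ × List β → Prop := fun s =>
    ∃ pre, l s.1 = pre ++ s.2.2 ∧ s.2.1 = pre.foldl (f s.1) (init s.1)
  have h := loop_inv (cont := fun s : α × γ × List β => ¬ s.2.2 = []) (next := foldlStep f) J
    ?_ id.val.snd.snd.eq_nil.not ?_ (s₀ := fun a => (a, init a, l a))
    (out := fun a => (a, (l a).foldl (f a) (init a), [])) (by fun_prop)
    (fun a => ⟨[], rfl, rfl⟩) (N := fun a => (l a).length)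
    (B := fun a => sz a + B a + sz (l a) + 2) (by fun_prop) (by fun_prop) ?_
  · exact h.snd.fst
  · rintro ⟨a, c, _ | ⟨b, t⟩⟩ ⟨pre, h1, h2⟩ h3
    · exact absurd rfl h3
    · exact ⟨pre ++ [b], by simpa [foldlStep] using h1, by
        simp only [foldlStep, List.foldl_append, List.foldl_cons, List.foldl_nil]
        simp only [] at h2
        rw [h2]⟩
  · have key : ∀ s : {s : α × γ × List β // J s ∧ ¬ s.2.2 = []}, ∃ pre rest,
        l s.1.1 = pre ++ s.1.2.2.head s.2.2 :: rest ∧
          s.1.2.1 = pre.foldl (f s.1.1) (init s.1.1) := by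
      rintro ⟨s, ⟨pre, h1, h2⟩, h3⟩
      exact ⟨pre, s.2.2.tail, by simpa using h1, h2⟩
    have h1 := hf.comp (f := fun s : {s : α × γ × List β // J s ∧ ¬ s.2.2 = []} =>
      ⟨(s.1.1, s.1.2.1, s.1.2.2.head s.2.2), key s⟩)
      (subtype_mk (id.val.fst.pair (id.val.snd.fst.pair
        (id.val.snd.snd.head fun s => s.2.2))) _)
    refine (id.val.fst.pair (h1.pair id.val.snd.snd.tail)).of_eq ?_
    rintro ⟨⟨a, c, _ | ⟨b, t⟩⟩, h2, h3⟩
    · exact absurd rfl h3
    · rfl
  · intro a
    have key : ∀ rest pre : List β, l a = pre ++ rest →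
        Loop (fun s : α × γ × List β => ¬ s.2.2 = []) (foldlStep f)
          (sz a + B a + sz (l a) + 2) (a, pre.foldl (f a) (init a), rest)
          (a, (l a).foldl (f a) (init a), []) rest.length := by
      intro rest
      induction rest with
      | nil =>
        intro pre h
        rw [List.append_nil] at h
        rw [← h]
        have := hsz a (l a) List.prefix_rfl
        have := one_le_sz (l a)
        exact Loop.stop (by simp) (by simp; omega)
      | cons b t ih =>
        intro pre h
        have h1 := hsz a pre ⟨_, h.symm⟩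
        have h2 : sz (b :: t) ≤ sz (l a) := sz_sublist (by rw [h]; simp)
        refine Loop.step (by simp) (by simp only [sz_mk]; omega) ?_
        have := ih (pre ++ [b]) (by simpa using h)
        simpa [foldlStep] using this
    exact key (l a) [] rfl

/-- Left fold, given a bound on the size of all partial results. -/
theorem foldl_of_prefix {l : α → List β} {init : α → γ} {f : α → γ → β → γ} (hl : PT l)
    (hi : PT init) (hf : PT fun p : α × γ × β => f p.1 p.2.1 p.2.2) {B : α → ℕ} (hB : PB B)
    (hsz : ∀ a pre, pre <+: l a → sz (pre.foldl (f a) (init a)) ≤ B a) :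
    PT fun a => (l a).foldl (f a) (init a) :=
  foldl_gen hl hi (hf.restrict _) hB hsz

/-- Left fold with an invariant `I a k c` (`c` is a possible accumulator after `k` rounds). -/
theorem foldl_inv {l : α → List β} {init : α → γ} {f : α → γ → β → γ} (I : α → ℕ → γ → Prop)
    (hl : PT l) (hi : PT init) (h0 : ∀ a, I a 0 (init a))
    (hI : ∀ a k c b, k < (l a).length → b ∈ l a → I a k c → I a (k + 1) (f a c b))
    (hf : PT fun p : {p : α × γ × β // (∃ k, k < (l p.1).length ∧ I p.1 k p.2.1) ∧
      p.2.2 ∈ l p.1} => f p.1.1 p.1.2.1 p.1.2.2)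
    {B : α → ℕ} (hB : PB B) (hsz : ∀ a k c, k ≤ (l a).length → I a k c → sz c ≤ B a) :
    PT fun a => (l a).foldl (f a) (init a) := by
  have key : ∀ a pre, pre <+: l a → I a pre.length (pre.foldl (f a) (init a)) := by
    intro a pre
    induction pre using List.reverseRecOn with
    | nil => intro _; exact h0 a
    | append_singleton pre b ih =>
      intro h
      have h1 := h.length_le
      simp only [List.foldl_append, List.foldl_cons, List.foldl_nil, List.length_append,
        List.length_singleton] at h1 ⊢
      exact hI _ _ _ _ (by omega) (h.subset (by simp))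
        (ih ((List.prefix_append _ _).trans h))
  refine foldl_gen hl hi (hf.sub_mono fun p hp => ?_) hB
    fun a pre h => hsz a _ _ h.length_le (key a pre h)
  obtain ⟨pre, rest, h1, h2⟩ := hp
  refine ⟨⟨pre.length, by rw [h1]; simp, ?_⟩, by rw [h1]; simp⟩
  rw [h2]; exact key _ _ ⟨_, h1.symm⟩

/-- Left fold whose accumulator grows by a polynomial amount in each round. -/
theorem foldl_grow' {l : α → List β} {init : α → γ} {f : α → γ → β → γ} (hl : PT l)
    (hi : PT init)
    (hf : PT fun p : {p : α × γ × β // p.2.2 ∈ l p.1} => f p.1.1 p.1.2.1 p.1.2.2)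
    {G : α → ℕ} (hG : PB G) (hsz : ∀ a c b, b ∈ l a → sz (f a c b) ≤ sz c + G a) :
    PT fun a => (l a).foldl (f a) (init a) :=
  foldl_inv (fun a k c => sz c ≤ sz (init a) + k * G a) hl hi (fun a => by simp)
    (fun a k c b _ hb h => by have := hsz a c b hb; rw [Nat.succ_mul]; omega)
    (hf.sub_mono fun _ h => h.2)
    (B := fun a => sz (init a) + (l a).length * G a) (by fun_prop)
    (fun a k c hk h => h.trans (by have := Nat.mul_le_mul_right (G a) hk; omega))

/-- Left fold whose accumulator grows by a polynomial amount in each round. -/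
theorem foldl_grow {l : α → List β} {init : α → γ} {f : α → γ → β → γ} (hl : PT l)
    (hi : PT init) (hf : PT fun p : α × γ × β => f p.1 p.2.1 p.2.2)
    {G : α × β → ℕ} (hG : PB G) (hsz : ∀ a c b, b ∈ l a → sz (f a c b) ≤ sz c + G (a, b)) :
    PT fun a => (l a).foldl (f a) (init a) := by
  obtain ⟨G', h1, h2⟩ := PB.mem_bound hl hG
  exact foldl_grow' hl hi (hf.restrict _) h1 fun a c b hb => by
    have := hsz a c b hb; have := h2 a b hb; omega

omit [Enc β] in
theorem foldl_cons_eq (l : List β) : ∀ c : List β,
    l.foldl (fun c b => b :: c) c = l.reverse ++ c := by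
  induction l with
  | nil => intro c; rfl
  | cons b l ih => intro c; simp [ih]

@[fun_prop] theorem reverseAux {l l' : α → List β} (hl : PT l) (hl' : PT l') :
    PT (fun a => (l a).reverseAux (l' a)) :=
  (foldl_grow (f := fun _ c b => b :: c) hl hl' (by fun_prop) (G := fun p => sz p.2 + 1)
    (by fun_prop) fun a c b _ => by simp; omega).of_eq fun a => by
      rw [foldl_cons_eq, List.reverseAux_eq]

@[fun_prop] theorem reverse {l : α → List β} (hl : PT l) : PT (fun a => (l a).reverse) :=
  hl.reverseAux (const [])

@[fun_prop] theorem append {l l' : α → List β} (hl : PT l) (hl' : PT l') :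
    PT (fun a => l a ++ l' a) :=
  (hl.reverse.reverseAux hl').of_eq fun a => by simp [List.reverseAux_eq]

@[fun_prop] theorem concat {l : α → List β} {f : α → β} (hl : PT l) (hf : PT f) :
    PT (fun a => (l a).concat (f a)) :=
  (hl.append (hf.cons (const []))).of_eq fun a => by simp

/-- The most general right fold. -/
theorem foldr_gen {l : α → List β} {init : α → γ} {f : α → β → γ → γ} (hl : PT l) (hi : PT init)
    (hf : PT fun p : {p : α × β × γ // ∃ pre rest, l p.1 = pre ++ p.2.1 :: rest ∧
      p.2.2 = rest.foldr (f p.1) (init p.1)} => f p.1.1 p.1.2.1 p.1.2.2)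
    {B : α → ℕ} (hB : PB B)
    (hsz : ∀ a suf, suf <:+ l a → sz (suf.foldr (f a) (init a)) ≤ B a) :
    PT fun a => (l a).foldr (f a) (init a) := by
  have key : ∀ p : {p : α × γ × β // ∃ pre rest, (l p.1).reverse = pre ++ p.2.2 :: rest ∧
      p.2.1 = pre.foldl (fun c b => f p.1 b c) (init p.1)}, ∃ pre rest,
      l p.1.1 = pre ++ p.1.2.2 :: rest ∧ p.1.2.1 = rest.foldr (f p.1.1) (init p.1.1) := by
    rintro ⟨p, pre, rest, h1, h2⟩
    refine ⟨rest.reverse, pre.reverse, ?_, by rw [List.foldr_reverse]; exact h2⟩
    rw [List.reverse_eq_iff] at h1; simpa using h1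
  refine (foldl_gen (f := fun a c b => f a b c) hl.reverse hi
    (hf.comp_sub (fun p => (p.1.1, p.1.2.2, p.1.2.1)) (by fun_prop) key)
    hB fun a pre h => ?_).of_eq fun a => by rw [List.foldl_reverse]
  have := hsz a pre.reverse (by rw [← List.reverse_prefix]; simpa using h)
  rwa [List.foldr_reverse] at this

/-- Right fold, given a bound on the size of all partial results. -/
theorem foldr_of_suffix {l : α → List β} {init : α → γ} {f : α → β → γ → γ} (hl : PT l)
    (hi : PT init) (hf : PT fun p : α × β × γ => f p.1 p.2.1 p.2.2) {B : α → ℕ} (hB : PB B)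
    (hsz : ∀ a suf, suf <:+ l a → sz (suf.foldr (f a) (init a)) ≤ B a) :
    PT fun a => (l a).foldr (f a) (init a) :=
  foldr_gen hl hi (hf.restrict _) hB hsz

/-- Right fold with an invariant `I a k c` (`c` is a possible accumulator after `k` rounds). -/
theorem foldr_inv {l : α → List β} {init : α → γ} {f : α → β → γ → γ} (I : α → ℕ → γ → Prop)
    (hl : PT l) (hi : PT init) (h0 : ∀ a, I a 0 (init a))
    (hI : ∀ a k c b, k < (l a).length → b ∈ l a → I a k c → I a (k + 1) (f a b c))
    (hf : PT fun p : {p : α × β × γ // (∃ k, k < (l p.1).length ∧ I p.1 k p.2.2) ∧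
      p.2.1 ∈ l p.1} => f p.1.1 p.1.2.1 p.1.2.2)
    {B : α → ℕ} (hB : PB B) (hsz : ∀ a k c, k ≤ (l a).length → I a k c → sz c ≤ B a) :
    PT fun a => (l a).foldr (f a) (init a) :=
  (foldl_inv (f := fun a c b => f a b c) I hl.reverse hi h0
    (fun a k c b h1 h2 => hI a k c b (by simpa using h1) (by simpa using h2))
    (hf.comp_sub (fun p => (p.1.1, p.1.2.2, p.1.2.1)) (by fun_prop)
      fun p => by simpa using p.2) hB
    (fun a k c h => hsz a k c (by simpa using h))).of_eq fun a => by rw [List.foldl_reverse]

/-- Right fold whose accumulator grows by a polynomial amount in each round. -/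
theorem foldr_grow {l : α → List β} {init : α → γ} {f : α → β → γ → γ} (hl : PT l)
    (hi : PT init) (hf : PT fun p : α × β × γ => f p.1 p.2.1 p.2.2)
    {G : α × β → ℕ} (hG : PB G) (hsz : ∀ a b c, b ∈ l a → sz (f a b c) ≤ sz c + G (a, b)) :
    PT fun a => (l a).foldr (f a) (init a) :=
  (foldl_grow (f := fun a c b => f a b c) hl.reverse hi
    (hf.comp (f := fun p : α × γ × β => (p.1, p.2.2, p.2.1)) (by fun_prop)) hG
    fun a c b h => hsz a b c (by simpa using h)).of_eq fun a => by rw [List.foldl_reverse]

/-- `map`, with a function that need only be fast on members of the list. -/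
theorem map_mem {l : α → List β} {f : α → β → γ} (hl : PT l)
    (hf : PT fun p : {p : α × β // p.2 ∈ l p.1} => f p.1.1 p.1.2) :
    PT fun a => (l a).map (f a) := by
  obtain ⟨G, h1, h2⟩ := PB.mem_bound' hl (PB.sz hf)
  refine (foldl_grow' (f := fun a c b => f a b :: c) hl (const [])
    (PT.cons (hf.comp_sub (fun p => (p.1.1, p.1.2.2)) (by fun_prop) fun p => p.2)
      id.val.snd.fst) (G := fun a => G a + 1) (by fun_prop)
    fun a c b h => ?_).reverse.of_eq fun a => ?_
  · have := h2 a b h
    simp at this ⊢; omega
  · have : ∀ (m : List β) (c : List γ), m.foldl (fun c b => f a b :: c) c =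
        (m.map (f a)).reverse ++ c := by
      intro m
      induction m with
      | nil => intro c; rfl
      | cons b m ih => intro c; simp [ih]
    simp [this]

@[fun_prop] theorem map {l : α → List β} {f : α → β → γ} (hl : PT l)
    (hf : PT fun p : α × β => f p.1 p.2) : PT fun a => (l a).map (f a) :=
  map_mem hl (hf.restrict _)

@[fun_prop] theorem flatten {l : α → List (List β)} (hl : PT l) : PT fun a => (l a).flatten :=
  (foldr_grow (f := fun _ b c => b ++ c) hl (const []) (by fun_prop) (G := fun p => sz p.2)
    (by fun_prop) fun a b c _ => by have := sz_append b c; simp only []; omega).of_eq fun a => by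
      induction l a with
      | nil => rfl
      | cons b m ih => simp [ih]

theorem flatMap_mem {l : α → List β} {f : α → β → List γ} (hl : PT l)
    (hf : PT fun p : {p : α × β // p.2 ∈ l p.1} => f p.1.1 p.1.2) :
    PT fun a => (l a).flatMap (f a) :=
  (map_mem hl hf).flatten.of_eq fun _ => List.flatMap_def.symm

@[fun_prop] theorem flatMap {l : α → List β} {f : α → β → List γ} (hl : PT l)
    (hf : PT fun p : α × β => f p.1 p.2) : PT fun a => (l a).flatMap (f a) :=
  flatMap_mem hl (hf.restrict _)

theorem filterMap_mem {l : α → List β} {f : α → β → Option γ} (hl : PT l)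
    (hf : PT fun p : {p : α × β // p.2 ∈ l p.1} => f p.1.1 p.1.2) :
    PT fun a => (l a).filterMap (f a) :=
  (flatMap_mem (f := fun a b => (f a b).toList) hl hf.option_toList).of_eq fun a => by
    rw [List.filterMap_eq_flatMap_toList]

@[fun_prop] theorem filterMap {l : α → List β} {f : α → β → Option γ} (hl : PT l)
    (hf : PT fun p : α × β => f p.1 p.2) : PT fun a => (l a).filterMap (f a) :=
  filterMap_mem hl (hf.restrict _)

theorem filter_mem {l : α → List β} {f : α → β → Bool} (hl : PT l)
    (hf : PT fun p : {p : α × β // p.2 ∈ l p.1} => f p.1.1 p.1.2) :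
    PT fun a => (l a).filter (f a) :=
  (filterMap_mem (f := fun a b => bif f a b then Option.some b else none) hl
    (cond hf id.val.snd.some (const none))).of_eq fun a => by
      induction l a with
      | nil => rfl
      | cons b m ih => cases h : f a b <;> simp [h, ih]

@[fun_prop] theorem filter {l : α → List β} {f : α → β → Bool} (hl : PT l)
    (hf : PT fun p : α × β => f p.1 p.2) : PT fun a => (l a).filter (f a) :=
  filter_mem hl (hf.restrict _)

theorem any_mem {l : α → List β} {f : α → β → Bool} (hl : PT l)
    (hf : PT fun p : {p : α × β // p.2 ∈ l p.1} => f p.1.1 p.1.2) :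
    PT fun a => (l a).any (f a) :=
  (filter_mem hl hf).isEmpty.bnot.of_eq fun a => by
    rw [Bool.eq_iff_iff]; simp [List.filter_eq_nil_iff]

@[fun_prop] theorem any {l : α → List β} {f : α → β → Bool} (hl : PT l)
    (hf : PT fun p : α × β => f p.1 p.2) : PT fun a => (l a).any (f a) :=
  any_mem hl (hf.restrict _)

theorem all_mem {l : α → List β} {f : α → β → Bool} (hl : PT l)
    (hf : PT fun p : {p : α × β // p.2 ∈ l p.1} => f p.1.1 p.1.2) :
    PT fun a => (l a).all (f a) :=
  (any_mem (f := fun a b => !f a b) hl hf.bnot).bnot.of_eq fun a => by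
    rw [Bool.eq_iff_iff]; simp

@[fun_prop] theorem all {l : α → List β} {f : α → β → Bool} (hl : PT l)
    (hf : PT fun p : α × β => f p.1 p.2) : PT fun a => (l a).all (f a) :=
  all_mem hl (hf.restrict _)

theorem bex_mem {l : α → List β} {q : α → β → Prop} (hl : PT l)
    (hq : PT fun p : {p : α × β // p.2 ∈ l p.1} => q p.1.1 p.1.2) :
    PT fun a => ∃ b ∈ l a, q a b := by
  classical
  exact (any_mem (f := fun a b => Decidable.decide (q a b)) hl hq.decide').eq_true.of_iff
    fun a => by simp

/-- Bounded existential quantifier over a list. -/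
theorem bex {l : α → List β} {q : α → β → Prop} (hl : PT l)
    (hq : PT fun p : α × β => q p.1 p.2) : PT fun a => ∃ b ∈ l a, q a b :=
  bex_mem hl (hq.restrict _)

theorem ball_mem {l : α → List β} {q : α → β → Prop} (hl : PT l)
    (hq : PT fun p : {p : α × β // p.2 ∈ l p.1} => q p.1.1 p.1.2) :
    PT fun a => ∀ b ∈ l a, q a b :=
  (bex_mem (q := fun a b => ¬ q a b) hl hq.not).not.of_iff fun a => by simp

/-- Bounded universal quantifier over a list. -/
theorem ball {l : α → List β} {q : α → β → Prop} (hl : PT l)
    (hq : PT fun p : α × β => q p.1 p.2) : PT fun a => ∀ b ∈ l a, q a b :=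
  ball_mem hl (hq.restrict _)

@[fun_prop] theorem mem {l : α → List β} {f : α → β} (hl : PT l) (hf : PT f) :
    PT fun a => f a ∈ l a :=
  (bex (q := fun a b => b = f a) hl (by fun_prop)).of_iff fun a => by simp

@[fun_prop] theorem contains [BEq β] [LawfulBEq β] {l : α → List β} {f : α → β} (hl : PT l)
    (hf : PT f) : PT fun a => (l a).contains (f a) :=
  (any (f := fun a b => f a == b) hl (by fun_prop)).of_eq fun a => by
    rw [List.contains_eq_any_beq]

@[fun_prop] theorem subset {l l' : α → List β} (hl : PT l) (hl' : PT l') :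
    PT fun a => l a ⊆ l' a :=
  (ball (q := fun a b => b ∈ l' a) hl (by fun_prop)).of_iff fun _ => Iff.rfl

theorem find?_mem {l : α → List β} {f : α → β → Bool} (hl : PT l)
    (hf : PT fun p : {p : α × β // p.2 ∈ l p.1} => f p.1.1 p.1.2) :
    PT fun a => (l a).find? (f a) :=
  (filter_mem hl hf).head?.of_eq fun a => by simp

@[fun_prop] theorem find? {l : α → List β} {f : α → β → Bool} (hl : PT l)
    (hf : PT fun p : α × β => f p.1 p.2) : PT fun a => (l a).find? (f a) :=
  find?_mem hl (hf.restrict _)

@[fun_prop] theorem findSome? {l : α → List β} {f : α → β → Option γ} (hl : PT l)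
    (hf : PT fun p : α × β => f p.1 p.2) : PT fun a => (l a).findSome? (f a) :=
  (filterMap hl hf).head?.of_eq fun a => by simp

@[fun_prop] theorem getLast? {l : α → List β} (hl : PT l) : PT fun a => (l a).getLast? :=
  hl.reverse.head?.of_eq fun a => by simp

@[fun_prop] theorem getLastD {l : α → List β} {d : α → β} (hl : PT l) (hd : PT d) :
    PT fun a => (l a).getLastD (d a) :=
  (hl.getLast?.option_getD hd).of_eq fun a => by simp

@[fun_prop] theorem dropLast {l : α → List β} (hl : PT l) : PT fun a => (l a).dropLast :=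
  hl.reverse.tail.reverse.of_eq fun a => by simp

/-- One round of `zip`. -/
def zipStep (s : List γ × List (β × γ)) (b : β) : List γ × List (β × γ) :=
  List.casesOn (motive := fun _ => List γ × List (β × γ)) s.1 s fun c t => (t, (b, c) :: s.2)

@[fun_prop] theorem zip {l : α → List β} {l' : α → List γ} (hl : PT l) (hl' : PT l') :
    PT fun a => (l a).zip (l' a) := by
  refine (foldl_grow (f := fun _ => zipStep) (init := fun a => (l' a, [])) hl (by fun_prop)
    (by unfold zipStep; fun_prop) (G := fun p => sz p.2 + 1) (by fun_prop)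
    ?_).snd.reverse.of_eq fun a => ?_
  · rintro a ⟨_ | ⟨c, t⟩, acc⟩ b _ <;> simp [zipStep]; omega
  · have : ∀ (m : List β) (m' : List γ) (acc : List (β × γ)),
        (m.foldl zipStep (m', acc)).2 = (m.zip m').reverse ++ acc := by
      intro m
      induction m with
      | nil => intros; simp
      | cons b m ih => rintro (_ | ⟨c, t⟩) acc <;> simp [zipStep, ih]
    simp [this]

@[fun_prop] theorem zipWith {l : α → List β} {l' : α → List γ} {f : α → β → γ → δ} (hl : PT l)
    (hl' : PT l') (hf : PT fun p : α × β × γ => f p.1 p.2.1 p.2.2) :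
    PT fun a => List.zipWith (f a) (l a) (l' a) :=
  (map (f := fun a q => f a q.1 q.2) (hl.zip hl') hf).of_eq fun a => by
    rw [List.map_zip_eq_zipWith]; rfl

@[fun_prop] theorem product {l : α → List β} {l' : α → List γ} (hl : PT l) (hl' : PT l') :
    PT fun a => (l a).product (l' a) := by
  unfold List.product; fun_prop

@[fun_prop] theorem sprod {l : α → List β} {l' : α → List γ} (hl : PT l) (hl' : PT l') :
    PT fun a => l a ×ˢ l' a := hl.product hl'

@[fun_prop] theorem takeWhile {l : α → List β} {f : α → β → Bool} (hl : PT l)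
    (hf : PT fun p : α × β => f p.1 p.2) : PT fun a => (l a).takeWhile (f a) := by
  refine (foldr_grow (f := fun a b (c : List β) => bif f a b then b :: c else [])
    (init := fun _ => []) hl (by fun_prop) (by fun_prop) (G := fun p => sz p.2 + 1)
    (by fun_prop) fun a b c _ => ?_).of_eq fun a => ?_
  · have := one_le_sz c
    cases f a b <;> simp <;> omega
  · induction l a with
    | nil => rfl
    | cons b m ih => cases h : f a b <;> simp [h, ih]

@[fun_prop] theorem dropWhile {l : α → List β} {f : α → β → Bool} (hl : PT l)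
    (hf : PT fun p : α × β => f p.1 p.2) : PT fun a => (l a).dropWhile (f a) := by
  refine (foldl_grow (l := fun a => (l a).takeWhile (f a)) (f := fun _ (c : List β) _ => c.tail)
    (init := l) (by fun_prop) hl (by fun_prop) (G := fun _ => 0)
    (by fun_prop) fun a c _ _ => sz_sublist (List.tail_sublist c)).of_eq fun a => ?_
  induction l a with
  | nil => rfl
  | cons b m ih => cases h : f a b <;> simp [h, ih]

/-! ### Unary numbers -/

/-- The unary number as a list. -/
theorem un_list {u : α → Un} (hu : PT u) : PT fun a => List.replicate (u a).n () :=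
  hu.of_enc_eq fun _ => rfl

@[fun_prop] theorem un_length {l : α → List β} (hl : PT l) : PT fun a => Un.mk (l a).length :=
  (map (f := fun _ _ => ()) hl (const ())).of_enc_eq fun a => by
    rw [enc_un, List.map_const']

omit [Enc γ] in
theorem foldl_replicate (f : γ → γ) (n : ℕ) : ∀ c : γ,
    (List.replicate n ()).foldl (fun c _ => f c) c = f^[n] c := by
  induction n with
  | zero => intro c; rfl
  | succ n ih => intro c; simp [List.replicate_succ, ih]

/-- Iteration with an invariant `I a k c` (`c` is a possible state after `k` rounds). -/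
theorem iterate_inv_un {n : α → ℕ} {s : α → γ} {f : α → γ → γ} (I : α → ℕ → γ → Prop)
    (hn : PT fun a => Un.mk (n a)) (hs : PT s) (h0 : ∀ a, I a 0 (s a))
    (hI : ∀ a k c, k < n a → I a k c → I a (k + 1) (f a c))
    (hf : PT fun p : {p : α × γ // ∃ k, k < n p.1 ∧ I p.1 k p.2} => f p.1.1 p.1.2)
    {B : α → ℕ} (hB : PB B) (hsz : ∀ a k c, k ≤ n a → I a k c → sz c ≤ B a) :
    PT fun a => (f a)^[n a] (s a) :=
  (foldl_inv (f := fun a c _ => f a c) I hn.un_list hs h0
    (fun a k c _ h _ => hI a k c (by simpa using h))
    (hf.comp_sub (fun p => (p.1.1, p.1.2.1)) (by fun_prop) fun p => by simpa using p.2.1) hB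
    (fun a k c h => hsz a k c (by simpa using h))).of_eq fun a => foldl_replicate _ _ _

/-- Iteration, given a bound on the size of all intermediate states. -/
theorem iterate_un {n : α → ℕ} {s : α → γ} {f : α → γ → γ}
    (hn : PT fun a => Un.mk (n a)) (hs : PT s) (hf : PT fun p : α × γ => f p.1 p.2)
    {B : α → ℕ} (hB : PB B) (hsz : ∀ a k, k ≤ n a → sz ((f a)^[k] (s a)) ≤ B a) :
    PT fun a => (f a)^[n a] (s a) :=
  iterate_inv_un (fun a k c => c = (f a)^[k] (s a)) hn hs (fun _ => rfl)
    (fun a k c _ h => by rw [h, Function.iterate_succ_apply']) (hf.restrict _) hB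
    fun a k c hk h => by rw [h]; exact hsz a k hk

theorem replicate_un {n : α → ℕ} {f : α → β} (hn : PT fun a => Un.mk (n a)) (hf : PT f) :
    PT fun a => List.replicate (n a) (f a) :=
  (map (f := fun a _ => f a) hn.un_list (by fun_prop)).of_eq fun a => by simp

theorem take_un {n : α → ℕ} {l : α → List β} (hn : PT fun a => Un.mk (n a)) (hl : PT l) :
    PT fun a => (l a).take (n a) :=
  (map (f := fun _ (q : β × Unit) => q.1) (hl.zip hn.un_list) (by fun_prop)).of_eq fun a => by
    have : ∀ (k : ℕ) (m : List β),
        (m.zip (List.replicate k ())).map (fun q => q.1) = m.take k := by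
      intro k
      induction k with
      | zero => simp
      | succ k ih => rintro (_ | ⟨b, m⟩) <;> simp [List.replicate_succ, ih]
    exact this _ _

theorem drop_un {n : α → ℕ} {l : α → List β} (hn : PT fun a => Un.mk (n a)) (hl : PT l) :
    PT fun a => (l a).drop (n a) :=
  (foldl_grow (f := fun _ (c : List β) _ => c.tail) hn.un_list hl (by fun_prop) (G := fun _ => 0)
    (by fun_prop) fun a c _ _ => sz_sublist (List.tail_sublist c)).of_eq fun a => by
      rw [foldl_replicate, List.tail_iterate]

theorem un_add {n m : α → ℕ} (hn : PT fun a => Un.mk (n a)) (hm : PT fun a => Un.mk (m a)) :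
    PT fun a => Un.mk (n a + m a) :=
  (hn.un_list.append hm.un_list).un_length.of_eq fun a => by simp

theorem un_mul {n m : α → ℕ} (hn : PT fun a => Un.mk (n a)) (hm : PT fun a => Un.mk (m a)) :
    PT fun a => Un.mk (n a * m a) :=
  (hn.un_list.product hm.un_list).un_length.of_eq fun a => by
    have := List.length_product (List.replicate (n a) ()) (List.replicate (m a) ())
    simp only [List.length_replicate] at this
    exact congrArg Un.mk this

end PT

end Crest.Agent.Lib.PT
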