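import Crest.Agent.Lib.PT.List

/-!
# Polynomial time: integers and rationals
-/

set_option linter.dupNamespace false

namespace Crest.Agent.Lib.PT

universe u v w x y

variable {α : Type u} {β : Type v} {γ : Type w} [Enc α] [Enc β] [Enc γ]

theorem sz_int_le (z : ℤ) : sz z ≤ sz z.natAbs + 4 := by
  have := sz_bool_le (decide (z < 0))
  rw [sz_int]; omega

theorem sz_natAbs_le (z : ℤ) : sz z.natAbs ≤ sz z := by rw [sz_int]; omega

theorem natAbs_lt_two_pow_sz (z : ℤ) : z.natAbs < 2 ^ sz z :=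
  (lt_two_pow_sz _).trans_le (Nat.pow_le_pow_right (by omega) (sz_natAbs_le z))

/-- An integer of absolute value below `2 ^ k` has a code of size at most `4 * k + 5`. -/
theorem sz_int_le_of_lt {z : ℤ} {k : ℕ} (h : z.natAbs < 2 ^ k) : sz z ≤ 4 * k + 5 := by
  have := sz_int_le z
  have := sz_nat_le_of_lt h
  omega

theorem sz_int_le_of_le {z : ℤ} {n : ℕ} (h : z.natAbs ≤ n) : sz z ≤ 2 * sz n + 4 := by
  have := sz_int_le z
  have := sz_nat_le_of_le h
  omega

/-- Height of a rational number. -/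
def ratH (q : ℚ) : ℕ := q.num.natAbs + q.den

theorem one_le_ratH (q : ℚ) : 1 ≤ ratH q := by have := q.den_pos; unfold ratH; omega

theorem ratH_lt_two_pow_sz (q : ℚ) : ratH q < 2 ^ sz q := by
  have h1 := natAbs_lt_two_pow_sz q.num
  have h2 := lt_two_pow_sz q.den
  have h3 : 2 ^ sz q.num ≤ 2 ^ (sz q.num + sz q.den) := Nat.pow_le_pow_right (by omega) (by omega)
  have h4 : 2 ^ sz q.den ≤ 2 ^ (sz q.num + sz q.den) := Nat.pow_le_pow_right (by omega) (by omega)
  rw [sz_rat, pow_succ, ratH]; omega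

/-- A rational of height below `2 ^ k` has a code of size at most `8 * k + 7`. -/
theorem sz_rat_le_of_lt {q : ℚ} {k : ℕ} (h : ratH q < 2 ^ k) : sz q ≤ 8 * k + 7 := by
  unfold ratH at h
  have := sz_int_le_of_lt (z := q.num) (k := k) (by omega)
  have := sz_nat_le_of_lt (n := q.den) (k := k) (by omega)
  rw [sz_rat]; omega

theorem ratH_mkRat_le (n : ℤ) {d : ℕ} (hd : d ≠ 0) : ratH (mkRat n d) ≤ n.natAbs + d := by
  unfold ratH
  rw [Rat.num_mkRat, Rat.den_mkRat, if_neg hd, if_neg hd]
  exact Nat.add_le_add (Int.natAbs_ediv_le_natAbs _ _) (Nat.div_le_self _ _)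

theorem ratH_add_le (q r : ℚ) : ratH (q + r) ≤ ratH q * ratH r := by
  rw [Rat.add_def']
  refine (ratH_mkRat_le _ (Nat.mul_ne_zero q.den_nz r.den_nz)).trans ?_
  have := Int.natAbs_add_le (q.num * r.den) (r.num * q.den)
  simp only [Int.natAbs_mul, Int.natAbs_natCast] at this
  unfold ratH
  nlinarith [Nat.zero_le (q.num.natAbs * r.num.natAbs)]

theorem ratH_mul_le (q r : ℚ) : ratH (q * r) ≤ ratH q * ratH r := by
  rw [Rat.mul_def']
  refine (ratH_mkRat_le _ (Nat.mul_ne_zero q.den_nz r.den_nz)).trans ?_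
  simp only [Int.natAbs_mul]
  unfold ratH
  nlinarith [Nat.zero_le (q.num.natAbs * r.den), Nat.zero_le (q.den * r.num.natAbs)]

@[simp] theorem ratH_neg (q : ℚ) : ratH (-q) = ratH q := by simp [ratH]

theorem ratH_inv_le (q : ℚ) : ratH q⁻¹ ≤ ratH q := by
  rcases eq_or_ne q 0 with rfl | h
  · simp
  · have h' : q.num ≠ 0 := Rat.num_ne_zero.2 h
    unfold ratH
    rw [Rat.num_inv, Rat.den_inv, if_neg h', Int.natAbs_mul, Int.natAbs_sign_of_ne_zero h']
    simp; omega

theorem ratH_sub_le (q r : ℚ) : ratH (q - r) ≤ ratH q * ratH r := by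
  rw [sub_eq_add_neg, ← ratH_neg r]; exact ratH_add_le _ _

theorem ratH_div_le (q r : ℚ) : ratH (q / r) ≤ ratH q * ratH r := by
  rw [div_eq_mul_inv]
  exact (ratH_mul_le _ _).trans (Nat.mul_le_mul_left _ (ratH_inv_le r))

@[simp] theorem ratH_zero : ratH 0 = 1 := rfl
@[simp] theorem ratH_one : ratH 1 = 2 := rfl
@[simp] theorem ratH_intCast (z : ℤ) : ratH z = z.natAbs + 1 := by simp [ratH]
@[simp] theorem ratH_natCast (n : ℕ) : ratH n = n + 1 := by simp [ratH]

theorem ratH_sum_le (l : List ℚ) : ratH l.sum ≤ (l.map ratH).prod := by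
  induction l with
  | nil => simp
  | cons b m ih => simpa using (ratH_add_le _ _).trans (Nat.mul_le_mul_left _ ih)

theorem ratH_prod_le (l : List ℚ) : ratH l.prod ≤ 2 * (l.map ratH).prod := by
  induction l with
  | nil => simp
  | cons b m ih =>
    have := (ratH_mul_le b m.prod).trans (Nat.mul_le_mul_left _ ih)
    simpa [mul_left_comm] using this

theorem prod_ratH_lt (l : List ℚ) : (l.map ratH).prod < 2 ^ sz l := by
  induction l with
  | nil => simp
  | cons b m ih =>
    have := Nat.mul_lt_mul'' (ratH_lt_two_pow_sz b) ih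
    rw [List.map_cons, List.prod_cons, sz_cons, pow_succ, pow_add]; omega

namespace PT

@[fun_prop] theorem natAbs {z : α → ℤ} (hz : PT z) : PT fun a => (z a).natAbs :=
  hz.enc.right.of_enc_eq fun _ => rfl

theorem int_neg_test {z : α → ℤ} (hz : PT z) : PT fun a => z a < 0 :=
  of_decide (hz.enc.left.of_enc_eq fun _ => rfl)

@[fun_prop] theorem int_natCast {n : α → ℕ} (hn : PT n) : PT fun a => (n a : ℤ) :=
  ((const false).pair hn).of_enc_eq fun a => by
    rw [enc_int, decide_eq_false (by omega), Int.natAbs_natCast]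

@[fun_prop] theorem int_ofNat {n : α → ℕ} (hn : PT n) : PT fun a => Int.ofNat (n a) :=
  hn.int_natCast

@[fun_prop] theorem int_neg {z : α → ℤ} (hz : PT z) : PT fun a => - z a :=
  ((hz.int_neg_test.not.and (hz.eq (const 0)).not).decide.pair hz.natAbs).of_enc_eq fun a => by
    rw [enc_int, Int.natAbs_neg]
    congr 2
    rw [decide_eq_decide]; omega

@[fun_prop] theorem negSucc {n : α → ℕ} (hn : PT n) : PT fun a => Int.negSucc (n a) :=
  (hn.nat_add (const 1)).int_natCast.int_neg

@[fun_prop] theorem int_toNat {z : α → ℤ} (hz : PT z) : PT fun a => (z a).toNat :=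
  (ite hz.int_neg_test (const 0) hz.natAbs).of_eq fun a => by split_ifs <;> omega

@[fun_prop] theorem int_add {z w : α → ℤ} (hz : PT z) (hw : PT w) : PT fun a => z a + w a :=
  PT.of_eq (g := fun a => if (-z a).toNat + (-w a).toNat ≤ (z a).toNat + (w a).toNat then
    (((z a).toNat + (w a).toNat - ((-z a).toNat + (-w a).toNat) : ℕ) : ℤ) else
    - (((-z a).toNat + (-w a).toNat - ((z a).toNat + (w a).toNat) : ℕ) : ℤ)) (by fun_prop)
    fun a => by split_ifs <;> omega

@[fun_prop] theorem int_sub {z w : α → ℤ} (hz : PT z) (hw : PT w) : PT fun a => z a - w a :=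
  (hz.int_add hw.int_neg).of_eq fun _ => (sub_eq_add_neg _ _).symm

@[fun_prop] theorem int_lt {z w : α → ℤ} (hz : PT z) (hw : PT w) : PT fun a => z a < w a :=
  (hz.int_sub hw).int_neg_test.of_iff fun _ => sub_neg

@[fun_prop] theorem int_le {z w : α → ℤ} (hz : PT z) (hw : PT w) : PT fun a => z a ≤ w a :=
  (hw.int_lt hz).not.of_iff fun _ => not_lt

@[fun_prop] theorem int_gt {z w : α → ℤ} (hz : PT z) (hw : PT w) : PT fun a => z a > w a :=
  hw.int_lt hz

@[fun_prop] theorem int_ge {z w : α → ℤ} (hz : PT z) (hw : PT w) : PT fun a => z a ≥ w a :=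
  hw.int_le hz

@[fun_prop] theorem int_max {z w : α → ℤ} (hz : PT z) (hw : PT w) :
    PT fun a => max (z a) (w a) := (ite (hz.int_le hw) hw hz).of_eq fun _ => (max_def _ _).symm

@[fun_prop] theorem int_min {z w : α → ℤ} (hz : PT z) (hw : PT w) :
    PT fun a => min (z a) (w a) := (ite (hz.int_le hw) hz hw).of_eq fun _ => (min_def _ _).symm

@[fun_prop] theorem int_abs {z : α → ℤ} (hz : PT z) : PT fun a => |z a| :=
  hz.natAbs.int_natCast.of_eq fun _ => Int.natCast_natAbs _

@[fun_prop] theorem int_sign {z : α → ℤ} (hz : PT z) : PT fun a => (z a).sign :=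
  PT.of_eq (g := fun a => if z a < 0 then -1 else if z a = 0 then 0 else 1) (by fun_prop)
    fun a => by
      split_ifs with h1 h2
      · rw [Int.sign_eq_neg_one_of_neg h1]
      · rw [h2]; rfl
      · rw [Int.sign_eq_one_of_pos (by omega)]

@[fun_prop] theorem int_mul {z w : α → ℤ} (hz : PT z) (hw : PT w) : PT fun a => z a * w a :=
  PT.of_eq (g := fun a => if (z a < 0 ↔ w a < 0) then (((z a).natAbs * (w a).natAbs : ℕ) : ℤ)
    else - (((z a).natAbs * (w a).natAbs : ℕ) : ℤ)) (by fun_prop) fun a => by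
      simp only [Nat.cast_mul, Int.natCast_natAbs]
      rcases lt_or_ge (z a) 0 with h1 | h1 <;> rcases lt_or_ge (w a) 0 with h2 | h2
      · rw [if_pos (by omega), abs_of_neg h1, abs_of_neg h2]; ring
      · rw [if_neg (by omega), abs_of_neg h1, abs_of_nonneg h2]; ring
      · rw [if_neg (by omega), abs_of_nonneg h1, abs_of_neg h2]; ring
      · rw [if_pos (by omega), abs_of_nonneg h1, abs_of_nonneg h2]

@[fun_prop] theorem int_ediv {z w : α → ℤ} (hz : PT z) (hw : PT w) : PT fun a => z a / w a :=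
  PT.of_eq (g := fun a => if 0 ≤ z a then (w a).sign * ((z a).natAbs / (w a).natAbs : ℕ)
    else - (w a).sign * (((z a).natAbs - 1) / (w a).natAbs + 1 : ℕ)) (by fun_prop) fun a => by
      generalize z a = x
      generalize w a = y
      rcases x with m | m <;> rcases y with (_ | n) | n
      · simp
      · rw [if_pos (by simp)]; exact one_mul _
      · rw [if_pos (by simp)]; exact neg_one_mul _
      · simp
      · rw [if_neg (by simp)]; exact neg_one_mul _
      · rw [if_neg (by simp)]; exact one_mul _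

@[fun_prop] theorem int_emod {z w : α → ℤ} (hz : PT z) (hw : PT w) : PT fun a => z a % w a :=
  (hz.int_sub (hw.int_mul (hz.int_ediv hw))).of_eq fun _ => (Int.emod_def _ _).symm

@[fun_prop] theorem int_dvd {z w : α → ℤ} (hz : PT z) (hw : PT w) : PT fun a => z a ∣ w a :=
  (hz.natAbs.nat_dvd hw.natAbs).of_iff fun _ => Int.natAbs_dvd_natAbs

@[fun_prop] theorem int_gcd {z w : α → ℤ} (hz : PT z) (hw : PT w) :
    PT fun a => Int.gcd (z a) (w a) := hz.natAbs.nat_gcd hw.natAbs

@[fun_prop] theorem int_even {z : α → ℤ} (hz : PT z) : PT fun a => Even (z a) :=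
  hz.natAbs.nat_even.of_iff fun _ => Int.natAbs_even

@[fun_prop] theorem int_odd {z : α → ℤ} (hz : PT z) : PT fun a => Odd (z a) :=
  hz.natAbs.nat_odd.of_iff fun _ => Int.natAbs_odd

@[fun_prop] theorem int_pow {z : α → ℤ} {n : α → ℕ} (hz : PT z) (hn : PT n) (hb : PB n) :
    PT fun a => z a ^ n a :=
  PT.of_eq (g := fun a => if z a < 0 ∧ Odd (n a) then - (((z a).natAbs ^ n a : ℕ) : ℤ)
    else (((z a).natAbs ^ n a : ℕ) : ℤ)) (by fun_prop) fun a => by
      simp only [Nat.cast_pow, Int.natCast_natAbs]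
      split_ifs with h
      · rw [abs_of_neg h.1, h.2.neg_pow, neg_neg]
      · rcases lt_or_ge (z a) 0 with h1 | h1
        · rw [abs_of_neg h1, (Nat.not_odd_iff_even.1 fun h2 => h ⟨h1, h2⟩).neg_pow]
        · rw [abs_of_nonneg h1]

theorem natAbs_sum_lt (l : List ℤ) : l.sum.natAbs < 2 ^ sz l := by
  induction l with
  | nil => simp
  | cons b m ih =>
    have h0 := Int.natAbs_add_le b m.sum
    have h1 := natAbs_lt_two_pow_sz b
    have h2 : 2 ^ sz b ≤ 2 ^ (sz b + sz m) := Nat.pow_le_pow_right (by omega) (by omega)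
    have h3 : 2 ^ sz m ≤ 2 ^ (sz b + sz m) := Nat.pow_le_pow_right (by omega) (by omega)
    rw [List.sum_cons, sz_cons, pow_succ]; omega

theorem natAbs_prod_lt (l : List ℤ) : l.prod.natAbs < 2 ^ sz l := by
  induction l with
  | nil => simp
  | cons b m ih =>
    have := Nat.mul_lt_mul'' (natAbs_lt_two_pow_sz b) ih
    rw [List.prod_cons, sz_cons, pow_succ, pow_add, Int.natAbs_mul]; omega

@[fun_prop] theorem int_sum {l : α → List ℤ} (hl : PT l) : PT fun a => (l a).sum :=
  (foldr_of_suffix (f := fun _ b c => b + c) hl (const 0) (by fun_prop)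
    (B := fun a => 4 * sz (l a) + 5) (by fun_prop) fun a s hs => by
      have h1 := sz_int_le_of_lt (natAbs_sum_lt s)
      have h2 := sz_sublist hs.sublist
      rw [← List.sum_eq_foldr]; omega).of_eq fun _ => List.sum_eq_foldr.symm

@[fun_prop] theorem int_prod {l : α → List ℤ} (hl : PT l) : PT fun a => (l a).prod :=
  (foldr_of_suffix (f := fun _ b c => b * c) hl (const 1) (by fun_prop)
    (B := fun a => 4 * sz (l a) + 5) (by fun_prop) fun a s hs => by
      have h1 := sz_int_le_of_lt (natAbs_prod_lt s)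
      have h2 := sz_sublist hs.sublist
      rw [← List.prod_eq_foldr]; omega).of_eq fun _ => List.prod_eq_foldr.symm

/-! ### Rationals -/

@[fun_prop] theorem rat_num {q : α → ℚ} (hq : PT q) : PT fun a => (q a).num :=
  hq.enc.left.of_enc_eq fun _ => rfl

@[fun_prop] theorem rat_den {q : α → ℚ} (hq : PT q) : PT fun a => (q a).den :=
  hq.enc.right.of_enc_eq fun _ => rfl

@[fun_prop] theorem mkRat {z : α → ℤ} {d : α → ℕ} (hz : PT z) (hd : PT d) :
    PT fun a => mkRat (z a) (d a) :=
  PT.of_enc_eq (g := fun a =>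
    ((if d a = 0 then 0 else z a / ((d a).gcd (z a).natAbs : ℕ) : ℤ),
      if d a = 0 then 1 else d a / (d a).gcd (z a).natAbs)) (by fun_prop) fun a => by
    rw [enc_rat, Rat.num_mkRat, Rat.den_mkRat]

@[fun_prop] theorem rat_intCast {z : α → ℤ} (hz : PT z) : PT fun a => (z a : ℚ) :=
  (hz.pair (const 1)).of_enc_eq fun _ => rfl

@[fun_prop] theorem rat_natCast {n : α → ℕ} (hn : PT n) : PT fun a => (n a : ℚ) :=
  hn.int_natCast.rat_intCast

@[fun_prop] theorem rat_add {q r : α → ℚ} (hq : PT q) (hr : PT r) : PT fun a => q a + r a := by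
  simp only [Rat.add_def']; fun_prop

@[fun_prop] theorem rat_mul {q r : α → ℚ} (hq : PT q) (hr : PT r) : PT fun a => q a * r a := by
  simp only [Rat.mul_def']; fun_prop

@[fun_prop] theorem rat_neg {q : α → ℚ} (hq : PT q) : PT fun a => - q a :=
  (hq.rat_num.int_neg.pair hq.rat_den).of_enc_eq fun _ => rfl

@[fun_prop] theorem rat_sub {q r : α → ℚ} (hq : PT q) (hr : PT r) : PT fun a => q a - r a :=
  (hq.rat_add hr.rat_neg).of_eq fun _ => (sub_eq_add_neg _ _).symm

@[fun_prop] theorem rat_inv {q : α → ℚ} (hq : PT q) : PT fun a => (q a)⁻¹ :=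
  PT.of_enc_eq (g := fun a => (((q a).num.sign * (q a).den : ℤ),
    if (q a).num = 0 then 1 else (q a).num.natAbs)) (by fun_prop) fun a => by
    rw [enc_rat, Rat.num_inv, Rat.den_inv]

@[fun_prop] theorem rat_div {q r : α → ℚ} (hq : PT q) (hr : PT r) : PT fun a => q a / r a :=
  (hq.rat_mul hr.rat_inv).of_eq fun _ => (div_eq_mul_inv _ _).symm

@[fun_prop] theorem divInt {z w : α → ℤ} (hz : PT z) (hw : PT w) :
    PT fun a => Rat.divInt (z a) (w a) :=
  (hz.rat_intCast.rat_div hw.rat_intCast).of_eq fun _ => (Rat.divInt_eq_div _ _).symm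

@[fun_prop] theorem rat_le {q r : α → ℚ} (hq : PT q) (hr : PT r) : PT fun a => q a ≤ r a := by
  simp only [Rat.le_iff]; fun_prop

@[fun_prop] theorem rat_lt {q r : α → ℚ} (hq : PT q) (hr : PT r) : PT fun a => q a < r a :=
  (hr.rat_le hq).not.of_iff fun _ => not_le

@[fun_prop] theorem rat_gt {q r : α → ℚ} (hq : PT q) (hr : PT r) : PT fun a => q a > r a :=
  hr.rat_lt hq

@[fun_prop] theorem rat_ge {q r : α → ℚ} (hq : PT q) (hr : PT r) : PT fun a => q a ≥ r a :=
  hr.rat_le hq

@[fun_prop] theorem rat_max {q r : α → ℚ} (hq : PT q) (hr : PT r) :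
    PT fun a => max (q a) (r a) := (ite (hq.rat_le hr) hr hq).of_eq fun _ => (max_def _ _).symm

@[fun_prop] theorem rat_min {q r : α → ℚ} (hq : PT q) (hr : PT r) :
    PT fun a => min (q a) (r a) := (ite (hq.rat_le hr) hq hr).of_eq fun _ => (min_def _ _).symm

@[fun_prop] theorem rat_abs {q : α → ℚ} (hq : PT q) : PT fun a => |q a| :=
  hq.rat_max hq.rat_neg

@[fun_prop] theorem rat_pow {q : α → ℚ} {n : α → ℕ} (hq : PT q) (hn : PT n) (hb : PB n) :
    PT fun a => q a ^ n a :=
  ((hq.rat_num.int_pow hn hb).pair (hq.rat_den.nat_pow hn hb)).of_enc_eq fun a => by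
    rw [enc_rat, Rat.num_pow, Rat.den_pow]

@[fun_prop] theorem rat_floor {q : α → ℚ} (hq : PT q) : PT fun a => ⌊q a⌋ := by
  simp only [Rat.floor_def']; fun_prop

@[fun_prop] theorem rat_ceil {q : α → ℚ} (hq : PT q) : PT fun a => ⌈q a⌉ := by
  simp only [Rat.ceil_def']; fun_prop

@[fun_prop] theorem rat_natFloor {q : α → ℚ} (hq : PT q) : PT fun a => ⌊q a⌋₊ :=
  hq.rat_floor.int_toNat

@[fun_prop] theorem rat_natCeil {q : α → ℚ} (hq : PT q) : PT fun a => ⌈q a⌉₊ :=
  hq.rat_ceil.int_toNat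

@[fun_prop] theorem rat_round {q : α → ℚ} (hq : PT q) : PT fun a => round (q a) := by
  simp only [round_eq]; fun_prop

@[fun_prop] theorem rat_fract {q : α → ℚ} (hq : PT q) : PT fun a => Int.fract (q a) :=
  hq.rat_sub hq.rat_floor.rat_intCast

@[fun_prop] theorem rat_sum {l : α → List ℚ} (hl : PT l) : PT fun a => (l a).sum :=
  (foldr_of_suffix (f := fun _ b c => b + c) hl (const 0) (by fun_prop)
    (B := fun a => 8 * sz (l a) + 7) (by fun_prop) fun a s hs => by
      have h1 := sz_rat_le_of_lt ((ratH_sum_le s).trans_lt (prod_ratH_lt s))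
      have h2 := sz_sublist hs.sublist
      rw [← List.sum_eq_foldr]; omega).of_eq fun _ => List.sum_eq_foldr.symm

@[fun_prop] theorem rat_prod {l : α → List ℚ} (hl : PT l) : PT fun a => (l a).prod :=
  (foldr_of_suffix (f := fun _ b c => b * c) hl (const 1) (by fun_prop)
    (B := fun a => 8 * (sz (l a) + 1) + 7) (by fun_prop) fun a s hs => by
      have h0 := prod_ratH_lt s
      have h1 := sz_rat_le_of_lt (k := sz s + 1) ((ratH_prod_le s).trans_lt
        (by rw [pow_succ]; omega))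
      have h2 := sz_sublist hs.sublist
      rw [← List.prod_eq_foldr]; omega).of_eq fun _ => List.prod_eq_foldr.symm

end PT

end Crest.Agent.Lib.PT
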