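import Crest.Agent.Lib.PT.Nat

/-!
# Polynomial time: list operations with numeric arguments, sums, sorting
-/

set_option linter.dupNamespace false

namespace Crest.Agent.Lib.PT

universe u v w x y

variable {α : Type u} {β : Type v} {γ : Type w} {δ : Type x} [Enc α] [Enc β] [Enc γ] [Enc δ]

theorem PB.of_le_length {l : α → List β} (hl : PT l) {n : α → ℕ} (h : ∀ a, n a ≤ (l a).length) :
    PB n := (PB.length hl).mono h

@[fun_prop] theorem PB.log {f : α → ℕ} (b : ℕ) (hf : PT f) : PB fun a => Nat.log b (f a) :=
  (PB.size hf).mono fun a => by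
    rcases Nat.lt_or_ge 1 b with hb | hb
    · rcases Nat.eq_zero_or_pos (f a) with h | h
      · simp [h]
      · exact (Nat.log_anti_left (c := 2) (by omega) hb).trans
          (Nat.lt_size.2 (Nat.pow_log_le_self 2 h.ne')).le
    · simp [Nat.log_of_left_le_one hb]

@[fun_prop] theorem PB.log2 {f : α → ℕ} (hf : PT f) : PB fun a => (f a).log2 :=
  (PB.log 2 hf).mono fun _ => Nat.log2_eq_log_two.le

@[fun_prop] theorem PB.mod {f : α → ℕ} (hf : PB f) (g : α → ℕ) : PB fun a => f a % g a :=
  hf.mono fun _ => Nat.mod_le _ _

@[fun_prop] theorem PB.ite {p : α → Prop} [DecidablePred p] {f g : α → ℕ} (hf : PB f)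
    (hg : PB g) : PB fun a => if p a then f a else g a :=
  (hf.add hg).mono fun a => by split_ifs <;> omega

@[fun_prop] theorem PB.toNat (b : α → Bool) : PB fun a => (b a).toNat :=
  (PB.const 1).mono fun _ => Bool.toNat_le _

@[fun_prop] theorem PB.countP {l : α → List β} (hl : PT l) (p : α → β → Bool) :
    PB fun a => (l a).countP (p a) := PB.of_le_length hl fun _ => List.countP_le_length

@[fun_prop] theorem PB.count [BEq β] {l : α → List β} (hl : PT l) (f : α → β) :
    PB fun a => (l a).count (f a) := PB.of_le_length hl fun _ => List.count_le_length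

@[fun_prop] theorem PB.idxOf [BEq β] [LawfulBEq β] {l : α → List β} (hl : PT l) (f : α → β) :
    PB fun a => (l a).idxOf (f a) := PB.of_le_length hl fun _ => List.idxOf_le_length

@[fun_prop] theorem PB.findIdx {l : α → List β} (hl : PT l) (p : α → β → Bool) :
    PB fun a => (l a).findIdx (p a) := PB.of_le_length hl fun _ => List.findIdx_le_length

namespace PT

theorem un_min_length {n : α → ℕ} {l : α → List β} (hn : PT n) (hl : PT l) :
    PT fun a => Un.mk (min (n a) (l a).length) :=
  (hn.nat_min hl.length).un_mk (PB.min_right _ (PB.length hl))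

@[fun_prop] theorem take {n : α → ℕ} {l : α → List β} (hn : PT n) (hl : PT l) :
    PT fun a => (l a).take (n a) :=
  ((hn.un_min_length hl).take_un hl).of_eq fun _ => by rw [← List.take_eq_take_min]

@[fun_prop] theorem drop {n : α → ℕ} {l : α → List β} (hn : PT n) (hl : PT l) :
    PT fun a => (l a).drop (n a) :=
  ((hn.un_min_length hl).drop_un hl).of_eq fun a => by
    rcases le_total (n a) (l a).length with h | h
    · rw [min_eq_left h]
    · rw [min_eq_right h, List.drop_length, List.drop_eq_nil_of_le h]

@[fun_prop] theorem getElem? {n : α → ℕ} {l : α → List β} (hl : PT l) (hn : PT n) :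
    PT fun a => (l a)[n a]? :=
  (hn.drop hl).head?.of_eq fun _ => List.head?_drop

@[fun_prop] theorem getD {n : α → ℕ} {l : α → List β} {d : α → β} (hl : PT l) (hn : PT n)
    (hd : PT d) : PT fun a => (l a).getD (n a) (d a) :=
  (hl.getElem? hn).option_getD hd

@[fun_prop] theorem getI [Inhabited β] {n : α → ℕ} {l : α → List β} (hl : PT l) (hn : PT n) :
    PT fun a => (l a).getI (n a) := hl.getD hn (const default)

@[fun_prop] theorem getElem! [Inhabited β] {n : α → ℕ} {l : α → List β} (hl : PT l)
    (hn : PT n) : PT fun a => (l a)[n a]! :=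
  (hl.getD hn (const default)).of_eq fun _ => by simp [List.getD_eq_getElem?_getD]

@[fun_prop] theorem getElem {n : α → ℕ} {l : α → List β} (hl : PT l) (hn : PT n)
    (h : ∀ a, n a < (l a).length) : PT fun a => (l a)[n a]'(h a) :=
  ((hl.getElem? hn).option_get fun a => by simp [h a]).of_eq fun a => by simp

@[fun_prop] theorem replicate {n : α → ℕ} {f : α → β} (hn : PT n) (hb : PB n) (hf : PT f) :
    PT fun a => List.replicate (n a) (f a) := (hn.un_mk hb).replicate_un hf

@[fun_prop] theorem range {n : α → ℕ} (hn : PT n) (hb : PB n) :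
    PT fun a => List.range (n a) := by
  have key : ∀ k i : ℕ, (fun c : ℕ × List ℕ => (c.1 + 1, c.2 ++ [c.1]))^[i] (0, []) =
      (i, List.range i) := by
    intro k i
    induction i with
    | zero => rfl
    | succ i ih => rw [Function.iterate_succ_apply', ih, List.range_succ]
  refine (iterate (f := fun _ (c : ℕ × List ℕ) => (c.1 + 1, c.2 ++ [c.1])) hn hb (const (0, []))
    (by fun_prop) (B := fun a => (n a + 1) * (4 * n a + 3) + 2) (by fun_prop)
    fun a k hk => ?_).snd.of_eq fun a => by rw [key 0]
  rw [key 0, sz_mk]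
  have h1 := sz_nat_le_self k
  have h2 := sz_list_le (l := List.range k) (B := 4 * n a + 1) fun i hi => by
    have := sz_nat_le_self i
    have := List.mem_range.1 hi
    omega
  rw [List.length_range] at h2
  nlinarith

@[fun_prop] theorem range' {s n : α → ℕ} (hs : PT s) (hn : PT n) (hb : PB n) :
    PT fun a => List.range' (s a) (n a) :=
  (map (f := fun a i => s a + i) (hn.range hb) (by fun_prop)).of_eq fun _ =>
    List.range'_eq_map_range.symm

@[fun_prop] theorem zipIdx {l : α → List β} {s : α → ℕ} (hl : PT l) (hs : PT s) :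
    PT fun a => (l a).zipIdx (s a) :=
  (hl.zip (hs.range' hl.length (PB.length hl))).of_eq fun _ => List.zipIdx_eq_zip_range'.symm

@[fun_prop] theorem mapIdx {l : α → List β} {f : α → ℕ → β → γ} (hl : PT l)
    (hf : PT fun p : α × ℕ × β => f p.1 p.2.1 p.2.2) : PT fun a => (l a).mapIdx (f a) :=
  (map (f := fun a (q : β × ℕ) => f a q.2 q.1) (hl.zipIdx (const 0))
    (hf.comp_eq (fun p => (p.1, p.2.2, p.2.1)) (by fun_prop))).of_eq fun _ =>
      List.mapIdx_eq_zipIdx_map.symm

@[fun_prop] theorem set {l : α → List β} {n : α → ℕ} {f : α → β} (hl : PT l) (hn : PT n)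
    (hf : PT f) : PT fun a => (l a).set (n a) (f a) :=
  PT.of_eq (g := fun a => if n a < (l a).length then
    (l a).take (n a) ++ f a :: (l a).drop (n a + 1) else l a) (by fun_prop)
    fun _ => List.set_eq_take_append_cons_drop.symm

@[fun_prop] theorem eraseIdx {l : α → List β} {n : α → ℕ} (hl : PT l) (hn : PT n) :
    PT fun a => (l a).eraseIdx (n a) :=
  PT.of_eq (g := fun a => (l a).take (n a) ++ (l a).drop (n a + 1)) (by fun_prop)
    fun _ => (List.eraseIdx_eq_take_drop_succ _ _).symm

@[fun_prop] theorem modify {l : α → List β} {n : α → ℕ} {f : α → β → β} (hl : PT l) (hn : PT n)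
    (hf : PT fun p : α × β => f p.1 p.2) : PT fun a => (l a).modify (n a) (f a) :=
  (mapIdx (f := fun a i b => if n a = i then f a b else b) hl
    (ite (by fun_prop) (hf.comp_eq (fun p => (p.1, p.2.2)) (by fun_prop)) (by fun_prop))).of_eq
    fun a => by
      apply List.ext_getElem?
      intro i
      simp only [List.getElem?_mapIdx, List.getElem?_modify]
      rfl

@[fun_prop] theorem countP {l : α → List β} {p : α → β → Bool} (hl : PT l)
    (hp : PT fun q : α × β => p q.1 q.2) : PT fun a => (l a).countP (p a) :=
  (hl.filter hp).length.of_eq fun _ => List.countP_eq_length_filter.symm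

@[fun_prop] theorem count [BEq β] [LawfulBEq β] {l : α → List β} {f : α → β} (hl : PT l)
    (hf : PT f) : PT fun a => (l a).count (f a) :=
  countP (p := fun a b => b == f a) hl (by fun_prop)

@[fun_prop] theorem findIdx {l : α → List β} {p : α → β → Bool} (hl : PT l)
    (hp : PT fun q : α × β => p q.1 q.2) : PT fun a => (l a).findIdx (p a) :=
  (takeWhile (f := fun a b => !p a b) hl hp.bnot).length.of_eq fun a => by
    induction l a with
    | nil => rfl
    | cons b m ih => cases h : p a b <;> simp [h, ih, List.findIdx_cons]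

@[fun_prop] theorem idxOf [BEq β] [LawfulBEq β] {l : α → List β} {f : α → β} (hl : PT l)
    (hf : PT f) : PT fun a => (l a).idxOf (f a) :=
  findIdx (p := fun a b => b == f a) hl (by fun_prop)

@[fun_prop] theorem erase [BEq β] [LawfulBEq β] {l : α → List β} {f : α → β} (hl : PT l)
    (hf : PT f) : PT fun a => (l a).erase (f a) :=
  (hl.eraseIdx (hl.idxOf hf)).of_eq fun _ => by rw [List.eraseIdx_idxOf_eq_erase]

@[fun_prop] theorem lookup [BEq β] [LawfulBEq β] {l : α → List (β × γ)} {f : α → β} (hl : PT l)
    (hf : PT f) : PT fun a => (l a).lookup (f a) :=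
  (findSome? (f := fun a (q : β × γ) => bif f a == q.1 then Option.some q.2 else none) hl
    (by fun_prop)).of_eq fun a => by
      induction l a with
      | nil => rfl
      | cons b m ih =>
        obtain ⟨b, c⟩ := b
        cases h : f a == b <;> simp [h, ih, List.lookup_cons]

@[fun_prop] theorem tails {l : α → List β} (hl : PT l) : PT fun a => (l a).tails :=
  (map (f := fun a i => (l a).drop i) (range (n := fun a => (l a).length + 1) (by fun_prop)
    (by fun_prop)) (by fun_prop)).of_eq fun a => by
      apply List.ext_getElem <;> simp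

@[fun_prop] theorem inits {l : α → List β} (hl : PT l) : PT fun a => (l a).inits :=
  (map (f := fun a i => (l a).take i) (range (n := fun a => (l a).length + 1) (by fun_prop)
    (by fun_prop)) (by fun_prop)).of_eq fun a => by
      apply List.ext_getElem <;> simp

@[fun_prop] theorem isPrefix {l l' : α → List β} (hl : PT l) (hl' : PT l') :
    PT fun a => l a <+: l' a :=
  (hl.eq (hl.length.take hl')).of_iff fun _ => List.prefix_iff_eq_take.symm

@[fun_prop] theorem isSuffix {l l' : α → List β} (hl : PT l) (hl' : PT l') :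
    PT fun a => l a <:+ l' a :=
  (hl.reverse.isPrefix hl'.reverse).of_iff fun _ => List.reverse_prefix

/-- Pairwise relations on a list. -/
@[fun_prop] theorem pairwise {l : α → List β} {r : α → β → β → Prop} (hl : PT l)
    (hr : PT fun p : α × β × β => r p.1 p.2.1 p.2.2) : PT fun a => (l a).Pairwise (r a) := by
  have h1 : PT fun p : α × List β => ∀ b ∈ p.2.take 1, ∀ c ∈ p.2.tail, r p.1 b c :=
    ball (by fun_prop) (ball (by fun_prop)
      (hr.comp_eq (fun p => (p.1.1.1, p.1.2, p.2)) (by fun_prop)))
  refine (ball (q := fun a t => ∀ b ∈ t.take 1, ∀ c ∈ t.tail, r a b c) hl.tails h1).of_iff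
    fun a => ?_
  induction l a with
  | nil => simp
  | cons b m ih => simp only [List.tails_cons, List.forall_mem_cons, ih]; simp

@[fun_prop] theorem nodup {l : α → List β} (hl : PT l) : PT fun a => (l a).Nodup :=
  pairwise (r := fun _ b c => b ≠ c) hl (by fun_prop)

@[fun_prop] theorem dedup [DecidableEq β] {l : α → List β} (hl : PT l) :
    PT fun a => (l a).dedup :=
  (foldr_grow (f := fun _ b c => if b ∈ c then c else b :: c) hl (const []) (by fun_prop)
    (G := fun p => sz p.2 + 1) (by fun_prop)
    fun a b c _ => by split_ifs <;> simp; omega).of_eq fun a => by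
      induction l a with
      | nil => rfl
      | cons b m ih => rw [List.foldr_cons, ih, List.dedup_cons']

@[fun_prop] theorem perm {l l' : α → List β} (hl : PT l) (hl' : PT l') :
    PT fun a => (l a).Perm (l' a) := by
  classical
  refine (ball (q := fun a b => (l a).count b = (l' a).count b) (hl.append hl')
    (by fun_prop)).of_iff fun a => ?_
  rw [List.perm_iff_count]
  refine ⟨fun h b => ?_, fun h b _ => h b⟩
  by_cases hb : b ∈ l a ++ l' a
  · exact h b hb
  · rw [List.mem_append, not_or] at hb
    rw [List.count_eq_zero_of_not_mem hb.1, List.count_eq_zero_of_not_mem hb.2]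

@[fun_prop] theorem orderedInsert {r : α → β → β → Prop} [∀ a, DecidableRel (r a)]
    {f : α → β} {l : α → List β} (hr : PT fun p : α × β × β => r p.1 p.2.1 p.2.2) (hf : PT f)
    (hl : PT l) : PT fun a => (l a).orderedInsert (r a) (f a) := by
  have h : PT fun p : α × β => Decidable.decide (¬ r p.1 (f p.1) p.2) :=
    (hr.comp_eq (fun p => (p.1, f p.1, p.2)) (by fun_prop)).not.decide'
  exact ((hl.takeWhile (f := fun a b => Decidable.decide (¬ r a (f a) b)) h).append (hf.cons
    (hl.dropWhile (f := fun a b => Decidable.decide (¬ r a (f a) b)) h))).of_eq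
    fun _ => (List.orderedInsert_eq_take_drop _ _ _).symm

theorem sz_perm {l l' : List β} (h : l.Perm l') : sz l = sz l' := by
  induction h with
  | nil => rfl
  | cons _ _ ih => simp [ih]
  | swap => simp; omega
  | trans _ _ ih1 ih2 => exact ih1.trans ih2

@[fun_prop] theorem insertionSort {r : α → β → β → Prop} [∀ a, DecidableRel (r a)]
    {l : α → List β} (hr : PT fun p : α × β × β => r p.1 p.2.1 p.2.2) (hl : PT l) :
    PT fun a => (l a).insertionSort (r a) :=
  foldr_grow (f := fun a b c => c.orderedInsert (r a) b) hl (const [])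
    (orderedInsert (r := fun p : α × β × List β => r p.1)
      (hr.comp_eq (fun p => (p.1.1, p.2)) (by fun_prop)) (by fun_prop) (by fun_prop))
    (G := fun p => sz p.2 + 1) (by fun_prop) fun a b c _ => by
      rw [sz_perm (List.perm_orderedInsert _ _ _)]; simp; omega

/-! ### Sums and products of natural numbers -/

theorem sum_lt_two_pow (l : List ℕ) : l.sum < 2 ^ sz l := by
  induction l with
  | nil => simp
  | cons b m ih =>
    have h1 := lt_two_pow_sz b
    have h2 : 2 ^ sz b ≤ 2 ^ (sz b + sz m) := Nat.pow_le_pow_right (by omega) (by omega)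
    have h3 : 2 ^ sz m ≤ 2 ^ (sz b + sz m) := Nat.pow_le_pow_right (by omega) (by omega)
    rw [List.sum_cons, sz_cons, pow_succ]; omega

theorem prod_lt_two_pow (l : List ℕ) : l.prod < 2 ^ sz l := by
  induction l with
  | nil => simp
  | cons b m ih =>
    have h1 := lt_two_pow_sz b
    have := Nat.mul_lt_mul'' h1 ih
    rw [List.prod_cons, sz_cons, pow_succ, pow_add]; omega

@[fun_prop] theorem nat_sum {l : α → List ℕ} (hl : PT l) : PT fun a => (l a).sum :=
  (foldr_of_suffix (f := fun _ b c => b + c) hl (const 0) (by fun_prop)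
    (B := fun a => 4 * sz (l a) + 1) (by fun_prop) fun a s hs => by
      have h1 := sz_nat_le_of_lt (sum_lt_two_pow s)
      have h2 := sz_sublist hs.sublist
      rw [← List.sum_eq_foldr]; omega).of_eq fun _ => List.sum_eq_foldr.symm

@[fun_prop] theorem nat_prod {l : α → List ℕ} (hl : PT l) : PT fun a => (l a).prod :=
  (foldr_of_suffix (f := fun _ b c => b * c) hl (const 1) (by fun_prop)
    (B := fun a => 4 * sz (l a) + 1) (by fun_prop) fun a s hs => by
      have h1 := sz_nat_le_of_lt (prod_lt_two_pow s)
      have h2 := sz_sublist hs.sublist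
      rw [← List.prod_eq_foldr]; omega).of_eq fun _ => List.prod_eq_foldr.symm

@[fun_prop] theorem factorial {n : α → ℕ} (hn : PT n) (hb : PB n) :
    PT fun a => (n a).factorial :=
  (map (f := fun _ i => i + 1) (hn.range hb) (by fun_prop)).nat_prod.of_eq fun a => by
    rw [← Finset.prod_range_add_one_eq_factorial]; rfl

@[fun_prop] theorem descFactorial {n k : α → ℕ} (hn : PT n) (hk : PT k) (hb : PB k) :
    PT fun a => (n a).descFactorial (k a) :=
  (map (f := fun a i => n a - i) (hk.range hb) (by fun_prop)).nat_prod.of_eq fun a => by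
    rw [Nat.descFactorial_eq_prod_range]; rfl

@[fun_prop] theorem choose {n k : α → ℕ} (hn : PT n) (hk : PT k) (hb : PB k) :
    PT fun a => (n a).choose (k a) :=
  ((hn.descFactorial hk hb).nat_div (hk.factorial hb)).of_eq fun _ =>
    (Nat.choose_eq_descFactorial_div_factorial _ _).symm

@[fun_prop] theorem testBit {n i : α → ℕ} (hn : PT n) (hi : PT i) :
    PT fun a => (n a).testBit (i a) :=
  (hn.bits.getI hi).of_eq fun _ => (Nat.testBit_eq_inth _ _).symm

@[fun_prop] theorem nat_shiftRight {n m : α → ℕ} (hn : PT n) (hm : PT m) :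
    PT fun a => n a >>> m a := by
  refine (hn.nat_div ((const 2).nat_pow (hm.nat_min hn.nat_size)
    (PB.min_right _ (PB.size hn)))).of_eq fun a => ?_
  rw [Nat.shiftRight_eq_div_pow]
  rcases le_total (m a) (n a).size with h | h
  · rw [min_eq_left h]
  · rw [min_eq_right h, Nat.div_eq_of_lt (Nat.lt_size_self _),
      Nat.div_eq_of_lt (Nat.size_le.1 h)]

/-- Bounded quantifier over numbers below a polynomially bounded number. -/
theorem ball_lt {n : α → ℕ} {q : α → ℕ → Prop} (hn : PT n) (hb : PB n)
    (hq : PT fun p : α × ℕ => q p.1 p.2) : PT fun a => ∀ i < n a, q a i :=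
  (ball (hn.range hb) hq).of_iff fun a => by simp

/-- Bounded quantifier over numbers below a polynomially bounded number. -/
theorem bex_lt {n : α → ℕ} {q : α → ℕ → Prop} (hn : PT n) (hb : PB n)
    (hq : PT fun p : α × ℕ => q p.1 p.2) : PT fun a => ∃ i < n a, q a i :=
  (bex (hn.range hb) hq).of_iff fun a => by simp

theorem ball_lt' {n : α → ℕ} {q : α → ℕ → Prop} (hn : PT n) (hb : PB n)
    (hq : PT fun p : {p : α × ℕ // p.2 < n p.1} => q p.1.1 p.1.2) :
    PT fun a => ∀ i < n a, q a i :=
  (ball_mem (hn.range hb) (hq.sub_mono fun _ h => List.mem_range.1 h)).of_iff fun a => by simp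

theorem bex_lt' {n : α → ℕ} {q : α → ℕ → Prop} (hn : PT n) (hb : PB n)
    (hq : PT fun p : {p : α × ℕ // p.2 < n p.1} => q p.1.1 p.1.2) :
    PT fun a => ∃ i < n a, q a i :=
  (bex_mem (hn.range hb) (hq.sub_mono fun _ h => List.mem_range.1 h)).of_iff fun a => by simp

/-- `map` over a range; the function need only be fast on indices in the range. -/
theorem map_range {n : α → ℕ} {f : α → ℕ → β} (hn : PT n) (hb : PB n)
    (hf : PT fun p : {p : α × ℕ // p.2 < n p.1} => f p.1.1 p.1.2) :
    PT fun a => (List.range (n a)).map (f a) :=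
  map_mem (hn.range hb) (hf.sub_mono fun _ h => List.mem_range.1 h)

/-- On pairs with an index in a polynomially bounded range, the index is polynomially bounded. -/
theorem _root_.Crest.Agent.Lib.PT.PB.idx {n : α → ℕ} (hb : PB n) :
    PB fun p : {p : α × ℕ // p.2 < n p.1} => p.1.2 :=
  (hb.comp (f := fun p : {p : α × ℕ // p.2 < n p.1} => p.1.1) (by fun_prop)).mono
    fun p => p.2.le

@[fun_prop] theorem nat_log {b n : α → ℕ} (hb : PT b) (hn : PT n) :
    PT fun a => Nat.log (b a) (n a) := by
  classical
  have h1 : PT fun a => (List.range (n a).size).countP fun i =>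
      Decidable.decide (b a ^ (min i (n a).size + 1) ≤ n a) := by
    refine countP (by fun_prop) (decide' (nat_le (nat_pow (by fun_prop) (by fun_prop) ?_)
      (by fun_prop)))
    exact (PB.min_right _ (by fun_prop)).add (PB.const 1)
  refine (ite (p := fun a => b a ≤ 1) (by fun_prop) (const 0) h1).of_eq fun a => ?_
  split_ifs with h
  · rw [Nat.log_of_left_le_one h]
  · rcases Nat.eq_zero_or_pos (n a) with h0 | h0
    · simp [h0]
    · have h2 : Nat.log (b a) (n a) < (n a).size :=
        (Nat.log_anti_left (c := 2) (by omega) (by omega)).trans_lt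
          (Nat.lt_size.2 (Nat.pow_log_le_self 2 h0.ne'))
      rw [List.countP_congr (q := fun i => Decidable.decide (i < Nat.log (b a) (n a)))]
      · rw [List.countP_eq_length_filter, ← List.toFinset_card_of_nodup
          (List.nodup_range.filter _)]
        rw [← Finset.card_range (Nat.log (b a) (n a))]
        congr 1; ext i; simp; omega
      · intro i hi
        rw [min_eq_left (List.mem_range.1 hi).le]
        simp only [decide_eq_true_eq]
        rw [Nat.succ_le_iff.symm, Nat.le_log_iff_pow_le (by omega) h0.ne']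

end PT

end Crest.Agent.Lib.PT
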