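import Crest.Agent.Lib.PT.Basic

/-!
# Polynomial time: list primitives, case distinctions, loops, equality, logic
-/

set_option linter.dupNamespace false

namespace Crest.Agent.Lib.PT

universe u v w x y

/-- A terminating run of `while cont do next` from `s` to `t` with at most `n` rounds, all states
of size at most `B`. -/
inductive Loop {σ : Type w} [Enc σ] (cont : σ → Prop) (next : σ → σ) (B : ℕ) : σ → σ → ℕ → Prop
  | stop {s n} : ¬ cont s → sz s ≤ B → Loop cont next B s s n
  | step {s t n} : cont s → sz s ≤ B → Loop cont next B (next s) t n →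
      Loop cont next B s t (n + 1)

theorem Loop.mono {σ : Type w} [Enc σ] {cont : σ → Prop} {next : σ → σ} {B : ℕ} {s t : σ}
    {n : ℕ} (h : Loop cont next B s t n) : ∀ {n' : ℕ}, n ≤ n' → Loop cont next B s t n' := by
  induction h with
  | stop h1 h2 => intro _ _; exact .stop h1 h2
  | step h1 h2 _ ih =>
    intro n' hn
    obtain ⟨k, rfl⟩ : ∃ k, n' = k + 1 := ⟨n' - 1, by omega⟩
    exact .step h1 h2 (ih (by omega))

theorem Loop.exists_iter {σ : Type w} [Enc σ] {cont : σ → Prop} {next : σ → σ} {B : ℕ}
    {s t : σ} {n : ℕ} (h : Loop cont next B s t n) :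
    ∃ N, N ≤ n ∧ (∀ i, i < N → cont (next^[i] s)) ∧ ¬ cont (next^[N] s) ∧
      (∀ i, i ≤ N → sz (next^[i] s) ≤ B) ∧ next^[N] s = t := by
  induction h with
  | stop h1 h2 =>
    refine ⟨0, Nat.zero_le _, fun i hi => absurd hi (by omega), h1, fun i hi => ?_, rfl⟩
    obtain rfl : i = 0 := by omega
    exact h2
  | step h1 h2 _ ih =>
    obtain ⟨N, a1, a2, a3, a4, a5⟩ := ih
    refine ⟨N + 1, by omega, fun i hi => ?_, a3, fun i hi => ?_, a5⟩
    · cases i with
      | zero => exact h1
      | succ i => exact a2 i (by omega)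
    · cases i with
      | zero => exact h2
      | succ i => exact a4 i (by omega)

/-- Every tree is the code of a list of trees. -/
def V.toList : V → List V
  | .nil => []
  | .node a b => a :: b.toList

theorem enc_toList (v : V) : enc v.toList = v := by
  induction v with
  | nil => rfl
  | node a b _ ih => rw [V.toList, enc_cons, ih]; rfl

namespace PT

variable {α : Type u} {β : Type v} {γ : Type w} {δ : Type x} [Enc α] [Enc β] [Enc γ] [Enc δ]

/-- Restrict the domain. -/
theorem restrict {f : α → β} (hf : PT f) (p : α → Prop) : PT (fun a : {a // p a} => f a.1) :=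
  hf.comp id.val

/-- Transport along a map of domains that keeps codes. -/
theorem reindex {f : α → β} (hf : PT f) (g : γ → α) (h : ∀ c, Enc.enc (g c) = Enc.enc c) :
    PT (fun c => f (g c)) := hf.comp (of_enc h)

/-- Composition, with the composite recognised up to definitional equality. -/
theorem comp_eq {F : β → γ} {H : α → γ} (hF : PT F) (g : α → β) (hg : PT g)
    (e : ∀ a, F (g a) = H a := by intros; rfl) : PT H := (hF.comp hg).of_eq e

/-- Composition with a map that is only fast on a part of its domain. -/
theorem comp_sub {p : β → Prop} {F : Subtype p → γ} {H : α → γ} (hF : PT F) (g : α → β)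
    (hg : PT g) (h : ∀ a, p (g a)) (e : ∀ a, F ⟨g a, h a⟩ = H a := by intros; rfl) : PT H :=
  (hF.comp (hg.subtype_mk h)).of_eq e

/-- Shrink the part of the domain. -/
theorem sub_mono {p q : α → Prop} {F : Subtype p → γ} {H : Subtype q → γ} (hF : PT F)
    (h : ∀ a, q a → p a) (e : ∀ a : Subtype q, F ⟨a.1, h _ a.2⟩ = H a := by intros; rfl) :
    PT H := hF.comp_sub (fun a => a.1) id.val (fun a => h _ a.2) e

/-- A map that is fast on a part that is everything. -/
theorem of_sub {p : α → Prop} {F : Subtype p → γ} {H : α → γ} (hF : PT F)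
    (h : ∀ a, p a) (e : ∀ a, F ⟨a, h a⟩ = H a := by intros; rfl) :
    PT H := hF.comp_sub (fun a => a) id h e

/-- A loop with invariant `I`, specified by the relation `Loop`. -/
theorem loop_inv {σ : Type w} [Enc σ] {cont : σ → Prop} {next : σ → σ} (I : σ → Prop)
    (hI : ∀ s, I s → cont s → I (next s))
    (hc : PT (fun s : {s // I s} => cont s.1))
    (hn : PT (fun s : {s // I s ∧ cont s} => next s.1))
    {s₀ out : α → σ} (hs : PT s₀) (h0 : ∀ a, I (s₀ a)) {N B : α → ℕ} (hN : PB N) (hB : PB B)
    (h : ∀ a, Loop cont next (B a) (s₀ a) (out a) (N a)) : PT out := by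
  choose M h1 h2 h3 h4 h5 using fun a => (h a).exists_iter
  exact (while_inv I hI hc hn hs h0 (hN.mono h1) hB h2 h3 h4).of_eq h5

/-- A loop specified by the relation `Loop`. -/
theorem loop {σ : Type w} [Enc σ] {cont : σ → Prop} {next : σ → σ}
    (hc : PT cont) (hn : PT (fun s : {s // cont s} => next s.1))
    {s₀ out : α → σ} (hs : PT s₀) {N B : α → ℕ} (hN : PB N) (hB : PB B)
    (h : ∀ a, Loop cont next (B a) (s₀ a) (out a) (N a)) : PT out :=
  loop_inv (fun _ => True) (fun _ _ _ => trivial) (hc.restrict _)
    (hn.reindex (fun s : {s // True ∧ cont s} => ⟨s.1, s.2.2⟩) fun _ => rfl) hs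
    (fun _ => trivial) hN hB h

/-! ### Logic -/

theorem is_nil {c : α → V} (hc : PT c) : PT (fun a => c a = V.nil) :=
  cases_nil hc ((const True).of_iff fun a => by simp [a.2]) ((const False).of_iff fun a => by
    simpa using a.2)

@[fun_prop] theorem not {p : α → Prop} (hp : PT p) : PT (fun a => ¬ p a) :=
  by_cases hp ((const False).of_iff fun a => by simp [a.2])
    ((const True).of_iff fun a => by simp [a.2])

@[fun_prop] theorem and {p q : α → Prop} (hp : PT p) (hq : PT q) : PT (fun a => p a ∧ q a) :=
  by_cases hp ((hq.restrict _).of_iff fun a => by simp [a.2])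
    ((const False).of_iff fun a => by simp [a.2])

@[fun_prop] theorem or {p q : α → Prop} (hp : PT p) (hq : PT q) : PT (fun a => p a ∨ q a) :=
  by_cases hp ((const True).of_iff fun a => by simp [a.2])
    ((hq.restrict _).of_iff fun a => by simp [a.2])

theorem imp {p q : α → Prop} (hp : PT p) (hq : PT q) : PT (fun a => p a → q a) :=
  (hp.not.or hq).of_iff fun _ => imp_iff_not_or.symm

@[fun_prop] theorem iff {p q : α → Prop} (hp : PT p) (hq : PT q) : PT (fun a => p a ↔ q a) :=
  ((hp.imp hq).and (hq.imp hp)).of_iff fun _ => iff_iff_implies_and_implies.symm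

/-- Conjunction where the second test need only be fast when the first holds. -/
theorem and' {p q : α → Prop} (hp : PT p) (hq : PT (fun a : {a // p a} => q a.1)) :
    PT (fun a => p a ∧ q a) :=
  by_cases hp (hq.of_iff fun a => by simp [a.2]) ((const False).of_iff fun a => by simp [a.2])

@[fun_prop] theorem bnot {f : α → Bool} (hf : PT f) : PT (fun a => !(f a)) :=
  (cond hf (const false) (const true)).of_eq fun a => by cases f a <;> rfl

@[fun_prop] theorem band {f g : α → Bool} (hf : PT f) (hg : PT g) : PT (fun a => f a && g a) :=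
  (cond hf hg (const false)).of_eq fun a => by cases f a <;> rfl

@[fun_prop] theorem bor {f g : α → Bool} (hf : PT f) (hg : PT g) : PT (fun a => f a || g a) :=
  (cond hf (const true) hg).of_eq fun a => by cases f a <;> rfl

@[fun_prop] theorem bxor {f g : α → Bool} (hf : PT f) (hg : PT g) :
    PT (fun a => xor (f a) (g a)) :=
  (cond hf hg.bnot hg).of_eq fun a => by cases f a <;> simp

/-! ### List primitives -/

@[fun_prop] theorem cons {f : α → β} {l : α → List β} (hf : PT f) (hl : PT l) :
    PT (fun a => f a :: l a) := (hf.pair hl).of_enc_eq fun _ => rfl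

@[fun_prop] theorem tail {l : α → List β} (hl : PT l) : PT (fun a => (l a).tail) :=
  hl.enc.right.of_enc_eq fun a => by cases l a <;> rfl

@[fun_prop] theorem head {l : α → List β} (hl : PT l) (h : ∀ a, l a ≠ []) :
    PT (fun a => (l a).head (h a)) :=
  hl.enc.left.of_enc_eq fun a => by
    have key : ∀ (m : List β) (h' : m ≠ []), Enc.enc (m.head h') = (Enc.enc m).left := by
      intro m h'
      cases m with
      | nil => exact absurd rfl h'
      | cons b t => rfl
    exact key _ _

theorem eq_nil {l : α → List β} (hl : PT l) : PT (fun a => l a = []) :=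
  hl.enc.is_nil.of_iff fun a => by rw [← enc_nil (α := β), enc_inj]

@[fun_prop] theorem isEmpty {l : α → List β} (hl : PT l) : PT (fun a => (l a).isEmpty) :=
  by_cases hl.eq_nil ((const true).of_eq fun a => by simp [a.2])
    ((const false).of_eq fun a => by simpa using a.2)

@[fun_prop] theorem toListV {f : α → V} (hf : PT f) : PT (fun a => (f a).toList) :=
  hf.of_enc_eq fun a => enc_toList (f a)

/-- Case distinction on a list, with branches only fast on their own part of the domain. -/
theorem list_cases' {l : α → List β} {F : α → γ} (hl : PT l)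
    (h₁ : PT (fun a : {a // l a = []} => F a.1))
    (h₂ : PT (fun p : {p : α × β × List β // l p.1 = p.2.1 :: p.2.2} => F p.1.1)) : PT F := by
  refine by_cases hl.eq_nil h₁ ?_
  have hl' := hl.restrict fun a => ¬ l a = []
  exact h₂.comp (f := fun a : {a // ¬ l a = []} =>
    ⟨(a.1, (l a.1).head a.2, (l a.1).tail), by simp⟩)
    (subtype_mk (id.val.pair ((hl'.head fun a => a.2).pair hl'.tail)) _)

/-- Case distinction on a list. -/
theorem list_cases {l : α → List β} {F f : α → γ} {g : α → β → List β → γ} (hl : PT l)
    (h₁ : PT f) (h₂ : PT (fun p : α × β × List β => g p.1 p.2.1 p.2.2))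
    (e₁ : ∀ a, l a = [] → F a = f a) (e₂ : ∀ a b t, l a = b :: t → F a = g a b t) : PT F :=
  list_cases' hl ((h₁.restrict _).of_eq fun a => (e₁ _ a.2).symm)
    ((h₂.restrict _).of_eq fun p => (e₂ _ _ _ p.2).symm)

@[fun_prop] theorem list_casesOn {l : α → List β} {f : α → γ} {g : α → β → List β → γ}
    (hl : PT l) (h₁ : PT f) (h₂ : PT (fun p : α × β × List β => g p.1 p.2.1 p.2.2)) :
    PT (fun a => List.casesOn (motive := fun _ => γ) (l a) (f a) (g a)) :=
  list_cases hl h₁ h₂ (fun a h => by rw [h]) (fun a b t h => by rw [h])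

@[fun_prop] theorem headD {l : α → List β} {d : α → β} (hl : PT l) (hd : PT d) :
    PT (fun a => (l a).headD (d a)) :=
  list_cases (g := fun _ b _ => b) hl hd id.snd.fst (fun a h => by rw [h]; rfl)
    (fun a b t h => by rw [h]; rfl)

@[fun_prop] theorem headI [Inhabited β] {l : α → List β} (hl : PT l) :
    PT (fun a => (l a).headI) :=
  (hl.headD (const default)).of_eq fun a => by cases l a <;> rfl

/-! ### Options and sums -/

@[fun_prop] theorem some {f : α → β} (hf : PT f) : PT (fun a => Option.some (f a)) :=
  (hf.cons (const [])).of_enc_eq fun _ => rfl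

@[fun_prop] theorem option_toList {o : α → Option β} (ho : PT o) : PT (fun a => (o a).toList) :=
  ho.of_enc_eq fun _ => rfl

@[fun_prop] theorem head? {l : α → List β} (hl : PT l) : PT (fun a => (l a).head?) :=
  list_cases (g := fun _ b _ => Option.some b) hl (const none) id.snd.fst.some
    (fun a h => by rw [h]; rfl) (fun a b t h => by rw [h]; rfl)

/-- Case distinction on an option, with branches only fast on their own part of the domain. -/
theorem option_cases' {o : α → Option β} {F : α → γ} (ho : PT o)
    (h₁ : PT (fun a : {a // o a = none} => F a.1))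
    (h₂ : PT (fun p : {p : α × β // o p.1 = Option.some p.2} => F p.1.1)) : PT F := by
  refine list_cases' ho.option_toList
    (h₁.reindex (fun a : {a // (o a).toList = []} => ⟨a.1, by simpa using a.2⟩) fun _ => rfl) ?_
  have key : ∀ p : {p : α × β × List β // (o p.1).toList = p.2.1 :: p.2.2},
      o p.1.1 = Option.some p.1.2.1 := by
    intro p
    have := p.2
    cases h : o p.1.1 <;> simp_all
  exact h₂.comp (f := fun p : {p : α × β × List β // (o p.1).toList = p.2.1 :: p.2.2} =>
    ⟨(p.1.1, p.1.2.1), key p⟩) (subtype_mk (id.val.fst.pair id.val.snd.fst) _)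

/-- Case distinction on an option. -/
theorem option_cases {o : α → Option β} {F f : α → γ} {g : α → β → γ} (ho : PT o)
    (h₁ : PT f) (h₂ : PT (fun p : α × β => g p.1 p.2))
    (e₁ : ∀ a, o a = none → F a = f a) (e₂ : ∀ a b, o a = Option.some b → F a = g a b) : PT F :=
  option_cases' ho ((h₁.restrict _).of_eq fun a => (e₁ _ a.2).symm)
    ((h₂.restrict _).of_eq fun p => (e₂ _ _ p.2).symm)

@[fun_prop] theorem option_casesOn {o : α → Option β} {f : α → γ} {g : α → β → γ}
    (ho : PT o) (h₁ : PT f) (h₂ : PT (fun p : α × β => g p.1 p.2)) :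
    PT (fun a => Option.casesOn (motive := fun _ => γ) (o a) (f a) (g a)) :=
  option_cases ho h₁ h₂ (fun a h => by rw [h]) (fun a b h => by rw [h])

@[fun_prop] theorem option_elim {o : α → Option β} {f : α → γ} {g : α → β → γ}
    (ho : PT o) (h₁ : PT f) (h₂ : PT (fun p : α × β => g p.1 p.2)) :
    PT (fun a => (o a).elim (f a) (g a)) :=
  option_cases ho h₁ h₂ (fun a h => by rw [h]; rfl) (fun a b h => by rw [h]; rfl)

@[fun_prop] theorem option_getD {o : α → Option β} {d : α → β} (ho : PT o) (hd : PT d) :
    PT (fun a => (o a).getD (d a)) :=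
  option_cases (g := fun _ b => b) ho hd id.snd (fun a h => by rw [h]; rfl)
    (fun a b h => by rw [h]; rfl)

@[fun_prop] theorem option_map {o : α → Option β} {g : α → β → γ}
    (ho : PT o) (hg : PT (fun p : α × β => g p.1 p.2)) : PT (fun a => (o a).map (g a)) :=
  option_cases (g := fun a b => Option.some (g a b)) ho (const none) hg.some
    (fun a h => by rw [h]; rfl) (fun a b h => by rw [h]; rfl)

@[fun_prop] theorem option_bind {o : α → Option β} {g : α → β → Option γ}
    (ho : PT o) (hg : PT (fun p : α × β => g p.1 p.2)) : PT (fun a => (o a).bind (g a)) :=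
  option_cases ho (const none) hg (fun a h => by rw [h]; rfl) (fun a b h => by rw [h]; rfl)

@[fun_prop] theorem isSome {o : α → Option β} (ho : PT o) : PT (fun a => (o a).isSome) :=
  option_cases (g := fun _ _ => true) ho (const false) (const true)
    (fun a h => by rw [h]; rfl) (fun a b h => by rw [h]; rfl)

@[fun_prop] theorem isNone {o : α → Option β} (ho : PT o) : PT (fun a => (o a).isNone) :=
  option_cases (g := fun _ _ => false) ho (const true) (const false)
    (fun a h => by rw [h]; rfl) (fun a b h => by rw [h]; rfl)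

@[fun_prop] theorem option_get {o : α → Option β} (ho : PT o) (h : ∀ a, (o a).isSome) :
    PT (fun a => (o a).get (h a)) :=
  ho.enc.left.of_enc_eq fun a => by
    have key : ∀ (m : Option β) (h' : m.isSome), Enc.enc (m.get h') = (Enc.enc m).left := by
      intro m h'
      cases m with
      | none => cases h'
      | some b => rfl
    exact key _ _

@[fun_prop] theorem inl {f : α → β} (hf : PT f) : PT (fun a => (Sum.inl (f a) : β ⊕ γ)) :=
  ((const false).pair hf).of_enc_eq fun _ => rfl

@[fun_prop] theorem inr {f : α → γ} (hf : PT f) : PT (fun a => (Sum.inr (f a) : β ⊕ γ)) :=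
  ((const true).pair hf).of_enc_eq fun _ => rfl

@[fun_prop] theorem isLeft {s : α → β ⊕ γ} (hs : PT s) : PT (fun a => (s a).isLeft) :=
  hs.enc.left.is_nil.decide.of_eq fun a => by cases s a <;> rfl

@[fun_prop] theorem isRight {s : α → β ⊕ γ} (hs : PT s) : PT (fun a => (s a).isRight) :=
  hs.isLeft.bnot.of_eq fun a => by cases s a <;> rfl

@[fun_prop] theorem getLeft? {s : α → β ⊕ γ} (hs : PT s) : PT (fun a => (s a).getLeft?) :=
  (cond hs.isLeft hs.enc.right.some (const none)).of_enc_eq fun a => by cases s a <;> rfl

@[fun_prop] theorem getRight? {s : α → β ⊕ γ} (hs : PT s) : PT (fun a => (s a).getRight?) :=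
  (cond hs.isLeft (const none) hs.enc.right.some).of_enc_eq fun a => by cases s a <;> rfl

/-- Case distinction on a sum. -/
theorem sum_cases {s : α → β ⊕ γ} {F : α → δ} {f : α → β → δ} {g : α → γ → δ} (hs : PT s)
    (h₁ : PT (fun p : α × β => f p.1 p.2)) (h₂ : PT (fun p : α × γ => g p.1 p.2))
    (e₁ : ∀ a b, s a = Sum.inl b → F a = f a b) (e₂ : ∀ a c, s a = Sum.inr c → F a = g a c) :
    PT F := by
  refine option_cases' hs.getLeft? ?_ ((h₁.restrict _).of_eq fun p => (e₁ _ _ ?_).symm)
  · refine option_cases' (hs.getRight?.restrict _) ?_ ?_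
    · refine id.of_enc_eq fun a => ?_
      have h1 := a.1.2
      have h2 := a.2
      exfalso
      cases h : s a.1.1 <;> simp_all
    · refine (h₂.comp (f := fun p : {p : {a // (s a).getLeft? = none} × γ //
        (s p.1.1).getRight? = Option.some p.2} => (p.1.1.1, p.1.2))
        (id.val.fst.val.pair id.val.snd)).of_eq fun p => (e₂ _ _ ?_).symm
      simpa using p.2
  · simpa using p.2

@[fun_prop] theorem sum_elim {s : α → β ⊕ γ} {f : α → β → δ} {g : α → γ → δ} (hs : PT s)
    (h₁ : PT (fun p : α × β => f p.1 p.2)) (h₂ : PT (fun p : α × γ => g p.1 p.2)) :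
    PT (fun a => Sum.elim (f a) (g a) (s a)) :=
  sum_cases hs h₁ h₂ (fun a b h => by rw [h]; rfl) (fun a b h => by rw [h]; rfl)

@[fun_prop] theorem sum_casesOn {s : α → β ⊕ γ} {f : α → β → δ} {g : α → γ → δ} (hs : PT s)
    (h₁ : PT (fun p : α × β => f p.1 p.2)) (h₂ : PT (fun p : α × γ => g p.1 p.2)) :
    PT (fun a => Sum.casesOn (motive := fun _ => δ) (s a) (f a) (g a)) :=
  sum_cases hs h₁ h₂ (fun a b h => by rw [h]) (fun a b h => by rw [h])

@[fun_prop] theorem swap {f : α → β × γ} (hf : PT f) : PT (fun a => (f a).swap) :=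
  hf.snd.pair hf.fst

/-! ### Equality -/

/-- One round of the equality test. -/
def eqStep (s : List (V × V) × Bool) : List (V × V) × Bool :=
  if (s.1.headD (.nil, .nil)).1 = .nil then
    (if (s.1.headD (.nil, .nil)).2 = .nil then (s.1.tail, s.2) else ([], false))
  else if (s.1.headD (.nil, .nil)).2 = .nil then ([], false)
  else (((s.1.headD (.nil, .nil)).1.left, (s.1.headD (.nil, .nil)).2.left) ::
    ((s.1.headD (.nil, .nil)).1.right, (s.1.headD (.nil, .nil)).2.right) :: s.1.tail, s.2)

theorem eqStep_pt : PT eqStep := by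
  have h : PT (fun s : List (V × V) × Bool => s.1.headD (.nil, .nil)) := by fun_prop
  unfold eqStep
  refine ite h.fst.is_nil (ite h.snd.is_nil ?_ ?_) (ite h.snd.is_nil ?_ ?_) <;> fun_prop

theorem eqStep_loop (B : ℕ) (x : V) : ∀ (y : V) (l : List (V × V)) (r : Bool) (n : ℕ),
    2 * (x.size + y.size) + sz l + 5 ≤ B →
    Loop (fun s => ¬ s.1 = []) eqStep B (l, true) ([], r) n →
    Loop (fun s => ¬ s.1 = []) eqStep B ((x, y) :: l, true)
      ([], Decidable.decide (x = y) && r) (n + x.size) := by
  have hb : sz true = 3 := rfl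
  have hb' : sz false = 1 := rfl
  induction x with
  | nil =>
    intro y l r n hB h
    have := y.size_pos
    refine Loop.step (by simp) (by simp at hB ⊢; omega) ?_
    cases y with
    | nil => simpa [eqStep] using h
    | node y₁ y₂ =>
      simp only [eqStep, List.headD_cons, if_true, reduceCtorEq, if_false, decide_false,
        Bool.false_and]
      exact Loop.stop (by simp) (by simp; omega)
  | node x₁ x₂ ih₁ ih₂ =>
    intro y l r n hB h
    have := y.size_pos
    refine Loop.step (by simp) (by simp at hB ⊢; omega) ?_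
    cases y with
    | nil =>
      simp only [eqStep, List.headD_cons, if_true, reduceCtorEq, if_false, decide_false,
        Bool.false_and]
      exact Loop.stop (by simp) (by simp; omega)
    | node y₁ y₂ =>
      simp only [eqStep, List.headD_cons, reduceCtorEq, if_false, V.left_node, V.right_node,
        List.tail_cons]
      simp only [V.size_node] at hB
      have p1 := x₂.size_pos
      have p2 := y₂.size_pos
      have h2 := ih₂ y₂ l r n (by omega) h
      have h1 := ih₁ y₁ ((x₂, y₂) :: l) _ _ (by simp; omega) h2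
      rw [← Bool.and_assoc, ← Bool.decide_and] at h1
      simp only [V.node.injEq]
      exact h1.mono (by show _ ≤ n + (x₁.size + x₂.size); omega)

theorem eqV {f g : α → V} (hf : PT f) (hg : PT g) : PT (fun a => f a = g a) := by
  have h := loop (σ := List (V × V) × Bool) (cont := fun s => ¬ s.1 = []) (next := eqStep)
    id.fst.eq_nil.not (eqStep_pt.restrict _) (s₀ := fun a => ([(f a, g a)], true))
    (out := fun a => ([], Decidable.decide (f a = g a) && true)) (by fun_prop)
    (N := fun a => 0 + sz (f a)) (B := fun a => 2 * (sz (f a) + sz (g a)) + 6)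
    (by fun_prop) (by fun_prop) fun a =>
      eqStep_loop _ _ _ _ _ _ (by simp) (Loop.stop (by simp) (by
        have hb : sz true = 3 := rfl
        simp; omega))
  exact h.snd.eq_true.of_iff fun a => by simp

@[fun_prop] theorem eq {f g : α → β} (hf : PT f) (hg : PT g) : PT (fun a => f a = g a) :=
  (eqV hf.enc hg.enc).of_iff fun _ => enc_inj

@[fun_prop] theorem ne {f g : α → β} (hf : PT f) (hg : PT g) : PT (fun a => f a ≠ g a) :=
  (hf.eq hg).not

@[fun_prop] theorem beq [BEq β] [LawfulBEq β] {f g : α → β} (hf : PT f) (hg : PT g) :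
    PT (fun a => f a == g a) := by
  classical
  exact (hf.eq hg).decide.of_eq fun a => by
    by_cases h : f a = g a <;> simp [h]

@[fun_prop] theorem bne [BEq β] [LawfulBEq β] {f g : α → β} (hf : PT f) (hg : PT g) :
    PT (fun a => f a != g a) := (hf.beq hg).bnot

/-- Any map out of a finite type is polynomial time. -/
theorem of_finite [Finite α] (f : α → β) : PT f := by
  classical
  have key : ∀ l : List α, PT (fun a : {a // a ∈ l} => f a.1) := by
    intro l
    induction l with
    | nil => exact id.of_enc_eq fun a => absurd a.2 (by simp)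
    | cons b l ih =>
      refine by_cases (p := fun a => a.1 = b) (id.val.eq (const b))
        ((const (f b)).of_eq fun a => by rw [a.2]) ?_
      exact ih.reindex (fun a : {a : {a // a ∈ b :: l} // ¬ a.1 = b} =>
        ⟨a.1.1, by have := a.1.2; have := a.2; simp_all⟩) fun _ => rfl
  have := Fintype.ofFinite α
  exact (key (Finset.univ : Finset α).toList).reindex (fun a => ⟨a, by simp⟩) fun _ => rfl

end PT

end Crest.Agent.Lib.PT
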