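import Mathlib
import Crest.Prelude.Def_Complexity

/-!
# A tiny structured language on four bit stacks, compiled to `Turing.TM2`

`Prog` is a structured language over four stacks of bits; `Exec p s s' n` says that `p` started in
`s` ends in `s'` within `n` steps.  `reach_of_exec` simulates it on a `TM2` machine.
-/

namespace Crest.Agent.Lib.PT

open Turing

/-- The four bit stacks. -/
inductive R : Type
  | m | a | b | c
  deriving DecidableEq

instance : Fintype R := ⟨{R.m, R.a, R.b, R.c}, by intro x; cases x <;> simp⟩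

/-- Contents of the four stacks. -/
structure St : Type where
  m : List Bool
  a : List Bool
  b : List Bool
  c : List Bool

/-- Read a stack. -/
def St.get (s : St) : R → List Bool
  | .m => s.m
  | .a => s.a
  | .b => s.b
  | .c => s.c

/-- Overwrite a stack. -/
def St.set (s : St) : R → List Bool → St
  | .m, l => ⟨l, s.a, s.b, s.c⟩
  | .a, l => ⟨s.m, l, s.b, s.c⟩
  | .b, l => ⟨s.m, s.a, l, s.c⟩
  | .c, l => ⟨s.m, s.a, s.b, l⟩

@[simp] theorem St.get_m (s : St) : s.get .m = s.m := rfl
@[simp] theorem St.get_a (s : St) : s.get .a = s.a := rfl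
@[simp] theorem St.get_b (s : St) : s.get .b = s.b := rfl
@[simp] theorem St.get_c (s : St) : s.get .c = s.c := rfl
@[simp] theorem St.set_m (s : St) (l : List Bool) : s.set .m l = ⟨l, s.a, s.b, s.c⟩ := rfl
@[simp] theorem St.set_a (s : St) (l : List Bool) : s.set .a l = ⟨s.m, l, s.b, s.c⟩ := rfl
@[simp] theorem St.set_b (s : St) (l : List Bool) : s.set .b l = ⟨s.m, s.a, l, s.c⟩ := rfl
@[simp] theorem St.set_c (s : St) (l : List Bool) : s.set .c l = ⟨s.m, s.a, s.b, l⟩ := rfl

/-- Total number of bits stored. -/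
def St.tot (s : St) : ℕ := s.m.length + s.a.length + s.b.length + s.c.length

theorem St.tot_set (s : St) (r : R) (l : List Bool) :
    (s.set r l).tot + (s.get r).length = s.tot + l.length := by
  cases r <;> simp [St.tot] <;> omega

/-- Structured programs. -/
inductive Prog : Type
  | skip
  | push (r : R) (x : Bool)
  | seq (p q : Prog)
  | case (r : R) (pe pf pt : Prog)
  | loop (r : R) (pf pt : Prog)
  | wh (r : R) (p : Prog)

/-- Big-step semantics with an upper bound on the number of steps. -/
inductive Exec : Prog → St → St → ℕ → Prop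
  | mono {p s s' n n'} : Exec p s s' n → n ≤ n' → Exec p s s' n'
  | skip (s) : Exec .skip s s 1
  | push (r x s) : Exec (.push r x) s (s.set r (x :: s.get r)) 1
  | seq {p q s s' s'' n k} : Exec p s s' n → Exec q s' s'' k → Exec (.seq p q) s s'' (n + k)
  | caseE {r pe pf pt s s' n} : s.get r = [] → Exec pe s s' n →
      Exec (.case r pe pf pt) s s' (n + 1)
  | caseF {r pe pf pt s s' n l} : s.get r = false :: l → Exec pf (s.set r l) s' n →
      Exec (.case r pe pf pt) s s' (n + 1)
  | caseT {r pe pf pt s s' n l} : s.get r = true :: l → Exec pt (s.set r l) s' n →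
      Exec (.case r pe pf pt) s s' (n + 1)
  | loopE {r pf pt s} : s.get r = [] → Exec (.loop r pf pt) s s 1
  | loopF {r pf pt s s' s'' n k l} : s.get r = false :: l → Exec pf (s.set r l) s' n →
      Exec (.loop r pf pt) s' s'' k → Exec (.loop r pf pt) s s'' (n + k + 1)
  | loopT {r pf pt s s' s'' n k l} : s.get r = true :: l → Exec pt (s.set r l) s' n →
      Exec (.loop r pf pt) s' s'' k → Exec (.loop r pf pt) s s'' (n + k + 1)
  | whF {r p s l} : s.get r = false :: l → Exec (.wh r p) s (s.set r l) 1
  | whT {r p s s' s'' n k l} : s.get r = true :: l → Exec p (s.set r l) s' n →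
      Exec (.wh r p) s' s'' k → Exec (.wh r p) s s'' (n + k + 1)

theorem Exec.tot_le {p s s' n} (h : Exec p s s' n) : s'.tot ≤ s.tot + n := by
  induction h with
  | mono _ hn ih => omega
  | skip s => omega
  | push r x s => have := s.tot_set r (x :: s.get r); simp at this; omega
  | seq _ _ ih1 ih2 => omega
  | caseE _ _ ih => omega
  | @caseF r _ _ _ s _ _ l h _ ih => have := s.tot_set r l; rw [h] at this; simp at this; omega
  | @caseT r _ _ _ s _ _ l h _ ih => have := s.tot_set r l; rw [h] at this; simp at this; omega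
  | loopE _ => omega
  | @loopF r _ _ s _ _ _ _ l h _ _ ih1 ih2 =>
    have := s.tot_set r l; rw [h] at this; simp at this; omega
  | @loopT r _ _ s _ _ _ _ l h _ _ ih1 ih2 =>
    have := s.tot_set r l; rw [h] at this; simp at this; omega
  | @whF r _ s l h => have := s.tot_set r l; rw [h] at this; simp at this; omega
  | @whT r _ s _ _ _ _ l h _ _ ih1 ih2 =>
    have := s.tot_set r l; rw [h] at this; simp at this; omega

/-- Program points. -/
def Lbl : Prog → Type
  | .skip => Unit
  | .push _ _ => Unit
  | .seq p q => Lbl p ⊕ Lbl q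
  | .case _ p q w => Unit ⊕ (Lbl p ⊕ (Lbl q ⊕ Lbl w))
  | .loop _ p q => Unit ⊕ (Lbl p ⊕ Lbl q)
  | .wh _ p => Unit ⊕ Lbl p

/-- Finitely many program points. -/
@[reducible] def lblFintype : (p : Prog) → Fintype (Lbl p)
  | .skip => inferInstanceAs (Fintype Unit)
  | .push _ _ => inferInstanceAs (Fintype Unit)
  | .seq p q => @instFintypeSum _ _ (lblFintype p) (lblFintype q)
  | .case _ p q w => @instFintypeSum Unit _ _
      (@instFintypeSum _ _ (lblFintype p) (@instFintypeSum _ _ (lblFintype q) (lblFintype w)))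
  | .loop _ p q => @instFintypeSum Unit _ _ (@instFintypeSum _ _ (lblFintype p) (lblFintype q))
  | .wh _ p => @instFintypeSum Unit _ _ (lblFintype p)

/-- Entry point. -/
def entry : (p : Prog) → Lbl p
  | .skip => ()
  | .push _ _ => ()
  | .seq p _ => Sum.inl (entry p)
  | .case _ _ _ _ => Sum.inl ()
  | .loop _ _ _ => Sum.inl ()
  | .wh _ _ => Sum.inl ()

section compile

variable {G : Type} {Λ : Type}

/-- Stack alphabets: the input stack has alphabet `G`, the others bits. -/
@[reducible] def Gam (G : Type) : Option R → Type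
  | none => G
  | some _ => Bool

/-- Internal state. -/
abbrev Sig (G : Type) : Type := Option Bool × Option G

/-- Statements of the target machine. -/
abbrev TStmt (G Λ : Type) := TM2.Stmt (Gam G) Λ (Sig G)

/-- Configurations of the target machine. -/
abbrev TCfg (G Λ : Type) := TM2.Cfg (Gam G) Λ (Sig G)

/-- The stacks of the target machine. -/
def toStk (i : List G) (s : St) : ∀ k, List (Gam G k)
  | none => i
  | some r => s.get r

theorem update_toStk (i : List G) (s : St) (r : R) (l : List Bool) :
    Function.update (toStk i s) (some r) l = toStk i (s.set r l) := by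
  funext k
  rcases k with _ | r'
  · rw [Function.update_of_ne (by simp)]; rfl
  · by_cases h : r' = r
    · subst h; rw [Function.update_self]; cases r' <;> rfl
    · rw [Function.update_of_ne (by simpa using h)]
      cases r <;> cases r' <;> first | rfl | exact absurd rfl h

theorem update_toStk_none (i i' : List G) (s : St) :
    Function.update (toStk i s) none i' = toStk i' s := by
  funext k
  rcases k with _ | r'
  · rw [Function.update_self]; rfl
  · rw [Function.update_of_ne (by simp)]; rfl

/-- Jump or halt. -/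
def jmp : Option Λ → TStmt G Λ
  | none => .halt
  | some l => .goto fun _ => l

theorem stepAux_jmp (o : Option Λ) (v : Sig G) (S : ∀ k, List (Gam G k)) :
    TM2.stepAux (jmp o : TStmt G Λ) v S = ⟨o, v, S⟩ := by
  cases o <;> rfl

/-- Pop a bit stack and jump according to the result. -/
def pop3 (r : R) (o₁ o₂ o₃ : Option Λ) : TStmt G Λ :=
  .pop (some r) (fun _ o => ((o : Option Bool), none))
    (.branch (fun v => v.1.isNone) (.load (fun _ => (none, none)) (jmp o₁))
      (.branch (fun v => v.1 == some false) (.load (fun _ => (none, none)) (jmp o₂))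
        (.load (fun _ => (none, none)) (jmp o₃))))

theorem pop3_nil (r : R) (o₁ o₂ o₃ : Option Λ) (v : Sig G) (i : List G) (s : St)
    (h : s.get r = []) :
    TM2.stepAux (pop3 r o₁ o₂ o₃ : TStmt G Λ) v (toStk i s) = ⟨o₁, (none, none), toStk i s⟩ := by
  have h1 : toStk i s (some r) = ([] : List Bool) := h
  have h2 : Function.update (toStk i s) (some r) ([] : List Bool) = toStk i s := by
    rw [← h1]; exact Function.update_eq_self _ _
  simp only [pop3, TM2.stepAux, h1]
  erw [List.head?_nil, List.tail_nil, h2]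
  simp only [stepAux_jmp]
  rfl

theorem pop3_false (r : R) (o₁ o₂ o₃ : Option Λ) (v : Sig G) (i : List G) (s : St)
    (l : List Bool) (h : s.get r = false :: l) :
    TM2.stepAux (pop3 r o₁ o₂ o₃ : TStmt G Λ) v (toStk i s) =
      ⟨o₂, (none, none), toStk i (s.set r l)⟩ := by
  have h1 : toStk i s (some r) = (false :: l : List Bool) := h
  simp only [pop3, TM2.stepAux, h1]
  erw [List.head?_cons, List.tail_cons, update_toStk]
  simp only [stepAux_jmp]
  rfl

theorem pop3_true (r : R) (o₁ o₂ o₃ : Option Λ) (v : Sig G) (i : List G) (s : St)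
    (l : List Bool) (h : s.get r = true :: l) :
    TM2.stepAux (pop3 r o₁ o₂ o₃ : TStmt G Λ) v (toStk i s) =
      ⟨o₃, (none, none), toStk i (s.set r l)⟩ := by
  have h1 : toStk i s (some r) = (true :: l : List Bool) := h
  simp only [pop3, TM2.stepAux, h1]
  erw [List.head?_cons, List.tail_cons, update_toStk]
  simp only [stepAux_jmp]
  rfl

/-- Push a bit. -/
def pushS (r : R) (x : Bool) (q : TStmt G Λ) : TStmt G Λ :=
  .push (some r) (fun _ => x) q

theorem stepAux_pushS (r : R) (x : Bool) (q : TStmt G Λ) (v : Sig G) (i : List G) (s : St) :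
    TM2.stepAux (pushS r x q) v (toStk i s) =
      TM2.stepAux q v (toStk i (s.set r (x :: s.get r))) := by
  simp only [pushS, TM2.stepAux]
  erw [update_toStk]
  rfl

/-- The compiled code at each program point. -/
def code : (p : Prog) → (Lbl p → Λ) → Option Λ → Lbl p → TStmt G Λ
  | .skip, _, nxt, _ => jmp nxt
  | .push r x, _, nxt, _ => pushS r x (jmp nxt)
  | .seq p q, emb, _, Sum.inl l =>
      code p (fun l => emb (Sum.inl l)) (some (emb (Sum.inr (entry q)))) l
  | .seq _ q, emb, nxt, Sum.inr l => code q (fun l => emb (Sum.inr l)) nxt l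
  | .case r p q w, emb, _, Sum.inl _ =>
      pop3 r (some (emb (Sum.inr (Sum.inl (entry p)))))
        (some (emb (Sum.inr (Sum.inr (Sum.inl (entry q))))))
        (some (emb (Sum.inr (Sum.inr (Sum.inr (entry w))))))
  | .case _ p _ _, emb, nxt, Sum.inr (Sum.inl l) =>
      code p (fun l => emb (Sum.inr (Sum.inl l))) nxt l
  | .case _ _ q _, emb, nxt, Sum.inr (Sum.inr (Sum.inl l)) =>
      code q (fun l => emb (Sum.inr (Sum.inr (Sum.inl l)))) nxt l
  | .case _ _ _ w, emb, nxt, Sum.inr (Sum.inr (Sum.inr l)) =>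
      code w (fun l => emb (Sum.inr (Sum.inr (Sum.inr l)))) nxt l
  | .loop r p q, emb, nxt, Sum.inl _ =>
      pop3 r nxt (some (emb (Sum.inr (Sum.inl (entry p)))))
        (some (emb (Sum.inr (Sum.inr (entry q)))))
  | .loop _ p _, emb, _, Sum.inr (Sum.inl l) =>
      code p (fun l => emb (Sum.inr (Sum.inl l))) (some (emb (Sum.inl ()))) l
  | .loop _ _ q, emb, _, Sum.inr (Sum.inr l) =>
      code q (fun l => emb (Sum.inr (Sum.inr l))) (some (emb (Sum.inl ()))) l
  | .wh r p, emb, nxt, Sum.inl _ => pop3 r nxt nxt (some (emb (Sum.inr (entry p))))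
  | .wh _ p, emb, _, Sum.inr l => code p (fun l => emb (Sum.inr l)) (some (emb (Sum.inl ()))) l

/-- `c'` is reached from `c` in at most `n` steps. -/
def Reach (M : Λ → TStmt G Λ) (n : ℕ) (c c' : TCfg G Λ) : Prop :=
  ∃ k ≤ n, (flip bind (TM2.step M))^[k] (some c) = some c'

theorem Reach.mono {M : Λ → TStmt G Λ} {n n' : ℕ} {c c' : TCfg G Λ} (h : Reach M n c c')
    (hn : n ≤ n') : Reach M n' c c' := by
  obtain ⟨k, hk, e⟩ := h
  exact ⟨k, hk.trans hn, e⟩

theorem Reach.trans {M : Λ → TStmt G Λ} {n n' : ℕ} {c c' c'' : TCfg G Λ} (h : Reach M n c c')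
    (h' : Reach M n' c' c'') : Reach M (n + n') c c'' := by
  obtain ⟨k, hk, e⟩ := h
  obtain ⟨k', hk', e'⟩ := h'
  exact ⟨k' + k, by omega, by rw [Function.iterate_add_apply, e, e']⟩

theorem Reach.one {M : Λ → TStmt G Λ} {l : Λ} {v : Sig G} {S : ∀ k, List (Gam G k)}
    {c' : TCfg G Λ} (h : TM2.stepAux (M l) v S = c') : Reach M 1 ⟨some l, v, S⟩ c' :=
  ⟨1, le_rfl, by subst h; rfl⟩

theorem reach_of_exec (M : Λ → TStmt G Λ) (i : List G) {p s s' n} (h : Exec p s s' n) :
    ∀ (emb : Lbl p → Λ) (nxt : Option Λ), (∀ l, M (emb l) = code p emb nxt l) →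
      Reach M n ⟨some (emb (entry p)), (none, none), toStk i s⟩
        ⟨nxt, (none, none), toStk i s'⟩ := by
  induction h with
  | mono _ hn ih => exact fun emb nxt hM => (ih emb nxt hM).mono hn
  | skip s =>
    intro emb nxt hM
    exact Reach.one (by rw [hM]; exact stepAux_jmp _ _ _)
  | push r x s =>
    intro emb nxt hM
    exact Reach.one (by rw [hM]; simp only [code]; rw [stepAux_pushS, stepAux_jmp])
  | seq _ _ ih1 ih2 =>
    intro emb nxt hM
    exact (ih1 _ _ fun l => hM (Sum.inl l)).trans (ih2 _ _ fun l => hM (Sum.inr l))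
  | caseE h _ ih =>
    intro emb nxt hM
    rw [Nat.add_comm]
    refine Reach.trans (Reach.one ?_) (ih _ _ fun l => hM (Sum.inr (Sum.inl l)))
    rw [hM]; exact pop3_nil _ _ _ _ _ _ _ h
  | caseF h _ ih =>
    intro emb nxt hM
    rw [Nat.add_comm]
    refine Reach.trans (Reach.one ?_) (ih _ _ fun l => hM (Sum.inr (Sum.inr (Sum.inl l))))
    rw [hM]; exact pop3_false _ _ _ _ _ _ _ _ h
  | caseT h _ ih =>
    intro emb nxt hM
    rw [Nat.add_comm]
    refine Reach.trans (Reach.one ?_) (ih _ _ fun l => hM (Sum.inr (Sum.inr (Sum.inr l))))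
    rw [hM]; exact pop3_true _ _ _ _ _ _ _ _ h
  | loopE h =>
    intro emb nxt hM
    exact Reach.one (by rw [hM]; exact pop3_nil _ _ _ _ _ _ _ h)
  | loopF h _ _ ih1 ih2 =>
    intro emb nxt hM
    rw [Nat.add_comm]
    refine Reach.trans (Reach.one ?_)
      ((ih1 _ _ fun l => hM (Sum.inr (Sum.inl l))).trans (ih2 emb nxt hM))
    rw [hM]; exact pop3_false _ _ _ _ _ _ _ _ h
  | loopT h _ _ ih1 ih2 =>
    intro emb nxt hM
    rw [Nat.add_comm]
    refine Reach.trans (Reach.one ?_)
      ((ih1 _ _ fun l => hM (Sum.inr (Sum.inr l))).trans (ih2 emb nxt hM))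
    rw [hM]; exact pop3_true _ _ _ _ _ _ _ _ h
  | whF h =>
    intro emb nxt hM
    exact Reach.one (by rw [hM]; exact pop3_false _ _ _ _ _ _ _ _ h)
  | whT h _ _ ih1 ih2 =>
    intro emb nxt hM
    rw [Nat.add_comm]
    refine Reach.trans (Reach.one ?_)
      ((ih1 _ _ fun l => hM (Sum.inr l)).trans (ih2 emb nxt hM))
    rw [hM]; exact pop3_true _ _ _ _ _ _ _ _ h

end compile

end Crest.Agent.Lib.PT
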