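import Crest.Agent.Lib.PT.Int

/-!
# Polynomial time: linear recursion, finite sums over ranges, finite sets as lists
-/

set_option linter.dupNamespace false

namespace Crest.Agent.Lib.PT

universe u v w x y

variable {α : Type u} {β : Type v} {γ : Type w} {δ : Type x} [Enc α] [Enc β] [Enc γ] [Enc δ]

namespace PT

/-- Linear recursion `F s = if cont s then step s (F (next s)) else base s`, with a decreasing
measure `μ` and a non-increasing bound `ν` on the size of the argument. -/
theorem linrec {σ : Type u} [Enc σ] {cont : σ → Prop} {next : σ → σ} {base : σ → γ}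
    {step : σ → γ → γ} {F : σ → γ} (hc : PT cont)
    (hn : PT fun s : {s // cont s} => next s.1) (hb : PT fun s : {s // ¬ cont s} => base s.1)
    (hs : PT fun p : {p : σ × γ // cont p.1 ∧ p.2 = F (next p.1)} => step p.1.1 p.1.2)
    (e₁ : ∀ s, ¬ cont s → F s = base s) (e₂ : ∀ s, cont s → F s = step s (F (next s)))
    {μ ν : σ → ℕ} (hμ : PB μ) (hν : PB ν) (dec : ∀ s, cont s → μ (next s) < μ s)
    (mono : ∀ s, cont s → ν (next s) ≤ ν s) (hsz : ∀ s, sz s ≤ ν s)
    (hF : PB fun s => sz (F s)) : PT F := by
  have key : ∀ (M N k : ℕ) (s : σ) (acc : List σ), μ s ≤ k → ν s ≤ N →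
      sz acc + k * (N + 1) ≤ M → ∃ t l, Loop (fun q : σ × List σ => cont q.1)
        (fun q => (next q.1, q.1 :: q.2)) (N + M + 1) (s, acc) (t, l ++ acc) k ∧ ¬ cont t ∧
        l.foldl (fun c s => step s c) (base t) = F s ∧
        (∀ pre, pre <+: l → ∃ s', sz s' ≤ N ∧ pre.foldl (fun c s => step s c) (base t) = F s') ∧
        ∀ pre x rest, l = pre ++ x :: rest → cont x ∧
          pre.foldl (fun c s => step s c) (base t) = F (next x) := by
    intro M N k
    induction k with
    | zero =>
      intro s acc h1 h2 h3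
      have hc : ¬ cont s := fun h => by have := dec s h; omega
      have := hsz s
      refine ⟨s, [], Loop.stop hc (by simp; omega), hc, (e₁ s hc).symm, fun pre h => ?_,
        fun pre x rest h => by simp at h⟩
      rw [List.prefix_nil.1 h]
      exact ⟨s, by omega, (e₁ s hc).symm⟩
    | succ k ih =>
      intro s acc h1 h2 h3
      have := hsz s
      by_cases hc : cont s
      · have g1 := dec s hc
        have g2 := mono s hc
        rw [Nat.succ_mul] at h3
        obtain ⟨t, l, a1, a2, a3, a4, a5⟩ := ih (next s) (s :: acc) (by omega) (by omega)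
          (by simp; omega)
        have a6 : (l ++ [s]).foldl (fun c s => step s c) (base t) = F s := by
          rw [List.foldl_append, a3]; exact (e₂ s hc).symm
        refine ⟨t, l ++ [s], Loop.step hc (by simp; omega) (by simpa using a1), a2, a6,
          fun pre h => ?_, fun pre x rest h => ?_⟩
        · rcases List.prefix_concat_iff.1 h with rfl | h
          · exact ⟨s, by omega, a6⟩
          · exact a4 pre h
        · rcases List.eq_nil_or_concat rest with rfl | ⟨rest', y, rfl⟩
          · obtain ⟨rfl, h2⟩ := List.append_inj' h rfl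
            obtain rfl : s = x := by simpa using h2
            exact ⟨hc, a3⟩
          · rw [List.concat_eq_append, ← List.cons_append, ← List.append_assoc] at h
            exact a5 pre x rest' (List.append_inj' h rfl).1
      · refine ⟨s, [], Loop.stop hc (by simp; omega), hc, (e₁ s hc).symm, fun pre h => ?_,
          fun pre x rest h => by simp at h⟩
        rw [List.prefix_nil.1 h]
        exact ⟨s, by omega, (e₁ s hc).symm⟩
  choose t l a1 a2 a3 a4 a5 using fun s =>
    key (1 + μ s * (ν s + 1)) (ν s) (μ s) s [] le_rfl le_rfl (by simp)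
  have h1 := loop (cont := fun q : σ × List σ => cont q.1) (next := fun q => (next q.1, q.1 :: q.2))
    (hc.comp id.fst) (pair (hn.comp_sub (fun q => q.1.1) (by fun_prop) fun q => q.2) (by fun_prop))
    (s₀ := fun s => (s, [])) (by fun_prop) hμ (by fun_prop) a1
  obtain ⟨c, k, hF⟩ := hF
  refine (foldl_gen (f := fun _ c s => step s c) (l := l) (init := fun s => base (t s))
    (h1.snd.of_eq fun s => by simp) (hb.comp_sub t h1.fst a2)
    (hs.comp_sub (fun p => (p.1.2.2, p.1.2.1)) (by fun_prop) fun p => ?_)
    (B := fun s => c * ν s ^ k) (by fun_prop) fun s pre h => ?_).of_eq a3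
  · obtain ⟨pre, rest, g1, g2⟩ := p.2
    have := a5 _ _ _ _ g1
    exact ⟨this.1, g2.trans this.2⟩
  · obtain ⟨s', g1, g2⟩ := a4 s pre h
    rw [g2]
    exact (hF s').trans (Nat.mul_le_mul_left _ (Nat.pow_le_pow_left g1 _))

/-- Linear recursion on an argument whose size does not increase. -/
theorem linrec' {σ : Type u} [Enc σ] {cont : σ → Prop} {next : σ → σ} {base : σ → γ}
    {step : σ → γ → γ} {F : σ → γ} (hc : PT cont) (hn : PT next) (hb : PT base)
    (hs : PT fun p : σ × γ => step p.1 p.2)
    (e₁ : ∀ s, ¬ cont s → F s = base s) (e₂ : ∀ s, cont s → F s = step s (F (next s)))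
    {μ : σ → ℕ} (hμ : PB μ) (dec : ∀ s, cont s → μ (next s) < μ s)
    (mono : ∀ s, cont s → sz (next s) ≤ sz s) (hF : PB fun s => sz (F s)) : PT F :=
  linrec hc (hn.restrict _) (hb.restrict _) (hs.restrict _) e₁ e₂ hμ PB.sz_self dec mono
    (fun _ => le_rfl) hF

/-- Tail recursion `F s = if cont s then F (next s) else base s`. -/
theorem tailrec {σ : Type u} [Enc σ] {cont : σ → Prop} {next : σ → σ} {base : σ → γ}
    {F : σ → γ} (hc : PT cont)
    (hn : PT fun s : {s // cont s} => next s.1) (hb : PT fun s : {s // ¬ cont s} => base s.1)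
    (e₁ : ∀ s, ¬ cont s → F s = base s) (e₂ : ∀ s, cont s → F s = F (next s))
    {μ ν : σ → ℕ} (hμ : PB μ) (hν : PB ν) (dec : ∀ s, cont s → μ (next s) < μ s)
    (mono : ∀ s, cont s → ν (next s) ≤ ν s) (hsz : ∀ s, sz s ≤ ν s) : PT F := by
  have key : ∀ (N k : ℕ) (s : σ), μ s ≤ k → ν s ≤ N →
      ∃ t, Loop cont next N s t k ∧ ¬ cont t ∧ base t = F s := by
    intro N k
    induction k with
    | zero =>
      intro s h1 h2
      have hc : ¬ cont s := fun h => by have := dec s h; omega
      exact ⟨s, Loop.stop hc ((hsz s).trans h2), hc, (e₁ s hc).symm⟩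
    | succ k ih =>
      intro s h1 h2
      by_cases hc : cont s
      · have g1 := dec s hc
        have g2 := mono s hc
        obtain ⟨t, a1, a2, a3⟩ := ih (next s) (by omega) (by omega)
        exact ⟨t, Loop.step hc ((hsz s).trans h2) a1, a2, a3.trans (e₂ s hc).symm⟩
      · exact ⟨s, Loop.stop hc ((hsz s).trans h2), hc, (e₁ s hc).symm⟩
  choose t a1 a2 a3 using fun s => key (ν s) (μ s) s le_rfl le_rfl
  exact (hb.comp_sub t (loop hc hn id hμ hν a1) a2).of_eq a3

/-- Primitive recursion on a polynomially bounded number, given a bound on all values. -/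
theorem nat_rec {n : α → ℕ} {z : α → γ} {f : α → ℕ → γ → γ} {F : α → ℕ → γ}
    (hn : PT n) (hb : PB n) (hz : PT z) (hf : PT fun p : α × ℕ × γ => f p.1 p.2.1 p.2.2)
    (e₁ : ∀ a, F a 0 = z a) (e₂ : ∀ a k, k < n a → F a (k + 1) = f a k (F a k))
    {B : α → ℕ} (hB : PB B) (hsz : ∀ a k, k ≤ n a → sz (F a k) ≤ B a) :
    PT fun a => F a (n a) := by
  have key : ∀ a k, k ≤ n a →
      (fun c : ℕ × γ => (c.1 + 1, f a c.1 c.2))^[k] (0, z a) = (k, F a k) := by
    intro a k
    induction k with
    | zero => intro _; rw [e₁]; rfl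
    | succ k ih => intro h; rw [Function.iterate_succ_apply', ih (by omega), e₂ a k h]
  refine (iterate (f := fun a (c : ℕ × γ) => (c.1 + 1, f a c.1 c.2)) (s := fun a => (0, z a))
    hn hb (by fun_prop) (pair (by fun_prop) hf) (B := fun a => 4 * n a + B a + 2) (by fun_prop)
    fun a k hk => ?_).snd.of_eq fun a => by rw [key a _ le_rfl]
  have := hsz a k hk
  have := sz_nat_le_self k
  rw [key a k hk, sz_mk]; omega

/-- Primitive recursion; the step need only be fast on the values that occur. -/
theorem nat_rec' {n : α → ℕ} {z : α → γ} {f : α → ℕ → γ → γ} {F : α → ℕ → γ}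
    (hn : PT n) (hb : PB n) (hz : PT z)
    (hf : PT fun p : {p : α × ℕ × γ // p.2.1 < n p.1 ∧ p.2.2 = F p.1 p.2.1} =>
      f p.1.1 p.1.2.1 p.1.2.2)
    (e₁ : ∀ a, F a 0 = z a) (e₂ : ∀ a k, k < n a → F a (k + 1) = f a k (F a k))
    {B : α → ℕ} (hB : PB B) (hsz : ∀ a k, k ≤ n a → sz (F a k) ≤ B a) :
    PT fun a => F a (n a) := by
  have key : ∀ a k, k ≤ n a →
      (fun c : ℕ × γ => (c.1 + 1, f a c.1 c.2))^[k] (0, z a) = (k, F a k) := by
    intro a k
    induction k with
    | zero => intro _; rw [e₁]; rfl
    | succ k ih => intro h; rw [Function.iterate_succ_apply', ih (by omega), e₂ a k h]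
  refine (iterate_inv (f := fun a (c : ℕ × γ) => (c.1 + 1, f a c.1 c.2))
    (s := fun a => (0, z a)) (fun a k c => c = (k, F a k)) hn hb (by fun_prop)
    (fun a => by rw [e₁]) (fun a k c h e => by rw [e, e₂ a k h])
    (pair (by fun_prop) (hf.sub_mono ?_)) (B := fun a => 4 * n a + B a + 2) (by fun_prop)
    fun a k c hk e => ?_).snd.of_eq fun a => by rw [key a _ le_rfl]
  · rintro ⟨a, c⟩ ⟨k, h1, h2⟩
    simp only [] at h1 h2
    subst h2
    exact ⟨h1, rfl⟩
  · have := hsz a k hk
    have := sz_nat_le_self k
    rw [e, sz_mk]; omega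

/-! ### Finite sums and products over ranges -/

@[fun_prop] theorem sum_range [AddCommMonoid β] {n : α → ℕ} {f : α → ℕ → β}
    (hs : PT fun l : List β => l.sum) (hn : PT n) (hb : PB n)
    (hf : PT fun p : α × ℕ => f p.1 p.2) : PT fun a => ∑ i ∈ Finset.range (n a), f a i :=
  hs.comp (map (hn.range hb) hf)

@[fun_prop] theorem prod_range [CommMonoid β] {n : α → ℕ} {f : α → ℕ → β}
    (hs : PT fun l : List β => l.prod) (hn : PT n) (hb : PB n)
    (hf : PT fun p : α × ℕ => f p.1 p.2) : PT fun a => ∏ i ∈ Finset.range (n a), f a i :=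
  hs.comp (map (hn.range hb) hf)

theorem sum_range' [AddCommMonoid β] {n : α → ℕ} {f : α → ℕ → β}
    (hs : PT fun l : List β => l.sum) (hn : PT n) (hb : PB n)
    (hf : PT fun p : {p : α × ℕ // p.2 < n p.1} => f p.1.1 p.1.2) :
    PT fun a => ∑ i ∈ Finset.range (n a), f a i :=
  hs.comp (map_range hn hb hf)

theorem prod_range' [CommMonoid β] {n : α → ℕ} {f : α → ℕ → β}
    (hs : PT fun l : List β => l.prod) (hn : PT n) (hb : PB n)
    (hf : PT fun p : {p : α × ℕ // p.2 < n p.1} => f p.1.1 p.1.2) :
    PT fun a => ∏ i ∈ Finset.range (n a), f a i :=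
  hs.comp (map_range hn hb hf)

/-- A list given by a function on `Fin (n a)` that extends to all numbers. -/
theorem ofFn {n : α → ℕ} {f : ∀ a, Fin (n a) → β} (g : α → ℕ → β) (hn : PT n) (hb : PB n)
    (hg : PT fun p : {p : α × ℕ // p.2 < n p.1} => g p.1.1 p.1.2)
    (e : ∀ a i, f a i = g a i) : PT fun a => List.ofFn (f a) :=
  (map_range hn hb hg).of_eq fun a => by
    apply List.ext_getElem <;> simp [e]

/-- A list given by a function on `Fin (n a)`. -/
theorem ofFn' {n : α → ℕ} {f : ∀ a, Fin (n a) → β} (hn : PT n) (hb : PB n)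
    (hf : PT fun p : {p : α × ℕ // p.2 < n p.1} => f p.1.1 ⟨p.1.2, p.2⟩) :
    PT fun a => List.ofFn (f a) := by
  have h := filterMap_mem (f := fun a i => if h : i < n a then Option.some (f a ⟨i, h⟩) else none)
    (hn.range hb) (hf.some.sub_mono (fun _ h => List.mem_range.1 h) fun p => by
      rw [dif_pos (List.mem_range.1 p.2)])
  refine h.of_eq fun a => ?_
  rw [← List.map_coe_finRange_eq_range, List.filterMap_map, List.ofFn_eq_map]
  simp

/-- Fold of `max` over a list of numbers. -/
@[fun_prop] theorem nat_foldr_max {l : α → List ℕ} {d : α → ℕ} (hl : PT l) (hd : PT d) :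
    PT fun a => (l a).foldr max (d a) :=
  foldr_grow (f := fun _ b c => max b c) hl hd (by fun_prop) (G := fun p => sz p.2)
    (by fun_prop) fun a b c _ => by rw [max_def]; split_ifs <;> simp

/-- Folding a selection function: the accumulator is always the old one or the new element. -/
theorem foldl_select {l : α → List β} {init : α → β} {f : α → β → β → β} (hl : PT l)
    (hi : PT init) (hf : PT fun p : α × β × β => f p.1 p.2.1 p.2.2)
    (h : ∀ a c b, f a c b = c ∨ f a c b = b) : PT fun a => (l a).foldl (f a) (init a) :=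
  foldl_grow hl hi hf (G := fun p => sz p.2) (by fun_prop) fun a c b _ => by
    rcases h a c b with e | e <;> simp [e]

/-- Folding a selection function: the accumulator is always the old one or the new element. -/
theorem foldr_select {l : α → List β} {init : α → β} {f : α → β → β → β} (hl : PT l)
    (hi : PT init) (hf : PT fun p : α × β × β => f p.1 p.2.1 p.2.2)
    (h : ∀ a b c, f a b c = c ∨ f a b c = b) : PT fun a => (l a).foldr (f a) (init a) :=
  foldr_grow hl hi hf (G := fun p => sz p.2) (by fun_prop) fun a b c _ => by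
    rcases h a b c with e | e <;> simp [e]

@[fun_prop] theorem argmin [LinearOrder γ] {l : α → List β} {f : α → β → γ} (hl : PT l)
    (hlt : PT fun p : γ × γ => p.1 < p.2) (hf : PT fun p : α × β => f p.1 p.2) :
    PT fun a => (l a).argmin (f a) := by
  unfold List.argmin
  refine foldl_grow hl (const none) ?_ (G := fun p => sz p.2 + 2) (by fun_prop) ?_
  · refine option_cases (o := fun p => p.2.1) (f := fun p => Option.some p.2.2)
      (g := fun p c => if f p.1 p.2.2 < f p.1 c then Option.some p.2.2 else Option.some c)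
      (by fun_prop) (by fun_prop) (ite (hlt.comp_eq (fun p => (f p.1.1 p.1.2.2, f p.1.1 p.2))
        (pair (hf.comp_eq (fun p => (p.1.1, p.1.2.2)) (by fun_prop))
          (hf.comp_eq (fun p => (p.1.1, p.2)) (by fun_prop)))) (by fun_prop) (by fun_prop))
      (fun a h => by rw [h]; rfl) (fun a b h => by rw [h]; rfl)
  · rintro a (_ | c) b _ <;> simp [List.argAux]
    split_ifs <;> simp

@[fun_prop] theorem argmax [LinearOrder γ] {l : α → List β} {f : α → β → γ} (hl : PT l)
    (hlt : PT fun p : γ × γ => p.1 < p.2) (hf : PT fun p : α × β => f p.1 p.2) :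
    PT fun a => (l a).argmax (f a) := by
  unfold List.argmax
  refine foldl_grow hl (const none) ?_ (G := fun p => sz p.2 + 2) (by fun_prop) ?_
  · refine option_cases (o := fun p => p.2.1) (f := fun p => Option.some p.2.2)
      (g := fun p c => if f p.1 c < f p.1 p.2.2 then Option.some p.2.2 else Option.some c)
      (by fun_prop) (by fun_prop) (ite (hlt.comp_eq (fun p => (f p.1.1 p.2, f p.1.1 p.1.2.2))
        (pair (hf.comp_eq (fun p => (p.1.1, p.2)) (by fun_prop))
          (hf.comp_eq (fun p => (p.1.1, p.1.2.2)) (by fun_prop)))) (by fun_prop) (by fun_prop))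
      (fun a h => by rw [h]; rfl) (fun a b h => by rw [h]; rfl)
  · rintro a (_ | c) b _ <;> simp [List.argAux]
    split_ifs <;> simp

/-- All lists of length `k` over the letters in `l`. -/
def words (l : List β) : ℕ → List (List β)
  | 0 => [[]]
  | k + 1 => l.flatMap fun b => (words l k).map (b :: ·)

omit [Enc β] in
theorem mem_words {l : List β} {k : ℕ} {w : List β} :
    w ∈ words l k ↔ w.length = k ∧ ∀ b ∈ w, b ∈ l := by
  induction k generalizing w with
  | zero => simp only [words, List.mem_singleton, List.length_eq_zero_iff]; aesop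
  | succ k ih =>
    cases w with
    | nil => simp [words]
    | cons b w => simp [words, ih]; tauto

omit [Enc β] in
theorem length_words (l : List β) (k : ℕ) : (words l k).length = l.length ^ k := by
  induction k with
  | zero => rfl
  | succ k ih => simp [words, List.length_flatMap, ih, pow_succ, mul_comm]

omit [Enc β] in
theorem nodup_words {l : List β} (hl : l.Nodup) (k : ℕ) : (words l k).Nodup := by
  induction k with
  | zero => simp [words]
  | succ k ih =>
    rw [words, List.nodup_flatMap]
    refine ⟨fun b _ => ih.map fun _ _ h => by simpa using h, hl.imp fun h => ?_⟩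
    simp only [Function.onFun, List.disjoint_left, List.mem_map]
    rintro _ ⟨w, _, rfl⟩ ⟨w', _, e⟩
    exact h (List.cons.inj e).1.symm

/-- Enumerating words, when there are polynomially many. -/
theorem words_pt {l : α → List β} {k : α → ℕ} (hl : PT l) (hk : PT k) (hb : PB k)
    (hc : PB fun a => ((l a).length + 1) ^ k a) : PT fun a => words (l a) (k a) := by
  refine nat_rec (F := fun a => words (l a))
    (f := fun a _ c => (l a).flatMap fun b => c.map (b :: ·)) hk hb (const [[]]) (by fun_prop)
    (fun _ => rfl) (fun _ _ _ => rfl)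
    (B := fun a => ((l a).length + 1) ^ k a * (k a * (sz (l a) + 1) + 1 + 1) + 1) (by fun_prop)
    fun a i hi => ?_
  refine (sz_list_le (B := k a * (sz (l a) + 1) + 1) fun w hw => ?_).trans ?_
  · obtain ⟨h1, h2⟩ := mem_words.1 hw
    have := sz_list_le (B := sz (l a)) fun b hb => sz_le_of_mem (h2 b hb)
    have := Nat.mul_le_mul_right (sz (l a) + 1) hi
    rw [h1] at *; omega
  · rw [length_words]
    have : (l a).length ^ i ≤ ((l a).length + 1) ^ k a :=
      (Nat.pow_le_pow_left (by omega) _).trans (Nat.pow_le_pow_right (by omega) hi)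
    have := Nat.mul_le_mul_right (k a * (sz (l a) + 1) + 1 + 1) this
    omega

end PT

end Crest.Agent.Lib.PT
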