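import Crest.Agent.Lib.PT.Machine

/-!
# Binary trees as values, and closure properties of timed computations on them

`Cmp X Y T` : one program turns the code of `X a` on top of the main stack into the code of `Y a`
within `T a` steps, for every index `a`.
-/

namespace Crest.Agent.Lib.PT

/-- The universal value type: binary trees. -/
inductive V : Type
  | nil
  | node (l r : V)
  deriving DecidableEq

namespace V

/-- Prefix code of a tree. -/
def bits : V → List Bool
  | nil => [false]
  | node a b => true :: (a.bits ++ b.bits)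

/-- Length of the prefix code. -/
def size : V → ℕ
  | nil => 1
  | node a b => a.size + b.size + 1

/-- Left subtree. -/
def left : V → V
  | nil => nil
  | node a _ => a

/-- Right subtree. -/
def right : V → V
  | nil => nil
  | node _ b => b

/-- Booleans as trees. -/
def ofBool : Bool → V
  | false => nil
  | true => node nil nil

@[simp] theorem bits_nil : nil.bits = [false] := rfl
@[simp] theorem bits_node (a b : V) : (node a b).bits = true :: (a.bits ++ b.bits) := rfl
@[simp] theorem size_nil : nil.size = 1 := rfl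
@[simp] theorem size_node (a b : V) : (node a b).size = a.size + b.size + 1 := rfl
@[simp] theorem left_node (a b : V) : (node a b).left = a := rfl
@[simp] theorem right_node (a b : V) : (node a b).right = b := rfl
@[simp] theorem left_nil : nil.left = nil := rfl
@[simp] theorem right_nil : nil.right = nil := rfl

@[simp] theorem length_bits (v : V) : v.bits.length = v.size := by
  induction v with
  | nil => rfl
  | node a b iha ihb => simp [iha, ihb]

theorem size_pos (v : V) : 0 < v.size := by cases v <;> simp

theorem one_le_size (v : V) : 1 ≤ v.size := v.size_pos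

theorem size_left_le (v : V) : v.left.size ≤ v.size := by cases v <;> simp; omega

theorem size_right_le (v : V) : v.right.size ≤ v.size := by cases v <;> simp; omega

theorem size_ofBool_le (b : Bool) : (ofBool b).size ≤ 3 := by cases b <;> simp [ofBool]

end V

/-! ### Primitive programs -/

/-- Move all of stack `r` onto stack `r'` (reversing it). -/
def pour (r r' : R) : Prog := .loop r (.push r' false) (.push r' true)

theorem exec_pour (r r' : R) (h : r ≠ r') (l : List Bool) : ∀ s : St, s.get r = l →
    Exec (pour r r') s ((s.set r []).set r' (l.reverse ++ s.get r')) (2 * l.length + 1) := by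
  induction l with
  | nil =>
    intro s hs
    have : (s.set r []).set r' (([] : List Bool).reverse ++ s.get r') = s := by
      cases r <;> cases r' <;> simp_all <;> cases s <;> simp_all
    rw [this]; exact Exec.loopE hs
  | cons x l ih =>
    intro s hs
    have h1 := ih ((s.set r l).set r' (x :: (s.set r l).get r'))
      (by cases r <;> cases r' <;> simp_all)
    have e : ((((s.set r l).set r' (x :: (s.set r l).get r')).set r []).set r'
        (l.reverse ++ ((s.set r l).set r' (x :: (s.set r l).get r')).get r')) =
        (s.set r []).set r' ((x :: l).reverse ++ s.get r') := by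
      cases r <;> cases r' <;> simp_all
    rw [e] at h1
    cases x
    · exact (Exec.loopF hs (Exec.push _ _ _) h1).mono (by simp; omega)
    · exact (Exec.loopT hs (Exec.push _ _ _) h1).mono (by simp; omega)

/-- Move stack `a` onto both `m` and `b`. -/
def pour2 : Prog :=
  .loop .a (.seq (.push .m false) (.push .b false)) (.seq (.push .m true) (.push .b true))

theorem exec_pour2 (l : List Bool) : ∀ m b c : List Bool,
    Exec pour2 ⟨m, l, b, c⟩ ⟨l.reverse ++ m, [], l.reverse ++ b, c⟩ (3 * l.length + 1) := by
  induction l with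
  | nil => intro m b c; exact Exec.loopE rfl
  | cons x l ih =>
    intro m b c
    have h1 := ih (x :: m) (x :: b) c
    rw [List.reverse_cons, List.append_assoc, List.append_assoc]
    cases x
    · refine Exec.mono (Exec.loopF rfl (Exec.seq (Exec.push _ _ _) (Exec.push _ _ _)) h1) ?_
      simp; omega
    · refine Exec.mono (Exec.loopT rfl (Exec.seq (Exec.push _ _ _) (Exec.push _ _ _)) h1) ?_
      simp; omega

/-- Empty stack `a`. -/
def clearA : Prog := .loop .a .skip .skip

theorem exec_clearA (l : List Bool) : ∀ m b c : List Bool,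
    Exec clearA ⟨m, l, b, c⟩ ⟨m, [], b, c⟩ (2 * l.length + 1) := by
  induction l with
  | nil => intro m b c; exact Exec.loopE rfl
  | cons x l ih =>
    intro m b c
    cases x
    · refine Exec.mono (Exec.loopF rfl (Exec.skip _) (ih m b c)) ?_
      simp; omega
    · refine Exec.mono (Exec.loopT rfl (Exec.skip _) (ih m b c)) ?_
      simp; omega

/-- The loop that moves one tree from `m` to `a`. -/
def scanW : Prog :=
  .wh .c (.case .m .skip (.push .a false)
    (.seq (.push .a true) (.seq (.push .c true) (.push .c true))))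

theorem exec_scanW (v : V) : ∀ (m a b c : List Bool) (s' : St) (n : ℕ),
    Exec scanW ⟨m, v.bits.reverse ++ a, b, c⟩ s' n →
    Exec scanW ⟨v.bits ++ m, a, b, true :: c⟩ s' (n + 5 * v.size) := by
  induction v with
  | nil =>
    intro m a b c s' n h
    refine Exec.mono (Exec.whT rfl (Exec.caseF rfl (Exec.push _ _ _)) h) ?_
    simp; omega
  | node x y ihx ihy =>
    intro m a b c s' n h
    have h1 := ihy m (x.bits.reverse ++ true :: a) b c s' n (by simpa using h)
    have h2 := ihx (y.bits ++ m) (true :: a) b (true :: c) s' _ h1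
    rw [V.bits_node, List.cons_append, List.append_assoc]
    refine Exec.mono (Exec.whT rfl (Exec.caseT rfl (Exec.seq (Exec.push _ _ _)
      (Exec.seq (Exec.push _ _ _) (Exec.push _ _ _)))) h2) ?_
    simp; omega

/-- Move one tree from `m` to `a` (reversed). -/
def scan : Prog := .seq (.push .c false) (.seq (.push .c true) scanW)

theorem exec_scan (v : V) (m a b c : List Bool) :
    Exec scan ⟨v.bits ++ m, a, b, c⟩ ⟨m, v.bits.reverse ++ a, b, c⟩ (5 * v.size + 3) :=
  (Exec.seq (Exec.push _ _ _) (Exec.seq (Exec.push _ _ _)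
    (exec_scanW v m a b (false :: c) _ _ (Exec.whF rfl)))).mono (by omega)

/-- `p` replaces the top segment `u` of the main stack by `w` within `t` steps. -/
def Run (p : Prog) (u w : List Bool) (t : ℕ) : Prop :=
  ∀ rest, Exec p ⟨u ++ rest, [], [], []⟩ ⟨w ++ rest, [], [], []⟩ t

theorem Run.mono {p u w t t'} (h : Run p u w t) (ht : t ≤ t') : Run p u w t' :=
  fun rest => (h rest).mono ht

theorem Run.frame {p u w t} (h : Run p u w t) (z : List Bool) : Run p (u ++ z) (w ++ z) t :=
  fun rest => by rw [List.append_assoc, List.append_assoc]; exact h _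

theorem Run.seq {p q u w z t t'} (h : Run p u w t) (h' : Run q w z t') :
    Run (.seq p q) u z (t + t') :=
  fun rest => Exec.seq (h rest) (h' rest)

theorem Run.skip (u : List Bool) : Run .skip u u 1 := fun _ => Exec.skip _

theorem Run.push (x : Bool) (u : List Bool) : Run (.push .m x) u (x :: u) 1 :=
  fun _ => Exec.push _ _ _

theorem Run.caseF {pe pf pt u w t} (h : Run pf u w t) :
    Run (.case .m pe pf pt) (false :: u) w (t + 1) :=
  fun rest => Exec.caseF rfl (h rest)

theorem Run.caseT {pe pf pt u w t} (h : Run pt u w t) :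
    Run (.case .m pe pf pt) (true :: u) w (t + 1) :=
  fun rest => Exec.caseT rfl (h rest)

theorem Run.whF (p : Prog) (u : List Bool) : Run (.wh .m p) (false :: u) u 1 :=
  fun _ => Exec.whF rfl

theorem Run.whT {p u w z t t'} (h : Run p u w t) (h' : Run (.wh .m p) w z t') :
    Run (.wh .m p) (true :: u) z (t + t' + 1) :=
  fun rest => Exec.whT rfl (h rest) (h' rest)

theorem Run.length_le {p u w t} (h : Run p u w t) : w.length ≤ u.length + t := by
  have := (h []).tot_le
  simpa [St.tot] using this

/-- Pop one bit. -/
def popP : Prog := .case .m .skip .skip .skip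

theorem run_pop (x : Bool) (u : List Bool) : Run popP (x :: u) u 2 := by
  cases x
  · exact Run.caseF (Run.skip u)
  · exact Run.caseT (Run.skip u)

/-- Drop the top tree. -/
def dropP : Prog := .seq scan clearA

theorem run_drop (v : V) (u : List Bool) : Run dropP (v.bits ++ u) u (7 * v.size + 4) := by
  intro rest
  rw [List.append_assoc]
  refine (Exec.seq (exec_scan v _ _ _ _) (exec_clearA _ _ _ _)).mono ?_
  simp; omega

/-- Duplicate the top tree. -/
def dupP : Prog := .seq scan (.seq pour2 (.seq (pour .b .a) (pour .a .m)))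

theorem run_dup (v : V) : Run dupP v.bits (v.bits ++ v.bits) (12 * v.size + 6) := by
  intro rest
  have h1 := exec_scan v rest [] [] []
  have h2 := exec_pour2 (v.bits.reverse ++ []) rest [] []
  have h3 := exec_pour .b .a (by decide) _
    ⟨(v.bits.reverse ++ []).reverse ++ rest, [], (v.bits.reverse ++ []).reverse ++ [], []⟩ rfl
  have h4 := exec_pour .a .m (by decide) _
    ⟨(v.bits.reverse ++ []).reverse ++ rest,
      ((v.bits.reverse ++ []).reverse ++ []).reverse ++ [], [], []⟩ rfl
  have h := Exec.seq h1 (Exec.seq h2 (Exec.seq h3 h4))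
  simp at h
  rw [List.append_assoc]
  exact h.mono (by omega)

/-- Swap the two top trees. -/
def swapP : Prog :=
  .seq scan (.seq (pour .a .b) (.seq scan (.seq (pour .b .c) (.seq (pour .c .m) (pour .a .m)))))

theorem run_swap (x y : V) :
    Run swapP (x.bits ++ y.bits) (y.bits ++ x.bits) (11 * x.size + 7 * y.size + 10) := by
  intro rest
  have h1 := exec_scan x (y.bits ++ rest) [] [] []
  have h2 := exec_pour .a .b (by decide) _ ⟨y.bits ++ rest, x.bits.reverse ++ [], [], []⟩ rfl
  have h3 := exec_scan y rest [] x.bits []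
  have h4 := exec_pour .b .c (by decide) _ ⟨rest, y.bits.reverse ++ [], x.bits, []⟩ rfl
  have h5 := exec_pour .c .m (by decide) _ ⟨rest, y.bits.reverse ++ [], [], x.bits.reverse⟩ rfl
  have h6 := exec_pour .a .m (by decide) _ ⟨x.bits ++ rest, y.bits.reverse ++ [], [], []⟩ rfl
  simp at h1 h2 h3 h4 h5 h6
  have h := Exec.seq h1 (Exec.seq h2 (Exec.seq h3 (Exec.seq h4 (Exec.seq h5 h6))))
  rw [List.append_assoc, List.append_assoc]
  exact h.mono (by omega)

/-- Push a fixed list of bits. -/
def pushL : List Bool → Prog
  | [] => .skip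
  | x :: l => .seq (pushL l) (.push .m x)

theorem run_pushL (l u : List Bool) : Run (pushL l) u (l ++ u) (l.length + 1) := by
  induction l with
  | nil => exact Run.skip u
  | cons x l ih => exact (ih.seq (Run.push x _)).mono (by simp)

/-! ### Timed computation on indexed families of trees -/

universe u v

/-- One program turns the code of `X a` into the code of `Y a` within `T a` steps. -/
def Cmp {α : Type u} (X Y : α → V) (T : α → ℕ) : Prop :=
  ∃ p : Prog, ∀ a, Run p (X a).bits (Y a).bits (T a)

namespace Cmp

variable {α : Type u} {β : Type v} {X Y Z : α → V} {T T' : α → ℕ}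

theorem mono (h : Cmp X Y T) (hT : ∀ a, T a ≤ T' a) : Cmp X Y T' := by
  obtain ⟨p, hp⟩ := h
  exact ⟨p, fun a => (hp a).mono (hT a)⟩

theorem reindex (h : Cmp X Y T) (g : β → α) :
    Cmp (fun b => X (g b)) (fun b => Y (g b)) (fun b => T (g b)) := by
  obtain ⟨p, hp⟩ := h
  exact ⟨p, fun b => hp (g b)⟩

theorem congr {X' Y' : α → V} (h : Cmp X Y T) (hX : ∀ a, X' a = X a) (hY : ∀ a, Y' a = Y a) :
    Cmp X' Y' T := by
  obtain ⟨p, hp⟩ := h
  exact ⟨p, fun a => by rw [hX, hY]; exact hp a⟩

theorem size_le (h : Cmp X Y T) (a : α) : (Y a).size ≤ (X a).size + T a := by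
  obtain ⟨p, hp⟩ := h
  simpa using (hp a).length_le

theorem refl (X : α → V) : Cmp X X (fun _ => 1) := ⟨.skip, fun _ => Run.skip _⟩

theorem const (X : α → V) (v : V) :
    Cmp X (fun _ => v) (fun a => 7 * (X a).size + v.size + 5) := by
  refine ⟨.seq dropP (pushL v.bits), fun a => ?_⟩
  have h := (run_drop (X a) []).seq (run_pushL v.bits [])
  simp at h
  exact h.mono (by simp only []; omega)

theorem trans (h : Cmp X Y T) (h' : Cmp Y Z T') : Cmp X Z (fun a => T a + T' a) := by
  obtain ⟨p, hp⟩ := h
  obtain ⟨q, hq⟩ := h'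
  exact ⟨.seq p q, fun a => (hp a).seq (hq a)⟩

theorem pair (h : Cmp X Y T) (h' : Cmp X Z T') :
    Cmp X (fun a => V.node (Y a) (Z a)) (fun a => T a + 12 * T' a + 30 * (X a).size + 17) := by
  have hs := h'.size_le
  obtain ⟨p, hp⟩ := h
  obtain ⟨q, hq⟩ := h'
  refine ⟨.seq dupP (.seq q (.seq swapP (.seq p (.push .m true)))), fun a => ?_⟩
  have := hs a
  exact ((run_dup (X a)).seq (((hq a).frame _).seq ((run_swap _ _).seq
    (((hp a).frame _).seq (Run.push true _))))).mono (by simp only []; omega)

theorem left (X : α → V) : Cmp X (fun a => (X a).left) (fun a => 14 * (X a).size + 15) := by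
  refine ⟨.case .m .skip (.push .m false) (.seq swapP dropP), fun a => ?_⟩
  simp only []
  cases X a with
  | nil => exact (Run.caseF (Run.push false [])).mono (by simp)
  | node x y =>
    exact (Run.caseT ((run_swap x y).seq (run_drop y x.bits))).mono (by simp; omega)

theorem right (X : α → V) : Cmp X (fun a => (X a).right) (fun a => 7 * (X a).size + 5) := by
  refine ⟨.case .m .skip (.push .m false) dropP, fun a => ?_⟩
  simp only []
  cases X a with
  | nil => exact (Run.caseF (Run.push false [])).mono (by simp)
  | node x y => exact (Run.caseT (run_drop x y.bits)).mono (by simp; omega)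

theorem cond {C : α → V} {T₀ T₁ : α → ℕ} (hC : Cmp X C T₀)
    (h₁ : Cmp (fun a : {a // C a = V.nil} => X a.1) (fun a => Y a.1) (fun a => T₁ a.1))
    (h₂ : Cmp (fun a : {a // C a ≠ V.nil} => X a.1) (fun a => Y a.1) (fun a => T₁ a.1)) :
    Cmp X Y (fun a => 8 * T₀ a + T₁ a + 19 * (X a).size + 15) := by
  have hs := hC.size_le
  obtain ⟨c, hc⟩ := hC
  obtain ⟨p, hp⟩ := h₁
  obtain ⟨q, hq⟩ := h₂
  refine ⟨.seq dupP (.seq c (.case .m .skip p (.seq dropP (.seq dropP q)))), fun a => ?_⟩
  have h1 := hs a
  have h2 := (hc a).frame (X a).bits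
  cases h : C a with
  | nil =>
    rw [h] at h2
    exact ((run_dup (X a)).seq (h2.seq (Run.caseF (hp ⟨a, h⟩)))).mono (by simp; omega)
  | node x y =>
    rw [h] at h2 h1
    have h3 := hq ⟨a, by rw [h]; simp⟩
    have h4 := Run.caseT (pe := .skip) (pf := p) ((run_drop x (y.bits ++ (X a).bits)).seq
      ((run_drop y (X a).bits).seq h3))
    rw [← List.append_assoc] at h4
    exact ((run_dup (X a)).seq (h2.seq h4)).mono (by simp at h1 ⊢; omega)

theorem while_loop {σ : Type v} {S : σ → V} {cont : σ → Bool} {next : σ → σ} {Tc Tb : σ → ℕ}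
    (hc : Cmp S (fun s => V.ofBool (cont s)) Tc)
    (hb : Cmp (fun s : {s // cont s = true} => S s.1) (fun s => S (next s.1)) (fun s => Tb s.1))
    (s₀ : α → σ) (N B : α → ℕ)
    (h1 : ∀ a i, i < N a → cont (next^[i] (s₀ a)) = true)
    (h2 : ∀ a, cont (next^[N a] (s₀ a)) = false)
    (h3 : ∀ a i, i ≤ N a → Tc (next^[i] (s₀ a)) ≤ B a ∧ (S (next^[i] (s₀ a))).size ≤ B a)
    (h4 : ∀ a i, i < N a → Tb (next^[i] (s₀ a)) ≤ B a) :
    Cmp (fun a => S (s₀ a)) (fun a => S (next^[N a] (s₀ a)))
      (fun a => (N a + 1) * (14 * B a + 12)) := by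
  obtain ⟨c, hc⟩ := hc
  obtain ⟨b, hb⟩ := hb
  let tst : Prog := .seq dupP c
  let W : Prog := .wh .m (.seq popP (.seq popP (.seq b tst)))
  have htst : ∀ s, Run tst (S s).bits ((V.ofBool (cont s)).bits ++ (S s).bits)
      (12 * (S s).size + 6 + Tc s) := fun s => (run_dup _).seq ((hc s).frame _)
  have key : ∀ (n Bd : ℕ) (s : σ), (∀ i, i < n → cont (next^[i] s) = true) →
      cont (next^[n] s) = false →
      (∀ i, i ≤ n → Tc (next^[i] s) ≤ Bd ∧ (S (next^[i] s)).size ≤ Bd) →
      (∀ i, i < n → Tb (next^[i] s) ≤ Bd) →
      Run W ((V.ofBool (cont s)).bits ++ (S s).bits) (S (next^[n] s)).bits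
        (n * (14 * Bd + 12) + 1) := by
    intro n
    induction n with
    | zero =>
      intro Bd s _ g2 _ _
      simp only [Function.iterate_zero, id] at g2 ⊢
      rw [g2]
      exact (Run.whF _ _).mono (by simp)
    | succ n ih =>
      intro Bd s g1 g2 g3 g4
      have c0 : cont s = true := g1 0 (by omega)
      have ih' := ih Bd (next s) (fun i hi => g1 (i + 1) (by omega)) g2
        (fun i hi => g3 (i + 1) (by omega)) (fun i hi => g4 (i + 1) (by omega))
      have t1 := g3 1 (by omega)
      have t2 := g4 0 (by omega)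
      simp only [Function.iterate_succ, Function.iterate_zero, Function.comp, id] at t1 t2
      rw [c0]
      have body := (run_pop false _).seq ((run_pop false _).seq
        ((hb ⟨s, c0⟩).seq (htst (next s))))
      refine (Run.whT body ih').mono ?_
      simp only [Nat.succ_mul]
      omega
  refine ⟨.seq tst W, fun a => ?_⟩
  have t0 := h3 a 0 (by omega)
  simp only [Function.iterate_zero, id] at t0
  refine ((htst (s₀ a)).seq (key (N a) (B a) (s₀ a) (h1 a) (h2 a) (h3 a) (h4 a))).mono ?_
  simp only [Nat.succ_mul]
  omega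

end Cmp

end Crest.Agent.Lib.PT
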